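import Mathlib

/-!
# P199: finitely many conditions make the ratio of the two leading motions a generator

`lam : T →ₗ[K] F` are the motions of a row; if their values contain `1` and generate the field `F`,
then, for `a` with `lam a ≠ 0`, finitely many nonzero functionals on `T` detect `F = K (lam b / lam a)`.
-/

namespace Vale.P199.Admissible

open Module IntermediateField

variable {K F T : Type*} [Field K] [Field F] [Algebra K F] [FiniteDimensional K F]
  [Algebra.IsSeparable K F] [AddCommGroup T] [Module K T]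

/-- The functionals for `b`, nonzero also on any subspace with the same image. -/
theorem exists_functionals (lam : T →ₗ[K] F) (T' : Submodule K T)
    (h1 : (1 : F) ∈ T'.map lam) (hgen : IntermediateField.adjoin K (T'.map lam : Set F) = ⊤)
    (a : T) (ha : lam a ≠ 0) :
    ∃ s : Finset (Dual K T), (∀ f ∈ s, ∃ b ∈ T', f b ≠ 0) ∧
      ∀ b, (∀ f ∈ s, f b ≠ 0) → K⟮lam b / lam a⟯ = ⊤ := by
  classical
  have : Finite (IntermediateField K F) :=
    Field.finite_intermediateField_of_exists_primitive_element K F (Field.exists_primitive_element K F)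
  have key : ∀ E : {E : IntermediateField K F // E ≠ ⊤}, ∃ f : Dual K T,
      (∃ b ∈ T', f b ≠ 0) ∧ ∀ b, f b ≠ 0 → lam b / lam a ∉ E.1 := by
    rintro ⟨E, hE⟩
    obtain ⟨b, hb, hbE⟩ : ∃ b ∈ T', lam b / lam a ∉ E := by
      by_contra hcon
      push Not at hcon
      obtain ⟨b₁, hb₁, h1⟩ := h1
      have hinv : (lam a)⁻¹ ∈ E := by simpa [h1] using hcon b₁ hb₁
      refine hE (top_le_iff.1 ?_)
      rw [← hgen, adjoin_le_iff]
      rintro _ ⟨b, hb, rfl⟩
      have := E.mul_mem (hcon b hb) (E.inv_mem hinv)
      rwa [inv_inv, div_mul_cancel₀ _ ha] at this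
    obtain ⟨μ, hμb, hμE⟩ := Submodule.exists_dual_map_eq_bot_of_notMem
      (p := E.toSubalgebra.toSubmodule) hbE inferInstance
    refine ⟨μ ∘ₗ LinearMap.mulRight K (lam a)⁻¹ ∘ₗ lam, ⟨b, hb, by simpa [div_eq_mul_inv] using hμb⟩,
      fun b' hb' hmem => hb' ?_⟩
    have := (Submodule.mem_bot K).1 (hμE ▸ Submodule.mem_map_of_mem (f := μ) hmem)
    simpa [div_eq_mul_inv] using this
  choose f hf hf' using key
  have := Fintype.ofFinite {E : IntermediateField K F // E ≠ ⊤}
  refine ⟨Finset.univ.image fun E : {E : IntermediateField K F // E ≠ ⊤} => f E, ?_, fun b hb => ?_⟩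
  · intro g hg
    obtain ⟨E, -, rfl⟩ := Finset.mem_image.1 hg
    exact hf E
  · by_contra hne
    exact hf' ⟨_, hne⟩ b (hb _ (Finset.mem_image_of_mem _ (Finset.mem_univ _)))
      (mem_adjoin_simple_self K _)

omit [Algebra.IsSeparable K F] in
/-- A generator has its low powers spanning. -/
theorem span_pow_eq_top {x : F} (hx : K⟮x⟯ = ⊤) {g : ℕ} (hg : finrank K F ≤ g) :
    Submodule.span K (Set.range fun t : Fin g => x ^ (t : ℕ)) = ⊤ := by
  have hint : IsIntegral K x := Algebra.IsIntegral.isIntegral x
  have hdeg : (minpoly K x).natDegree = finrank K F := by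
    rw [← IntermediateField.adjoin.finrank hint, hx, IntermediateField.finrank_top']
  have hli : LinearIndependent K fun t : Fin (minpoly K x).natDegree => x ^ (t : ℕ) :=
    linearIndependent_pow x
  refine top_le_iff.1 (le_of_eq_of_le (hli.span_eq_top_of_card_eq_finrank' (by simpa using hdeg)).symm ?_)
  refine Submodule.span_mono ?_
  rintro _ ⟨t, rfl⟩
  exact ⟨⟨t, by have := t.2; omega⟩, rfl⟩

end Vale.P199.Admissible
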