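import Vale.Agent.P199.UProd

/-!
P199: from two-generated division algebras of growing dimension, whose first `n` enumerated elements satisfy monic
equations of stage-independent degree, to a two-generated infinite-dimensional algebraic division algebra.
-/

namespace Vale.Agent.P199

open Filter Submodule

section Span

variable (k : Type*) {D : Type*} [Field k] [Ring D] [Algebra k D]

/-- Products of at most `L` of the two elements. -/
def wordVal (x y : D) (L : ℕ) (p : (i : Fin (L + 1)) × (Fin i → Bool)) : D :=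
  ((List.ofFn p.2).map fun b => if b then x else y).prod

/-- The span of the products of at most `L` of the two elements. -/
def wSpan (x y : D) (L : ℕ) : Submodule k D := span k (Set.range (wordVal x y L))

variable {k} {x y : D}

theorem prod_mem_wSpan {L : ℕ} (l : List Bool) (h : l.length ≤ L) :
    (l.map fun b => if b then x else y).prod ∈ wSpan k x y L := by
  refine subset_span ⟨⟨⟨l.length, by omega⟩, l.get⟩, ?_⟩
  simp only [wordVal]
  rw [List.ofFn_get]

theorem wordVal_mem_adjoin {L : ℕ} (p : (i : Fin (L + 1)) × (Fin i → Bool)) :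
    wordVal x y L p ∈ Algebra.adjoin k ({x, y} : Set D) := by
  refine Subalgebra.list_prod_mem _ fun z hz => ?_
  obtain ⟨b, -, rfl⟩ := List.mem_map.1 hz
  exact Algebra.subset_adjoin (by cases b <;> simp)

theorem one_mem_wSpan (L : ℕ) : (1 : D) ∈ wSpan k x y L := prod_mem_wSpan [] (Nat.zero_le _)

theorem wSpan_mono {L M : ℕ} (h : L ≤ M) : wSpan k x y L ≤ wSpan k x y M := by
  rw [wSpan, span_le]
  rintro _ ⟨⟨i, w⟩, rfl⟩
  exact prod_mem_wSpan _ (by simp only [List.length_ofFn]; omega)

theorem mul_mem_wSpan (b : Bool) {L : ℕ} {v : D} (h : v ∈ wSpan k x y L) :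
    (if b then x else y) * v ∈ wSpan k x y (L + 1) := by
  induction h using Submodule.span_induction with
  | mem v hv =>
    obtain ⟨⟨i, w⟩, rfl⟩ := hv
    have e : (if b then x else y) * wordVal x y L ⟨i, w⟩ =
        ((b :: List.ofFn w).map fun b => if b then x else y).prod := rfl
    rw [e]
    exact prod_mem_wSpan _ (by simp only [List.length_cons, List.length_ofFn]; omega)
  | zero => rw [mul_zero]; exact zero_mem _
  | add u v _ _ hu hv => rw [mul_add]; exact add_mem hu hv
  | smul c v _ hv => rw [mul_smul_comm]; exact Submodule.smul_mem _ c hv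

theorem exists_wSpan_of_mem {a : D} (ha : a ∈ Algebra.adjoin k ({x, y} : Set D)) :
    ∃ L, a ∈ wSpan k x y L := by
  rw [← Subalgebra.mem_toSubmodule, Algebra.adjoin_eq_span] at ha
  induction ha using Submodule.span_induction with
  | mem v hv =>
    induction hv using Submonoid.closure_induction_left with
    | one => exact ⟨0, one_mem_wSpan 0⟩
    | mul_left z hz w _ ih =>
      obtain ⟨L, hL⟩ := ih
      rcases hz with rfl | rfl
      · exact ⟨L + 1, mul_mem_wSpan true hL⟩
      · exact ⟨L + 1, mul_mem_wSpan false hL⟩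
  | zero => exact ⟨0, zero_mem _⟩
  | add u v _ _ hu hv =>
    obtain ⟨L, hL⟩ := hu
    obtain ⟨M, hM⟩ := hv
    exact ⟨max L M, add_mem (wSpan_mono (le_max_left _ _) hL) (wSpan_mono (le_max_right _ _) hM)⟩
  | smul c v _ hv =>
    obtain ⟨L, hL⟩ := hv
    exact ⟨L, Submodule.smul_mem _ c hL⟩

instance wSpan_finite (L : ℕ) : Module.Finite k (wSpan k x y L) :=
  Module.Finite.span_of_finite k (Set.finite_range _)

theorem adjoin_le_of_stable {L : ℕ} (h : wSpan k x y (L + 1) = wSpan k x y L) :
    Subalgebra.toSubmodule (Algebra.adjoin k ({x, y} : Set D)) ≤ wSpan k x y L := by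
  rw [Algebra.adjoin_eq_span, span_le]
  intro v hv
  induction hv using Submonoid.closure_induction_left with
  | one => exact one_mem_wSpan L
  | mul_left z hz w _ ih =>
    rw [SetLike.mem_coe, ← h]
    rcases hz with rfl | rfl
    · exact mul_mem_wSpan true ih
    · exact mul_mem_wSpan false ih

/-- Until it reaches the algebra, the span grows in every step. -/
theorem wSpan_growth [Nontrivial D] : ∀ L : ℕ, L + 1 ≤ Module.finrank k (wSpan k x y L) ∨
    Subalgebra.toSubmodule (Algebra.adjoin k ({x, y} : Set D)) ≤ wSpan k x y L := by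
  intro L
  induction L with
  | zero =>
    refine Or.inl (Nat.one_le_iff_ne_zero.2 fun h => one_ne_zero (α := D) ?_)
    have := Submodule.finrank_eq_zero.1 h
    simpa [this] using one_mem_wSpan (k := k) (x := x) (y := y) 0
  | succ L ih =>
    rcases ih with ih | ih
    · rcases eq_or_lt_of_le (wSpan_mono (k := k) (x := x) (y := y) (Nat.le_succ L)) with h | h
      · exact Or.inr ((adjoin_le_of_stable h.symm).trans (wSpan_mono (Nat.le_succ L)))
      · have := Submodule.finrank_lt_finrank_of_lt h
        exact Or.inl (by rw [Nat.succ_eq_add_one] at *; omega)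
    · exact Or.inr (ih.trans (wSpan_mono (Nat.le_succ L)))

/-- A large algebra has many independent short products. -/
theorem exists_indep_words [Nontrivial D] {N : ℕ} {v : Fin N → D}
    (hv : ∀ i, v i ∈ Algebra.adjoin k ({x, y} : Set D)) (hi : LinearIndependent k v) :
    ∃ σ : Fin N → (i : Fin (N + 1)) × (Fin i → Bool), LinearIndependent k (wordVal x y N ∘ σ) := by
  have hN : N ≤ Module.finrank k (wSpan k x y N) := by
    rcases wSpan_growth (k := k) (x := x) (y := y) N with h | h
    · omega
    · have hle : span k (Set.range v) ≤ wSpan k x y N := by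
        rw [span_le]
        rintro _ ⟨i, rfl⟩
        exact h (hv i)
      have := Submodule.finrank_mono hle
      rwa [finrank_span_eq_card hi, Fintype.card_fin] at this
  have : Module.Finite k (span k (Set.range (wordVal x y N))) := wSpan_finite N
  obtain ⟨f, hf, -, hfi⟩ :=
    Submodule.exists_fun_fin_finrank_span_eq k (Set.range (wordVal x y N))
  choose σ hσ using hf
  refine ⟨fun i => σ (Fin.castLE hN i), ?_⟩
  have e : wordVal x y N ∘ (fun i => σ (Fin.castLE hN i)) = f ∘ Fin.castLE hN :=
    funext fun i => hσ _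
  rw [e]
  exact hfi.comp _ (Fin.castLE_injective hN)

end Span

section UTransfer

variable {U : Ultrafilter ℕ} {K D : ℕ → Type} [∀ n, Field (K n)] [∀ n, DivisionRing (D n)]
  [∀ n, Algebra (K n) (D n)] (x y : ∀ n, D n)

theorem wordVal_uMk {L : ℕ} (p : (i : Fin (L + 1)) × (Fin i → Bool)) :
    wordVal (uMk U D x) (uMk U D y) L p = uMk U D fun n => wordVal (x n) (y n) L p := by
  have e : (fun n => wordVal (x n) (y n) L p) =
      ((List.ofFn p.2).map fun b => if b then x else y).prod := by
    funext n
    rw [← Pi.evalRingHom_apply D n ((List.map _ _).prod), map_list_prod, List.map_map]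
    exact congrArg List.prod (List.map_congr_left fun b _ => by cases b <;> rfl)
  rw [e, map_list_prod, List.map_map]
  exact congrArg List.prod (List.map_congr_left fun b _ => by cases b <;> rfl)

theorem indep_transfer {N : ℕ} {f : Fin N → ∀ n, D n}
    (h : ∀ᶠ n in (U : Filter ℕ), LinearIndependent (K n) fun i => f i n) :
    LinearIndependent (UProd U K) fun i => uMk U D (f i) := by
  rw [Fintype.linearIndependent_iff]
  intro g hg i
  choose c hc using fun j => uMk_surjective (g j)
  have hg' : ∀ᶠ n in (U : Filter ℕ), ∑ j, c j n • f j n = 0 := by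
    rw [← uMk_eq_zero (R := D), ← uMk_sum_smul, ← hg]
    exact Finset.sum_congr rfl fun j _ => by rw [hc]
  rw [← hc i, uMk_eq_zero]
  exact (h.and hg').mono fun n hn => Fintype.linearIndependent_iff.1 hn.1 _ hn.2 i

end UTransfer

section Centre

theorem adjoin_infinite_center {k A : Type} [Field k] [DivisionRing A] [Algebra k A]
    [Algebra.IsAlgebraic k A] {a b : A} (h : Algebra.adjoin k ({a, b} : Set A) = ⊤)
    (hinf : ¬ FiniteDimensional k A) :
    ¬ FiniteDimensional (Subring.center A)
      (Algebra.adjoin (Subring.center A) ({a, b} : Set A)) := by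
  let Z := Subring.center A
  let _ : Algebra k Z :=
    ((algebraMap k A).codRestrict Z fun r =>
      Subring.mem_center_iff.mpr fun z => (Algebra.commutes r z).symm).toAlgebra
  have : IsScalarTower k Z A := IsScalarTower.of_algebraMap_eq fun _ => rfl
  have htop : Algebra.adjoin Z ({a, b} : Set A) = ⊤ := by
    refine eq_top_iff.2 fun z _ => ?_
    have hz : z ∈ Algebra.adjoin k ({a, b} : Set A) := h ▸ Algebra.mem_top
    have : Algebra.adjoin k ({a, b} : Set A) ≤
        (Algebra.adjoin Z ({a, b} : Set A)).restrictScalars k :=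
      Algebra.adjoin_le Algebra.subset_adjoin
    exact this hz
  intro hfd
  refine hinf ?_
  have : FiniteDimensional Z A :=
    Module.Finite.equiv
      ((Subalgebra.equivOfEq _ _ htop).trans Subalgebra.topEquiv).toLinearEquiv
  let bas := Module.finBasis Z A
  let C : Set Z :=
    (Set.range fun p : Fin _ × Fin _ × Fin _ => bas.repr (bas p.1 * bas p.2.1) p.2.2) ∪
      (Set.range fun i => bas.repr 1 i) ∪ (Set.range fun i => bas.repr a i) ∪
        (Set.range fun i => bas.repr b i)
  have hC : C.Finite :=
    (((Set.finite_range _).union (Set.finite_range _)).union (Set.finite_range _)).union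
      (Set.finite_range _)
  have hZ : ∀ c : Z, IsIntegral k c := fun c =>
    (isIntegral_algHom_iff (IsScalarTower.toAlgHom k Z A) Subtype.val_injective).1
      (Algebra.IsIntegral.isIntegral _)
  let R := Algebra.adjoin k C
  have hRfg : (Subalgebra.toSubmodule R).FG := fg_adjoin_of_finite hC fun c _ => hZ c
  let M : Submodule k A := span k (Set.range fun p : R × Fin _ => ((p.1 : Z) : Z) • bas p.2)
  have hmem : ∀ z : A, (∀ i, bas.repr z i ∈ R) → z ∈ M := fun z hz => by
    rw [← bas.sum_repr z]
    exact sum_mem fun i _ => subset_span ⟨⟨⟨_, hz i⟩, i⟩, rfl⟩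
  have hrepr : ∀ z ∈ M, ∀ i, bas.repr z i ∈ R := by
    intro z hz i
    induction hz using Submodule.span_induction with
    | mem v hv =>
      obtain ⟨⟨r, j⟩, rfl⟩ := hv
      simp only [map_smul, Finsupp.smul_apply, Module.Basis.repr_self, Finsupp.single_apply]
      split
      · simp
      · simp
    | zero => simp
    | add u v _ _ hu hv => simpa using add_mem hu hv
    | smul c v _ hv =>
      rw [← algebraMap_smul Z c v, map_smul, Finsupp.smul_apply, smul_eq_mul]
      exact mul_mem (algebraMap_mem R c) hv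
  have hmul : ∀ u ∈ M, ∀ v ∈ M, u * v ∈ M := by
    intro u hu v hv
    refine hmem _ fun i => ?_
    rw [← bas.sum_repr u, ← bas.sum_repr v]
    simp only [Finset.sum_mul, Finset.mul_sum, smul_mul_assoc, mul_smul_comm, map_sum,
      map_smul, Finsupp.finsetSum_apply, Finsupp.smul_apply, smul_eq_mul]
    exact sum_mem fun p _ => sum_mem fun q _ =>
      mul_mem (hrepr _ hv _) (mul_mem (hrepr _ hu _) <|
        Algebra.subset_adjoin (Or.inl (Or.inl (Or.inl ⟨(_, _, i), rfl⟩))))
  let S : Subalgebra k A :=
    M.toSubalgebra (hmem _ fun i => Algebra.subset_adjoin (Or.inl (Or.inl (Or.inr ⟨i, rfl⟩))))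
      fun u v hu hv => hmul u hu v hv
  have hS : Algebra.adjoin k ({a, b} : Set A) ≤ S := by
    refine Algebra.adjoin_le ?_
    rintro z (rfl | rfl)
    · exact hmem _ fun i => Algebra.subset_adjoin (Or.inl (Or.inr ⟨i, rfl⟩))
    · exact hmem _ fun i => Algebra.subset_adjoin (Or.inr ⟨i, rfl⟩)
  have hM : M = ⊤ := eq_top_iff.2 fun z _ => hS (h ▸ Algebra.mem_top)
  have : Module.Finite k R := Module.Finite.iff_fg.2 hRfg
  have hfin : M.FG := by
    let L : (Fin (Module.finrank Z A) → R) →ₗ[k] A :=
      { toFun := fun r => ∑ i, (r i : Z) • bas i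
        map_add' := fun r s => by simp [add_smul, Finset.sum_add_distrib]
        map_smul' := fun c r => by simp [Finset.smul_sum, smul_assoc] }
    have hL : M = LinearMap.range L := by
      refine le_antisymm (span_le.2 ?_) ?_
      · rintro _ ⟨⟨r, j⟩, rfl⟩
        refine ⟨fun i => if i = j then r else 0, ?_⟩
        simp [L, apply_ite Subtype.val, ite_smul]
      · rintro _ ⟨r, rfl⟩
        show (∑ i, (r i : Z) • bas i) ∈ M
        refine sum_mem fun i _ => ?_
        exact subset_span (R := k) (s := Set.range fun p : R × Fin _ => (p.1 : Z) • bas p.2)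
          ⟨(r i, i), rfl⟩
    rw [hL]
    exact LinearMap.range_eq_map L ▸ Submodule.FG.map L Module.Finite.fg_top
  exact Module.finite_def.2 (hM ▸ hfin)

end Centre

section Enumerated

/-- The substitution of symbol values for `Sum.inl` and of `x`, `y` for `Sum.inr`. -/
noncomputable def evalSym (K : Type) {D : Type} [Field K] [Ring D] [Algebra K D] (c : ℕ → K)
    (x y : D) : FreeAlgebra ℤ (ℕ ⊕ Bool) →ₐ[ℤ] D :=
  FreeAlgebra.lift ℤ (Sum.elim (fun i => algebraMap K D (c i)) fun b => if b then x else y)

/-- There is a surjection from `ℕ` onto the free ring on the symbols and two letters. -/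
theorem exists_enum : ∃ p : ℕ → FreeAlgebra ℤ (ℕ ⊕ Bool), Function.Surjective p := by
  have : Countable (FreeMonoid (ℕ ⊕ Bool)) := inferInstanceAs (Countable (List (ℕ ⊕ Bool)))
  have : Countable (FreeAlgebra ℤ (ℕ ⊕ Bool)) :=
    (FreeAlgebra.basisFreeMonoid ℤ (ℕ ⊕ Bool)).repr.toEquiv.countable_iff.2 inferInstance
  exact exists_surjective_nat _

/-- An element of the algebra generated over a generated subfield becomes, after multiplication
by a nonzero scalar, an element of any subring containing the generators. -/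
theorem exists_clear_denominators {L A : Type} [Field L] [Ring A] [Algebra L A] {C : Set L}
    {S : Set A} {R0 : Subring A} (hC : ∀ r ∈ C, algebraMap L A r ∈ R0) (hS : S ⊆ R0) {a : A}
    (ha : a ∈ Algebra.adjoin (Subfield.closure C) S) :
    ∃ s ∈ Subring.closure C, s ≠ 0 ∧ s • a ∈ R0 := by
  have hsc : ∀ r ∈ Subring.closure C, ∀ z ∈ R0, r • z ∈ R0 := fun r hr z hz => by
    rw [Algebra.smul_def]
    exact mul_mem ((Subring.closure_le.2 hC : Subring.closure C ≤ R0.comap (algebraMap L A)) hr) hz
  induction ha using Algebra.adjoin_induction with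
  | mem z hz => exact ⟨1, one_mem _, one_ne_zero, by rw [one_smul]; exact hS hz⟩
  | algebraMap r =>
    obtain ⟨u, hu, w, hw, huw⟩ := Subfield.mem_closure_iff.1 r.2
    rcases eq_or_ne w 0 with h | h
    · refine ⟨1, one_mem _, one_ne_zero, ?_⟩
      have hr : r = 0 := Subtype.ext (by rw [← huw, h, div_zero]; rfl)
      rw [hr, map_zero, smul_zero]
      exact zero_mem _
    · refine ⟨w, hw, h, ?_⟩
      have e : w • algebraMap (Subfield.closure C) A r = algebraMap L A u := by
        rw [IsScalarTower.algebraMap_apply (Subfield.closure C) L A, Algebra.smul_def, ← map_mul]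
        refine congrArg _ ?_
        show w * (r : L) = u
        rw [← huw, mul_div_cancel₀ _ h]
      rw [e, ← mul_one (algebraMap L A u), ← Algebra.smul_def]
      exact hsc u hu 1 (one_mem _)
  | add a b _ _ iha ihb =>
    obtain ⟨s, hs, hs0, hsa⟩ := iha
    obtain ⟨t, ht, ht0, htb⟩ := ihb
    refine ⟨t * s, mul_mem ht hs, mul_ne_zero ht0 hs0, ?_⟩
    have e : (t * s) • (a + b) = t • s • a + s • t • b := by
      rw [smul_add, smul_smul, smul_smul, mul_comm s t]
    rw [e]
    exact add_mem (hsc t ht _ hsa) (hsc s hs _ htb)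
  | mul a b _ _ iha ihb =>
    obtain ⟨s, hs, hs0, hsa⟩ := iha
    obtain ⟨t, ht, ht0, htb⟩ := ihb
    refine ⟨s * t, mul_mem hs ht, mul_ne_zero hs0 ht0, ?_⟩
    have e : (s * t) • (a * b) = (s • a) * (t • b) := (smul_mul_smul_comm s a t b).symm
    rw [e]
    exact mul_mem hsa htb

/-- Integrality over a generated subfield, through clearing of denominators. -/
theorem isIntegral_of_clear {L A : Type} [Field L] [Ring A] [Algebra L A] {C : Set L}
    {S : Set A} {R0 : Subring A} (hC : ∀ r ∈ C, algebraMap L A r ∈ R0) (hS : S ⊆ R0)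
    (h0 : ∀ z ∈ R0, IsIntegral (Subfield.closure C) z) {a : A}
    (ha : a ∈ Algebra.adjoin (Subfield.closure C) S) : IsIntegral (Subfield.closure C) a := by
  obtain ⟨s, hs, hs0, hz⟩ := exists_clear_denominators hC hS ha
  let s' : Subfield.closure C :=
    ⟨s⁻¹, inv_mem (Subfield.mem_closure_iff.2 ⟨s, hs, 1, one_mem _, div_one s⟩)⟩
  have e : a = s' • (s • a) := by
    show a = s⁻¹ • s • a
    rw [smul_smul, inv_mul_cancel₀ hs0, one_smul]
  rw [e]
  exact IsIntegral.smul s' (h0 _ hz)

/-- A monic equation gives integrality. -/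
theorem isIntegral_of_sum {k A : Type} [Field k] [Ring A] [Algebra k A] {e : ℕ} (co : Fin e → k)
    {z : A} (h : z ^ e + ∑ i : Fin e, co i • z ^ (i : ℕ) = 0) : IsIntegral k z := by
  refine ⟨Polynomial.X ^ e + ∑ i : Fin e, Polynomial.C (co i) * Polynomial.X ^ (i : ℕ),
    Polynomial.monic_X_pow_add (Polynomial.degree_sum_fin_lt co), ?_⟩
  show Polynomial.aeval z _ = 0
  simpa [Algebra.smul_def] using h

/-- An integral algebra over a field in which products of nonzero elements are nonzero is a
division ring. -/
theorem isUnit_or_eq_zero_of_integral {k A : Type} [Field k] [Ring A] [IsDomain A] [Algebra k A]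
    [Algebra.IsIntegral k A] (a : A) : IsUnit a ∨ a = 0 := by
  rcases eq_or_ne a 0 with h | h
  · exact Or.inr h
  · refine Or.inl ?_
    have : Module.Finite k (Algebra.adjoin k ({a} : Set A)) :=
      Module.Finite.iff_fg.2 (Algebra.IsIntegral.isIntegral a).fg_adjoin_singleton
    have hu := FiniteDimensional.isUnit k
      (x := (⟨a, Algebra.self_mem_adjoin_singleton k a⟩ : Algebra.adjoin k ({a} : Set A)))
      (fun h0 => h (congrArg Subtype.val h0))
    exact hu.map (Algebra.adjoin k ({a} : Set A)).val

/-- The ultraproduct of the substitutions. -/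
noncomputable def uEval {U : Ultrafilter ℕ} {K D : ℕ → Type} [∀ n, Field (K n)]
    [∀ n, DivisionRing (D n)] [∀ n, Algebra (K n) (D n)] (c : ∀ n, ℕ → K n) (x y : ∀ n, D n) :
    FreeAlgebra ℤ (ℕ ⊕ Bool) →+* UProd U D :=
  (uMk U D).comp (RingHom.pi fun n => (evalSym (K n) (c n) (x n) (y n)).toRingHom)

section UEval

variable {U : Ultrafilter ℕ} {K D : ℕ → Type} [∀ n, Field (K n)] [∀ n, DivisionRing (D n)]
  [∀ n, Algebra (K n) (D n)] (c : ∀ n, ℕ → K n) (x y : ∀ n, D n)

theorem uEval_inl (i : ℕ) :
    uEval (U := U) c x y (FreeAlgebra.ι ℤ (Sum.inl i)) =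
      algebraMap (UProd U K) (UProd U D) (uMk U K fun n => c n i) := by
  rw [Algebra.algebraMap_eq_smul_one (R := UProd U K), ← map_one (uMk U D), uMk_smul]
  refine congrArg (uMk U D) (funext fun n => ?_)
  show evalSym (K n) (c n) (x n) (y n) _ = _
  rw [evalSym, FreeAlgebra.lift_ι_apply, Pi.one_apply]
  exact Algebra.algebraMap_eq_smul_one _

theorem uEval_inr (b : Bool) :
    uEval (U := U) c x y (FreeAlgebra.ι ℤ (Sum.inr b)) =
      if b then uMk U D x else uMk U D y := by
  cases b <;>
  · refine congrArg (uMk U D) (funext fun n => ?_)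
    show evalSym (K n) (c n) (x n) (y n) _ = _
    rw [evalSym, FreeAlgebra.lift_ι_apply]
    simp

theorem uEval_monic {e : ℕ} (sym : ℕ → ℕ) (q : FreeAlgebra ℤ (ℕ ⊕ Bool))
    (h : ∀ᶠ n in (U : Filter ℕ), evalSym (K n) (c n) (x n) (y n) q ^ e +
      ∑ i : Fin e, c n (sym i) • evalSym (K n) (c n) (x n) (y n) q ^ (i : ℕ) = 0) :
    uEval (U := U) c x y q ^ e +
      ∑ i : Fin e, (uMk U K fun n => c n (sym i)) • uEval (U := U) c x y q ^ (i : ℕ) = 0 := by
  simp only [uEval, RingHom.comp_apply, ← map_pow]
  rw [uMk_sum_smul, ← map_add, uMk_eq_zero]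
  exact h.mono fun n hn => by simpa [Pi.add_apply, map_pow] using hn

end UEval

/-- The `k` form: stages in which the first `n` elements of an enumeration satisfy monic equations,
of degrees independent of the stage, with designated symbols as coefficients, and in which the
dimension grows, give a division algebra over a field that is generated by two elements, algebraic
and infinite dimensional. -/
theorem kurosh_k_of_stages (p : ℕ → FreeAlgebra ℤ (ℕ ⊕ Bool)) (hp : Function.Surjective p)
    (e : ℕ → ℕ) (sym : ℕ → ℕ → ℕ)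
    (stage : ∀ n : ℕ, ∃ (K D : Type) (_ : Field K) (_ : DivisionRing D) (_ : Algebra K D)
      (x y : D) (c : ℕ → K),
      (∀ j < n, evalSym K c x y (p j) ^ e j +
        ∑ i : Fin (e j), c (sym j i) • evalSym K c x y (p j) ^ (i : ℕ) = 0) ∧
      ∃ v : Fin n → D, (∀ i, v i ∈ Algebra.adjoin K ({x, y} : Set D)) ∧ LinearIndependent K v) :
    ∃ (k A : Type) (_ : Field k) (_ : DivisionRing A) (_ : Algebra k A) (a b : A),
      Algebra.IsAlgebraic k A ∧ Algebra.adjoin k ({a, b} : Set A) = ⊤ ∧
        ¬ FiniteDimensional k A := by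
  classical
  choose K D iK iD iA x y c hdeg v hv hind using stage
  let U := Filter.hyperfilter ℕ
  let X : UProd U D := uMk U D x
  let Y : UProd U D := uMk U D y
  let C : ℕ → UProd U K := fun i => uMk U K fun n => c n i
  let k := Subfield.closure (Set.range C)
  let B : Subalgebra k (UProd U D) := Algebra.adjoin k {X, Y}
  have hev : ∀ m : ℕ, ∀ᶠ n in (U : Filter ℕ), m ≤ n := fun m =>
    (Filter.eventually_cofinite.2 ((Set.finite_lt_nat m).subset fun n hn => not_le.1 hn)).filter_mono
      Filter.hyperfilter_le_cofinite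
  have hint : ∀ z ∈ (uEval (U := U) c x y).range, IsIntegral k z := by
    rintro _ ⟨q, rfl⟩
    obtain ⟨j, rfl⟩ := hp q
    exact isIntegral_of_sum (k := k)
      (fun i : Fin (e j) => ⟨C (sym j i), Subfield.subset_closure ⟨_, rfl⟩⟩)
      (uEval_monic c x y (sym j) (p j) ((hev (j + 1)).mono fun n hn => hdeg n j hn))
  have halg : ∀ a ∈ B, IsIntegral k a := fun a ha => by
    refine isIntegral_of_clear (R0 := (uEval (U := U) c x y).range) ?_ ?_ hint ha
    · rintro _ ⟨i, rfl⟩
      exact ⟨_, uEval_inl c x y i⟩
    · rintro z (rfl | rfl)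
      exacts [⟨_, uEval_inr c x y true⟩, ⟨_, uEval_inr c x y false⟩]
  have : Algebra.IsIntegral k B :=
    ⟨fun a => (isIntegral_algHom_iff B.val Subtype.val_injective).1 (halg a a.2)⟩
  let _ : DivisionRing B := DivisionRing.ofIsUnitOrEqZero (isUnit_or_eq_zero_of_integral (k := k))
  let X' : B := ⟨X, Algebra.subset_adjoin (Or.inl rfl)⟩
  let Y' : B := ⟨Y, Algebra.subset_adjoin (Or.inr rfl)⟩
  have hgen : Algebra.adjoin k ({X', Y'} : Set B) = ⊤ := by
    have h := Algebra.adjoin_adjoin_coe_preimage (R := k) (s := ({X, Y} : Set (UProd U D)))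
    convert h using 2
    ext z
    simp [X', Y', Subtype.ext_iff]
  have halg' : Algebra.IsAlgebraic k B := ⟨fun a => (Algebra.IsIntegral.isIntegral a).isAlgebraic⟩
  refine ⟨k, B, inferInstance, inferInstance, inferInstance, X', Y', halg', hgen, ?_⟩
  intro hfd
  set N := Module.finrank k B + 1
  have hex : ∀ᶠ n in (U : Filter ℕ), ∃ σ : Fin N → (i : Fin (N + 1)) × (Fin i → Bool),
      LinearIndependent (K n) (wordVal (x n) (y n) N ∘ σ) :=
    (hev N).mono fun n hn => exists_indep_words (k := K n) (fun i => hv n (Fin.castLE hn i))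
      ((hind n).comp _ (Fin.castLE_injective hn))
  obtain ⟨σ, hσ⟩ := Ultrafilter.eventually_exists_iff.1 hex
  have hX := (indep_transfer (U := U) (K := K) (D := D)
    (f := fun i => fun n => wordVal (x n) (y n) N (σ i)) hσ).restrict_scalars' k
  have hB : LinearIndependent k fun i : Fin N => (⟨wordVal X Y N (σ i),
      wordVal_mem_adjoin (σ i)⟩ : B) := by
    refine LinearIndependent.of_comp B.val.toLinearMap ?_
    have e : (B.val.toLinearMap ∘ fun i : Fin N => (⟨wordVal X Y N (σ i),
        wordVal_mem_adjoin (σ i)⟩ : B)) = fun i => uMk U D fun n => wordVal (x n) (y n) N (σ i) :=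
      funext fun i => wordVal_uMk x y (σ i)
    rw [e]
    exact hX
  have := hB.fintype_card_le_finrank
  simp [N] at this

/-- The centre form. -/
theorem kurosh_of_stages (p : ℕ → FreeAlgebra ℤ (ℕ ⊕ Bool)) (hp : Function.Surjective p)
    (e : ℕ → ℕ) (sym : ℕ → ℕ → ℕ)
    (stage : ∀ n : ℕ, ∃ (K D : Type) (_ : Field K) (_ : DivisionRing D) (_ : Algebra K D)
      (x y : D) (c : ℕ → K),
      (∀ j < n, evalSym K c x y (p j) ^ e j +
        ∑ i : Fin (e j), c (sym j i) • evalSym K c x y (p j) ^ (i : ℕ) = 0) ∧
      ∃ v : Fin n → D, (∀ i, v i ∈ Algebra.adjoin K ({x, y} : Set D)) ∧ LinearIndependent K v) :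
    ∃ (A : Type) (_ : DivisionRing A), (∀ a : A, IsAlgebraic (Subring.center A) a) ∧
      ∃ S : Finset A, ¬ FiniteDimensional (Subring.center A)
        (Algebra.adjoin (Subring.center A) (S : Set A)) := by
  classical
  obtain ⟨k, A, _, _, _, a, b, halg, hgen, hinf⟩ := kurosh_k_of_stages p hp e sym stage
  refine ⟨A, inferInstance, fun z => ?_, {a, b}, ?_⟩
  · let Z := Subring.center A
    let _ : Algebra k Z :=
      ((algebraMap k A).codRestrict Z fun r =>
        Subring.mem_center_iff.mpr fun z => (Algebra.commutes r z).symm).toAlgebra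
    have : IsScalarTower k Z A := IsScalarTower.of_algebraMap_eq fun _ => rfl
    exact (Algebra.IsAlgebraic.isAlgebraic (R := k) z).extendScalars (RingHom.injective _)
  · rw [Finset.coe_pair]
    exact adjoin_infinite_center hgen hinf

end Enumerated

end Vale.Agent.P199
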