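import Vale.Agent.P199.Sep

/-!
# Centres all of whose finite separable extensions have nontrivial automorphisms
-/

namespace Vale.Agent.P199

open Polynomial

universe u

/-- Every proper finite separable extension of every finite extension of `F` has a nontrivial
automorphism. -/
def AutRich (F : Type u) [Field F] : Prop :=
  ∀ (E : Type u) [Field E] [Algebra F E] [FiniteDimensional F E]
    (L : Type u) [Field L] [Algebra E L] [FiniteDimensional E L] [Algebra.IsSeparable E L],
    1 < Module.finrank E L → ∃ σ : L ≃ₐ[E] L, σ ≠ AlgEquiv.refl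

/-- Finite fields satisfy the hypothesis. -/
theorem autRich_of_finite (F : Type u) [Field F] [Finite F] : AutRich F := by
  intro E _ _ _ L _ _ _ _ hrank
  have : Finite E := Module.finite_of_finite F
  have : Finite L := Module.finite_of_finite E
  by_contra h
  simp only [not_exists, not_not] at h
  have : Subsingleton (L ≃ₐ[E] L) := ⟨fun x y => (h x).trans (h y).symm⟩
  have hcard := IsGalois.card_aut_eq_finrank E L
  rw [Nat.card_unique] at hcard
  omega

variable {F D : Type u} [Field F] [DivisionRing D] [Algebra F D] [Algebra.IsAlgebraic F D]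

/-- Two distinct conjugate separable elements inside one field give a noncommutative
finite-dimensional subalgebra. -/
theorem exists_finite_noncomm (hZ : Central F D) (a b : D)
    (hb : b ∈ Algebra.adjoin F ({a} : Set D)) (hab : b ≠ a)
    (hroot : aeval b (minpoly F a) = 0) :
    ∃ B : Subalgebra F D, FiniteDimensional F B ∧ ∃ u ∈ B, ∃ v ∈ B, u * v ≠ v * u := by
  obtain ⟨x, hx0, hx⟩ := exists_conj_of_root hZ a b hroot
  set L := Algebra.adjoin F ({a} : Set D) with hL
  set X' := Algebra.adjoin F ({x} : Set D) with hX
  have hswap1 : ∀ l ∈ L, ∃ l' ∈ L, x * l = l' * x := by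
    intro l hl
    induction hl using Algebra.adjoin_induction with
    | mem y hy =>
      rw [Set.mem_singleton_iff.mp hy]
      exact ⟨b, hb, hx.symm⟩
    | algebraMap r => exact ⟨_, Subalgebra.algebraMap_mem _ r, (Algebra.commutes r x).symm⟩
    | add y z _ _ hy hz =>
      obtain ⟨y', hy', ey⟩ := hy
      obtain ⟨z', hz', ez⟩ := hz
      exact ⟨y' + z', add_mem hy' hz', by rw [mul_add, add_mul, ey, ez]⟩
    | mul y z _ _ hy hz =>
      obtain ⟨y', hy', ey⟩ := hy
      obtain ⟨z', hz', ez⟩ := hz
      exact ⟨y' * z', mul_mem hy' hz', by rw [← mul_assoc, ey, mul_assoc, ez, mul_assoc]⟩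
  set M := Subalgebra.toSubmodule L * Subalgebra.toSubmodule X' with hM
  have hXL : ∀ p ∈ X', ∀ l ∈ L, p * l ∈ M := by
    intro p hp
    induction hp using Algebra.adjoin_induction with
    | mem y hy =>
      intro l hl
      rw [Set.mem_singleton_iff.mp hy]
      obtain ⟨l', hl', e⟩ := hswap1 l hl
      rw [e]
      exact Submodule.mul_mem_mul hl' (Algebra.self_mem_adjoin_singleton F x)
    | algebraMap r =>
      intro l hl
      rw [Algebra.commutes]
      exact Submodule.mul_mem_mul hl (Subalgebra.algebraMap_mem X' r)
    | add y z _ _ hy hz =>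
      intro l hl
      rw [add_mul]
      exact add_mem (hy l hl) (hz l hl)
    | mul y z _ hz' hy hz =>
      intro l hl
      rw [mul_assoc]
      refine Submodule.mul_induction_on (hz l hl) (fun l2 hl2 q hq => ?_) fun s t hs ht => ?_
      · rw [← mul_assoc]
        refine Submodule.mul_induction_on (hy l2 hl2) (fun l3 hl3 r hr => ?_) fun s t hs ht => ?_
        · rw [mul_assoc]
          exact Submodule.mul_mem_mul hl3 (X'.mul_mem hr hq)
        · rw [add_mul]; exact add_mem hs ht
      · rw [mul_add]; exact add_mem hs ht
  have hone : (1 : D) ∈ M := by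
    simpa using Submodule.mul_mem_mul (M := Subalgebra.toSubmodule L) (N := Subalgebra.toSubmodule X')
      L.one_mem X'.one_mem
  have hmul : ∀ s t, s ∈ M → t ∈ M → s * t ∈ M := by
    intro s t hs ht
    refine Submodule.mul_induction_on hs (fun l1 hl1 p1 hp1 => ?_) fun s1 t1 h1 h2 => ?_
    · refine Submodule.mul_induction_on ht (fun l2 hl2 p2 hp2 => ?_) fun s2 t2 h1 h2 => ?_
      · have e : l1 * p1 * (l2 * p2) = l1 * (p1 * l2) * p2 := by noncomm_ring
        rw [e]
        refine Submodule.mul_induction_on (hXL p1 hp1 l2 hl2) (fun l3 hl3 r hr => ?_)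
          fun s3 t3 h1 h2 => ?_
        · have e2 : l1 * (l3 * r) * p2 = (l1 * l3) * (r * p2) := by noncomm_ring
          rw [e2]
          exact Submodule.mul_mem_mul (L.mul_mem hl1 hl3) (X'.mul_mem hr hp2)
        · rw [mul_add, add_mul]; exact add_mem h1 h2
      · rw [mul_add]; exact add_mem h1 h2
    · rw [add_mul]; exact add_mem h1 h2
  refine ⟨M.toSubalgebra hone hmul, ?_, a, ?_, x, ?_, ?_⟩
  · exact Module.Finite.iff_fg.mpr
      (((Algebra.IsIntegral.isIntegral a).fg_adjoin_singleton).mul
        (Algebra.IsIntegral.isIntegral x).fg_adjoin_singleton)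
  · simpa using Submodule.mul_mem_mul (M := Subalgebra.toSubmodule L) (N := Subalgebra.toSubmodule X')
      (Algebra.self_mem_adjoin_singleton F a) X'.one_mem
  · simpa using Submodule.mul_mem_mul (M := Subalgebra.toSubmodule L) (N := Subalgebra.toSubmodule X')
      L.one_mem (Algebra.self_mem_adjoin_singleton F x)
  · intro e
    apply hab
    exact mul_right_cancel₀ hx0 (hx.trans e.symm)

/-- Inside a noncommutative algebraic division algebra with finite centre extension `k / F`. -/
theorem exists_finite_noncomm_of_autRich (hF : AutRich F)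
    (hk : ∃ K : Subalgebra F D, FiniteDimensional F K ∧
      ∀ z : D, (∀ x : D, z * x = x * z) → z ∈ K)
    (hne : ∃ s t : D, s * t ≠ t * s) :
    ∃ B : Subalgebra F D, FiniteDimensional F B ∧ (∀ z : D, (∀ x, z * x = x * z) → z ∈ B) ∧
      ∃ u ∈ B, ∃ v ∈ B, u * v ≠ v * u := by
  obtain ⟨K, hKfin, hK⟩ := hk
  let k := Subring.center D
  let _ : Algebra F k :=
    ((algebraMap F D).codRestrict k fun r =>
      Subring.mem_center_iff.mpr fun y => (Algebra.commutes r y).symm).toAlgebra
  have : IsScalarTower F k D := IsScalarTower.of_algebraMap_eq fun _ => rfl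
  have hkfin : FiniteDimensional F k := by
    refine Module.Finite.of_injective
      ((IsScalarTower.toAlgHom F k D).toLinearMap.codRestrict (Subalgebra.toSubmodule K)
        fun z => hK z fun x => (Subring.mem_center_iff.mp z.2 x).symm) ?_
    intro y z h
    exact Subtype.val_injective (congrArg Subtype.val h :)
  have : Algebra.IsAlgebraic k D := Algebra.IsAlgebraic.tower_top (K := F) k
  have hcen : Central k D := fun z hz =>
    ⟨⟨z, Subring.mem_center_iff.mpr fun y => (hz y).symm⟩, rfl⟩
  have hkne : k ≠ ⊤ := fun htop => by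
    obtain ⟨s, t, h⟩ := hne
    exact h ((Subring.mem_center_iff.mp (htop ▸ Subring.mem_top s : s ∈ k) t).symm)
  obtain ⟨a, hak, has⟩ := JacobsonNoether.exists_separable_and_not_isCentral D hkne
  set L := Algebra.adjoin k ({a} : Set D) with hL
  let _ : Field L := fieldSub _ fun x hx y hy => by
    have hs : (({a} : Set D)) ⊆ {a, a} := by simp
    exact adjoin_pair_comm rfl x (Algebra.adjoin_mono hs hx) y (Algebra.adjoin_mono hs hy)
  have hLfin : FiniteDimensional k L := adjoin_singleton_finite a
  let a' : L := ⟨a, Algebra.self_mem_adjoin_singleton k a⟩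
  have hmin : minpoly k a = minpoly k a' := minpoly.algHom_eq L.val Subtype.val_injective a'
  have htop : Algebra.adjoin k ({a'} : Set L) = ⊤ := by
    apply Subalgebra.map_injective (f := L.val) Subtype.val_injective
    rw [AlgHom.map_adjoin, Algebra.map_top, Set.image_singleton, Subalgebra.range_val]
    rfl
  have hI : IntermediateField.adjoin k ({a'} : Set L) = ⊤ := by
    apply IntermediateField.toSubalgebra_injective
    rw [IntermediateField.adjoin_toSubalgebra_of_isAlgebraic, htop]
    · rfl
    · intro y _
      exact Algebra.IsAlgebraic.isAlgebraic y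
  have hsa : IsSeparable k a' := by unfold IsSeparable at has ⊢; rw [← hmin]; exact has
  have : Algebra.IsSeparable k (IntermediateField.adjoin k ({a'} : Set L)) :=
    (IntermediateField.isSeparable_adjoin_simple_iff_isSeparable k L).mpr hsa
  rw [hI] at this
  have hsep : Algebra.IsSeparable k L := AlgEquiv.Algebra.isSeparable IntermediateField.topEquiv
  have hrank : 1 < Module.finrank k L := by
    rw [finrank_adjoin_singleton]
    by_contra hle
    have := minpoly.natDegree_pos (Algebra.IsIntegral.isIntegral (R := k) a)
    obtain ⟨z, hz⟩ := minpoly.natDegree_eq_one_iff.mp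
      (show (minpoly k a).natDegree = 1 by omega)
    exact hak (hz ▸ z.2)
  obtain ⟨σ, hσ⟩ := hF k L hrank
  let b' := σ a'
  have hne' : b' ≠ a' := by
    intro e
    apply hσ
    apply AlgEquiv.coe_toAlgHom_injective
    exact AlgHom.ext_of_adjoin_eq_top htop fun y hy => by
      rw [Set.mem_singleton_iff.mp hy]
      exact e
  have hroot : aeval (b' : D) (minpoly k a) = 0 := by
    change aeval (L.val b') (minpoly k a) = 0
    rw [hmin, aeval_algHom_apply, show b' = σ.toAlgHom a' from rfl, aeval_algHom_apply,
      minpoly.aeval, map_zero, map_zero]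
  obtain ⟨B, hB, u, hu, v, hv, huv⟩ := exists_finite_noncomm hcen a (b' : D) b'.2
    (fun e => hne' (Subtype.ext e)) hroot
  refine ⟨B.restrictScalars F, ?_, fun z hz => ?_, u, hu, v, hv, huv⟩
  · have : FiniteDimensional F B := Module.Finite.trans k B
    exact this
  · exact B.algebraMap_mem ⟨z, Subring.mem_center_iff.mpr fun y => (hz y).symm⟩

end Vale.Agent.P199
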