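import Mathlib

/-!
P199: two units with `V U = ζ U V`, `ζ` a primitive `l`-th root of unity and `U ^ l`, `V ^ l` central, split every ring
into `l ^ 2` copies of their common centraliser; the monomials other than `1` are commutators with `U` or `V`.
-/

namespace Vale.Agent.P199

open Finset

variable {K R : Type*} [Field K] [Ring R] [Algebra K R]

/-- Conjugation by a unit. -/
def cj (u : Rˣ) (x : R) : R := (u : R) * x * ((u⁻¹ : Rˣ) : R)

theorem cj_one (u : Rˣ) : cj u 1 = 1 := by simp [cj]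

theorem cj_mul (u : Rˣ) (x y : R) : cj u (x * y) = cj u x * cj u y := by
  simp [cj, mul_assoc, ← mul_assoc ((u⁻¹ : Rˣ) : R) (u : R)]

theorem cj_smul (u : Rˣ) (c : K) (x : R) : cj u (c • x) = c • cj u x := by
  simp [cj]

theorem cj_sum {ι : Type*} (u : Rˣ) (s : Finset ι) (f : ι → R) :
    cj u (∑ i ∈ s, f i) = ∑ i ∈ s, cj u (f i) := by
  simp [cj, mul_sum, sum_mul]

theorem cj_cj (u v : Rˣ) (x : R) : cj u (cj v x) = cj (u * v) x := by
  simp [cj, mul_assoc]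

theorem cj_pow {u : Rˣ} {x : R} {c : K} (h : cj u x = c • x) : ∀ t : ℕ, cj (u ^ t) x = c ^ t • x
  | 0 => by simp [cj]
  | t + 1 => by rw [pow_succ, ← cj_cj, h, cj_smul, cj_pow h t, smul_smul, ← pow_succ']

theorem cj_pow_right {u : Rˣ} {x : R} {c : K} (h : cj u x = c • x) :
    ∀ k : ℕ, cj u (x ^ k) = c ^ k • x ^ k
  | 0 => by simp [cj]
  | k + 1 => by
    rw [pow_succ x, cj_mul, cj_pow_right h k, h, smul_mul_smul_comm, ← pow_succ c]

theorem cj_inv {u x : Rˣ} {c : K} (hc : c ≠ 0) (h : cj u (x : R) = c • (x : R)) :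
    cj u ((x⁻¹ : Rˣ) : R) = c⁻¹ • ((x⁻¹ : Rˣ) : R) := by
  have h1 : cj u ((x⁻¹ : Rˣ) : R) * (x : R) = c⁻¹ • 1 := by
    have h2 := cj_mul u ((x⁻¹ : Rˣ) : R) (x : R)
    rw [Units.inv_mul, cj_one, h, mul_smul_comm] at h2
    rw [h2, smul_smul, inv_mul_cancel₀ hc, one_smul]
  calc cj u ((x⁻¹ : Rˣ) : R) = cj u ((x⁻¹ : Rˣ) : R) * (x : R) * ((x⁻¹ : Rˣ) : R) := by
        rw [mul_assoc, Units.mul_inv, mul_one]
    _ = _ := by rw [h1, smul_mul_assoc, one_mul]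

theorem cj_eq_self_iff {u : Rˣ} {x : R} : cj u x = x ↔ Commute (u : R) x := by
  refine ⟨fun h => ?_, fun h => ?_⟩
  · show (u : R) * x = x * u
    conv_rhs => rw [← h, cj, mul_assoc, Units.inv_mul, mul_one]
  · rw [cj, h.eq, mul_assoc, Units.mul_inv, mul_one]

/-- The average of the conjugates by the powers of a unit. -/
def avg (K : Type*) [Field K] [Algebra K R] (l : ℕ) (u : Rˣ) (z : R) : R :=
  (l : K)⁻¹ • ∑ t ∈ range l, cj (u ^ t) z

variable {l : ℕ}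

theorem avg_sum {ι : Type*} (u : Rˣ) (s : Finset ι) (f : ι → R) :
    avg K l u (∑ i ∈ s, f i) = ∑ i ∈ s, avg K l u (f i) := by
  simp only [avg, cj_sum, smul_sum]
  rw [sum_comm]

theorem commute_avg {u : Rˣ} (hu : ∀ z : R, Commute ((u ^ l : Rˣ) : R) z) (z : R) :
    Commute (u : R) (avg K l u z) := by
  rw [← cj_eq_self_iff, avg, cj_smul, cj_sum]
  congr 1
  simp only [cj_cj, ← pow_succ']
  have h0 : cj (u ^ l) z = cj (u ^ 0) z := by
    rw [cj_eq_self_iff.2 (hu z)]; simp [cj]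
  have h1 := sum_range_succ (fun t => cj (u ^ t) z) l
  rw [sum_range_succ'] at h1
  rw [h0] at h1
  exact add_right_cancel h1

theorem avg_commute {u v : Rˣ} {c : K} (hc : c ≠ 0) (h : cj v (u : R) = c • (u : R)) {z : R}
    (hz : Commute (v : R) z) : Commute (v : R) (avg K l u z) := by
  rw [← cj_eq_self_iff] at hz ⊢
  rw [avg, cj_smul, cj_sum]
  congr 1
  refine sum_congr rfl fun t _ => ?_
  have h1 : cj v ((u ^ t : Rˣ) : R) = c ^ t • ((u ^ t : Rˣ) : R) := by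
    simpa using cj_pow_right h t
  show cj v ((u ^ t : Rˣ) * z * ((u ^ t)⁻¹ : Rˣ)) = _
  rw [cj_mul, cj_mul, hz, h1, cj_inv (pow_ne_zero t hc) h1, smul_mul_assoc, smul_mul_assoc,
    mul_smul_comm, smul_smul, mul_inv_cancel₀ (pow_ne_zero t hc), one_smul]
  rfl

variable {η : K} (hη : IsPrimitiveRoot η l)
include hη

theorem sum_root_pow (hl : (l : K) ≠ 0) {k : ℕ} :
    (l : K)⁻¹ * ∑ t ∈ range l, (η ^ k) ^ t = if l ∣ k then 1 else 0 := by
  split
  · rename_i hk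
    rw [hη.pow_eq_one_iff_dvd k |>.2 hk]
    simp [hl]
  · rename_i hk
    have h1 : η ^ k ≠ 1 := fun h => hk (hη.pow_eq_one_iff_dvd k |>.1 h)
    rw [geom_sum_eq h1, ← pow_mul, mul_comm k, pow_mul, hη.pow_eq_one, one_pow, sub_self,
      zero_div, mul_zero]

theorem avg_mul_pow (hl : (l : K) ≠ 0) {u : Rˣ} {v x : R} (h : cj u v = η • v)
    (hx : Commute (u : R) x) (k : ℕ) :
    avg K l u (x * v ^ k) = if l ∣ k then x * v ^ k else 0 := by
  have h1 : ∀ t, cj (u ^ t) (x * v ^ k) = (η ^ k) ^ t • (x * v ^ k) := fun t => by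
    refine cj_pow ?_ t
    rw [cj_mul, cj_eq_self_iff.2 hx, cj_pow_right h k, mul_smul_comm]
  rw [avg, sum_congr rfl fun t _ => h1 t, ← sum_smul, smul_smul, sum_root_pow hη hl]
  split <;> simp

/-- Every element is a combination of the first `l` powers of `v`, with coefficients commuting
with `u`. -/
theorem eq_sum_avg (hl : (l : K) ≠ 0) {u v : Rˣ} (h : cj u (v : R) = η • (v : R)) (z : R) :
    z = ∑ k : Fin l, avg K l u (z * ((v ^ (k : ℕ))⁻¹ : Rˣ)) * (v : R) ^ (k : ℕ) := by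
  have hl0 : 0 < l := Nat.pos_of_ne_zero fun h0 => hl (by simp [h0])
  have hη0 : η ≠ 0 := hη.ne_zero hl0.ne'
  have key : ∀ t k : ℕ, cj (u ^ t) (z * ((v ^ k)⁻¹ : Rˣ)) * (v : R) ^ k =
      (η⁻¹ ^ t) ^ k • cj (u ^ t) z := fun t k => by
    have h1 : cj (u ^ t) ((v ^ k : Rˣ) : R) = (η ^ t) ^ k • ((v ^ k : Rˣ) : R) := by
      simpa using cj_pow_right (cj_pow h t) k
    rw [cj_mul, cj_inv (pow_ne_zero k (pow_ne_zero t hη0)) h1, mul_smul_comm, smul_mul_assoc,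
      mul_assoc, ← Units.val_pow_eq_pow_val, Units.inv_mul, mul_one, inv_pow, inv_pow]
  simp only [avg, smul_mul_assoc, sum_mul, key, ← smul_sum]
  rw [sum_comm]
  have hsum : ∀ t : ℕ, ∑ k : Fin l, (η⁻¹ ^ t) ^ (k : ℕ) = ∑ k ∈ range l, (η⁻¹ ^ t) ^ k :=
    fun t => Fin.sum_univ_eq_sum_range (fun k => (η⁻¹ ^ t) ^ k) l
  simp only [← sum_smul, hsum, smul_sum, smul_smul]
  rw [sum_eq_single 0]
  · rw [sum_root_pow hη.inv hl]
    simp [cj]
  · intro t ht h0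
    rw [sum_root_pow hη.inv hl, if_neg, zero_smul]
    exact Nat.not_dvd_of_pos_of_lt (Nat.pos_of_ne_zero h0) (mem_range.1 ht)
  · intro h0
    exact absurd (mem_range.2 hl0) h0

omit hη

section Pair

variable (hl : (l : K) ≠ 0) {ζ : K} (hζ : IsPrimitiveRoot ζ l) {U V : Rˣ}
  (hVU : (V : R) * U = ζ • ((U : R) * V))
include hVU

theorem cj_V_U : cj V (U : R) = ζ • (U : R) := by
  rw [cj, hVU, smul_mul_assoc, mul_assoc, Units.mul_inv, mul_one]

theorem cj_U_V (hζ0 : ζ ≠ 0) : cj U (V : R) = ζ⁻¹ • (V : R) := by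
  have h : (U : R) * V = ζ⁻¹ • ((V : R) * U) := by
    rw [hVU, smul_smul, inv_mul_cancel₀ hζ0, one_smul]
  rw [cj, h, smul_mul_assoc, mul_assoc, Units.mul_inv, mul_one]

include hl hζ

/-- Every element is a combination of the monomials with coefficients commuting with `U`, `V`. -/
theorem exists_eq_sum_monomials (hU : ∀ z : R, Commute ((U ^ l : Rˣ) : R) z)
    (hV : ∀ z : R, Commute ((V ^ l : Rˣ) : R) z) (z : R) :
    ∃ c : Fin l × Fin l → R, (∀ p, Commute (U : R) (c p) ∧ Commute (V : R) (c p)) ∧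
      z = ∑ p, c p * ((U : R) ^ (p.1 : ℕ) * (V : R) ^ (p.2 : ℕ)) := by
  have hl0 : l ≠ 0 := fun h0 => hl (by simp [h0])
  have hζ0 : ζ ≠ 0 := hζ.ne_zero hl0
  let w : Fin l → R := fun b => avg K l U (z * ((V ^ (b : ℕ))⁻¹ : Rˣ))
  refine ⟨fun p => avg K l V (w p.2 * ((U ^ (p.1 : ℕ))⁻¹ : Rˣ)), fun p => ⟨?_, commute_avg hV _⟩, ?_⟩
  · refine avg_commute (inv_ne_zero hζ0) (cj_U_V hVU hζ0) ?_
    refine (commute_avg hU _).mul_right (Commute.units_inv_right ?_)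
    rw [Units.val_pow_eq_pow_val]
    exact Commute.pow_right (Commute.refl _) _
  · rw [Fintype.sum_prod_type, sum_comm]
    conv_lhs => rw [eq_sum_avg hζ.inv hl (cj_U_V hVU hζ0) z]
    refine sum_congr rfl fun b _ => ?_
    conv_lhs => rw [eq_sum_avg hζ hl (cj_V_U hVU) (avg K l U (z * ((V ^ (b : ℕ))⁻¹ : Rˣ)))]
    rw [sum_mul]
    exact sum_congr rfl fun a _ => mul_assoc _ _ _

/-- The coefficients of a combination of the monomials are unique. -/
theorem monomials_eq_zero {c : Fin l × Fin l → R}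
    (hc : ∀ p, Commute (U : R) (c p) ∧ Commute (V : R) (c p))
    (h : ∑ p, c p * ((U : R) ^ (p.1 : ℕ) * (V : R) ^ (p.2 : ℕ)) = 0) : c = 0 := by
  have hl0 : l ≠ 0 := fun h0 => hl (by simp [h0])
  have hζ0 : ζ ≠ 0 := hζ.ne_zero hl0
  have hdvd : ∀ a b : Fin l, l ∣ (a : ℕ) + (l - b) ↔ a = b := fun a b => by
    refine ⟨fun ⟨q, hq⟩ => ?_, fun hab => ⟨1, by subst hab; omega⟩⟩
    have ha := a.isLt
    have hb := b.isLt
    rcases q with _ | _ | q
    · omega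
    · exact Fin.ext (by omega)
    · have := Nat.mul_le_mul_left l (show 2 ≤ q + 1 + 1 by omega)
      omega
  have hsame : ∀ u v : Rˣ, ∀ η : K, IsPrimitiveRoot η l → cj u (v : R) = η • (v : R) →
      ∀ x : Fin l → R, (∀ k, Commute (u : R) (x k)) → ∑ k, x k * (v : R) ^ (k : ℕ) = 0 → x = 0 := by
    intro u v η hη huv x hx h0
    funext b
    have h1 := congrArg (fun s => avg K l u (s * (v : R) ^ (l - (b : ℕ)))) h0
    simp only [zero_mul, sum_mul, mul_assoc, ← pow_add, avg_sum, avg_mul_pow hη hl huv (hx _),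
      hdvd, sum_ite_eq', mem_univ, if_true] at h1
    have h2 : x b * (v : R) ^ ((b : ℕ) + (l - b)) = 0 := by
      rw [h1]; simp [avg, cj]
    rw [← Units.val_pow_eq_pow_val] at h2
    exact (Units.mul_left_eq_zero _).1 h2
  rw [Fintype.sum_prod_type, sum_comm] at h
  have h2 := hsame U V ζ⁻¹ hζ.inv (cj_U_V hVU hζ0)
    (fun b => ∑ a, c (a, b) * (U : R) ^ (a : ℕ))
    (fun b => Commute.sum_right _ _ _ fun a _ => (hc _).1.mul_right ((Commute.refl _).pow_right _))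
    (by simpa only [sum_mul, mul_assoc] using h)
  funext p
  exact congrFun (hsame V U ζ hζ (cj_V_U hVU) (fun a => c (a, p.2)) (fun a => (hc _).2)
    (congrFun h2 p.2)) p.1

omit hl

/-- A monomial with exponent of `V` not divisible by `l` is a commutator with `U`. -/
theorem monomial_eq_bracket_U (a : ℕ) {b : ℕ} (hb : ¬ l ∣ b) :
    ∃ c : K, (U : R) ^ (a + 1) * (V : R) ^ b =
      (U : R) * (c • ((U : R) ^ a * (V : R) ^ b)) - (c • ((U : R) ^ a * (V : R) ^ b)) * U := by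
  have hne : (1 : K) - ζ ^ b ≠ 0 := fun h =>
    hb ((hζ.pow_eq_one_iff_dvd b).1 (sub_eq_zero.1 h).symm)
  have hs : (V : R) ^ b * U = ζ ^ b • ((U : R) * (V : R) ^ b) := by
    have h1 : cj (V ^ b) (U : R) = ζ ^ b • (U : R) := cj_pow (cj_V_U hVU) b
    have h2 := congrArg (fun s => s * ((V ^ b : Rˣ) : R)) h1
    simp only [cj, smul_mul_assoc] at h2
    rw [mul_assoc _ _ ((V ^ b : Rˣ) : R), Units.inv_mul, mul_one, Units.val_pow_eq_pow_val] at h2
    exact h2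
  refine ⟨(1 - ζ ^ b)⁻¹, ?_⟩
  rw [mul_smul_comm, smul_mul_assoc, ← mul_assoc (U : R), mul_assoc _ _ (U : R), hs,
    mul_smul_comm, ← mul_assoc, ← pow_succ', ← pow_succ, smul_smul, ← sub_smul]
  rw [show (1 - ζ ^ b)⁻¹ - (1 - ζ ^ b)⁻¹ * ζ ^ b = (1 - ζ ^ b)⁻¹ * (1 - ζ ^ b) by ring,
    inv_mul_cancel₀ hne, one_smul]

/-- A power of `U` with exponent not divisible by `l` is a commutator with `V`. -/
theorem monomial_eq_bracket_V {a : ℕ} (ha : ¬ l ∣ a) :
    ∃ c : K, (U : R) ^ a = (V : R) * (c • ((U : R) ^ a * ((V⁻¹ : Rˣ) : R))) -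
      (c • ((U : R) ^ a * ((V⁻¹ : Rˣ) : R))) * V := by
  have hne : ζ ^ a - 1 ≠ 0 := fun h => ha ((hζ.pow_eq_one_iff_dvd a).1 (sub_eq_zero.1 h))
  refine ⟨(ζ ^ a - 1)⁻¹, ?_⟩
  have hs : (V : R) * ((U : R) ^ a * ((V⁻¹ : Rˣ) : R)) = ζ ^ a • (U : R) ^ a := by
    rw [← mul_assoc]; exact cj_pow_right (cj_V_U hVU) a
  rw [mul_smul_comm, smul_mul_assoc, hs, mul_assoc, Units.inv_mul, mul_one, smul_smul, ← sub_smul]
  rw [show (ζ ^ a - 1)⁻¹ * ζ ^ a - (ζ ^ a - 1)⁻¹ = (ζ ^ a - 1)⁻¹ * (ζ ^ a - 1) by ring,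
    inv_mul_cancel₀ hne, one_smul]

end Pair

end Vale.Agent.P199
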