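import Vale.Agent.P199.Index

/-!
# Bounded index
-/

namespace Vale.Agent.P199

universe u

variable {F D : Type u} [Field F] [DivisionRing D] [Algebra F D] [Algebra.IsAlgebraic F D]

omit [Algebra.IsAlgebraic F D] in
theorem central_of_isCentral [Algebra.IsCentral F D] : Central F D := fun z hz => by
  have h : z ∈ Subalgebra.center F D := Subalgebra.mem_center_iff.mpr fun x => (hz x).symm
  exact Algebra.IsCentral.out h

/-- A finite-dimensional subalgebra has dimension at most `N` over its centre. -/
theorem finrank_le_of_index_bound (N : ℕ)
    (hN : ∀ (E : Type u) [Field E] [Algebra F E] [FiniteDimensional F E]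
      (Δ : Type u) [DivisionRing Δ] [Algebra E Δ] [FiniteDimensional E Δ] [Algebra.IsCentral E Δ],
      Module.finrank E Δ ≤ N)
    (A : Subalgebra F D) [FiniteDimensional F A] :
    Module.finrank F A ≤ N * Module.finrank F (Subalgebra.center F A) := by
  let _ : DivisionRing A := divSub A
  let k := Subring.center A
  let _ : Algebra F k :=
    ((algebraMap F A).codRestrict k fun r =>
      Subring.mem_center_iff.mpr fun y => (Algebra.commutes r y).symm).toAlgebra
  have : IsScalarTower F k A := IsScalarTower.of_algebraMap_eq fun _ => rfl
  have hkfin : FiniteDimensional F k :=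
    Module.Finite.of_injective (IsScalarTower.toAlgHom F k A).toLinearMap Subtype.val_injective
  have : FiniteDimensional k A := Module.Finite.of_restrictScalars_finite F k A
  have : Algebra.IsCentral k A := ⟨fun z hz => Algebra.mem_bot.mpr
    ⟨⟨z, Subring.mem_center_iff.mpr (Subalgebra.mem_center_iff.mp hz)⟩, rfl⟩⟩
  have h1 := hN k A
  have h2 := Module.finrank_mul_finrank F k A
  have h3 : Module.finrank F k = Module.finrank F (Subalgebra.center F A) := LinearEquiv.finrank_eq
    { toFun := fun x => ⟨x.1, Subalgebra.mem_center_iff.mpr (Subring.mem_center_iff.mp x.2)⟩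
      map_add' := fun _ _ => rfl
      map_smul' := fun r x => Subtype.ext (by
        simp [Algebra.smul_def, RingHom.algebraMap_toAlgebra])
      invFun := fun x => ⟨x.1, Subring.mem_center_iff.mpr (Subalgebra.mem_center_iff.mp x.2)⟩
      left_inv := fun _ => rfl
      right_inv := fun _ => rfl }
  rw [← h2, ← h3, mul_comm N]
  exact Nat.mul_le_mul_left _ h1

end Vale.Agent.P199
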