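import Mathlib

/-!
# Elementary centraliser lemmas in algebraic division algebras

Minimal support arguments: independence of the maps `x ↦ d * x * l`, the dimension over a
centraliser, the double centraliser property for finite-dimensional subalgebras, and the
Skolem–Noether conjugation of two roots.
-/

namespace Vale.Agent.P199

open Polynomial

variable {F D : Type*} [Field F] [DivisionRing D] [Algebra F D] [Algebra.IsAlgebraic F D]

theorem inv_mem_sub (A : Subalgebra F D) {x : D} (hx : x ∈ A) : x⁻¹ ∈ A :=
  IsIntegral.inv_mem (Algebra.IsIntegral.isIntegral x) hx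

/-- A subalgebra as a division ring. -/
@[reducible] noncomputable def divSub (A : Subalgebra F D) : DivisionRing A :=
  DivisionRing.ofIsUnitOrEqZero fun a => by
    rcases eq_or_ne a 0 with h | h
    · exact Or.inr h
    · have h0 : (a : D) ≠ 0 := fun e => h (Subtype.ext e)
      exact Or.inl ⟨⟨a, ⟨(a : D)⁻¹, inv_mem_sub A a.2⟩, Subtype.ext (mul_inv_cancel₀ h0),
        Subtype.ext (inv_mul_cancel₀ h0)⟩, rfl⟩

/-- A commutative subalgebra as a field. -/
@[reducible] noncomputable def fieldSub (A : Subalgebra F D)
    (h : ∀ x ∈ A, ∀ y ∈ A, x * y = y * x) : Field A :=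
  { divSub A with mul_comm := fun x y => Subtype.ext (h x x.2 y y.2) }

/-- The centre of `D` is the image of `F`. -/
def Central (F D : Type*) [Field F] [DivisionRing D] [Algebra F D] : Prop :=
  ∀ z : D, (∀ x : D, z * x = x * z) → z ∈ (algebraMap F D).range

omit [Algebra.IsAlgebraic F D] in
theorem eq_zero_of_sandwich (hZ : Central F D) {ι : Type*} [Fintype ι] (l : ι → D)
    (hl : LinearIndependent F l) (d : ι → D) (h : ∀ x, ∑ i, d i * x * l i = 0) : d = 0 := by
  classical
  induction hs : (Finset.univ.filter fun i => d i ≠ 0).card using Nat.strong_induction_on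
    generalizing d with | _ N ih
  by_contra hd
  obtain ⟨i0, hi0⟩ : ∃ i, d i ≠ 0 := Function.ne_iff.mp hd
  set d' : ι → D := fun i => (d i0)⁻¹ * d i with hd'
  have h1 : ∀ x, ∑ i, d' i * x * l i = 0 := fun x => by
    have := congrArg ((d i0)⁻¹ * ·) (h x)
    simpa [hd', Finset.mul_sum, mul_assoc] using this
  have hcen : ∀ i, ∀ y : D, d' i * y = y * d' i := by
    intro i y
    have hz : ∀ x, ∑ j, (d' j * y - y * d' j) * x * l j = 0 := fun x => by
      have e1 := h1 (y * x)
      have e2 := congrArg (y * ·) (h1 x)
      simp only [mul_zero, Finset.mul_sum] at e2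
      simp only [sub_mul, Finset.sum_sub_distrib]
      simp only [mul_assoc] at e1 e2 ⊢
      rw [e1, e2, sub_zero]
    have hlt : (Finset.univ.filter fun j => (d' j * y - y * d' j) ≠ 0).card < N := by
      rw [← hs]
      refine Finset.card_lt_card (Finset.ssubset_iff_of_subset ?_ |>.mpr ⟨i0, ?_, ?_⟩)
      · intro j
        simp only [Finset.mem_filter, Finset.mem_univ, true_and]
        intro hj h0
        simp [hd', h0] at hj
      · simpa using hi0
      · simp [hd', inv_mul_cancel₀ hi0]
    exact sub_eq_zero.mp (congrFun (ih _ hlt _ hz rfl) i)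
  choose c hc using fun i => hZ (d' i) (hcen i)
  have hsum : ∑ i, c i • l i = 0 := by
    simpa [Algebra.smul_def, hc] using h1 1
  have hc0 := Fintype.linearIndependent_iff.mp hl c hsum i0
  have e := hc i0
  rw [hc0, map_zero] at e
  simp [hd', inv_mul_cancel₀ hi0] at e

/-- Right independence over the centraliser of `A`. -/
def CInd (A : Subalgebra F D) {m : ℕ} (x : Fin m → D) : Prop :=
  ∀ c : Fin m → D, (∀ i, c i ∈ Subalgebra.centralizer F (A : Set D)) →
    ∑ i, x i * c i = 0 → c = 0

omit [Algebra.IsAlgebraic F D] in
theorem sandwich_right (A : Subalgebra F D) {m : ℕ} {x : Fin m → D} (hx : CInd A x)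
    (c : Fin m → D) (h : ∀ a ∈ A, ∑ i, x i * a * c i = 0) : c = 0 := by
  classical
  induction hs : (Finset.univ.filter fun i => c i ≠ 0).card using Nat.strong_induction_on
    generalizing c with | _ N ih
  by_contra hd
  obtain ⟨i0, hi0⟩ : ∃ i, c i ≠ 0 := Function.ne_iff.mp hd
  set c' : Fin m → D := fun i => c i * (c i0)⁻¹ with hc'
  have h1 : ∀ a ∈ A, ∑ i, x i * a * c' i = 0 := fun a ha => by
    have := congrArg (· * (c i0)⁻¹) (h a ha)
    simpa [hc', Finset.sum_mul, mul_assoc] using this
  have hmem : ∀ i, c' i ∈ Subalgebra.centralizer F (A : Set D) := by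
    intro i
    rw [Subalgebra.mem_centralizer_iff]
    intro b hb
    have hz : ∀ a ∈ A, ∑ j, x j * a * (b * c' j - c' j * b) = 0 := fun a ha => by
      have e1 := h1 (a * b) (mul_mem ha hb)
      have e2 := congrArg (· * b) (h1 a ha)
      simp only [zero_mul, Finset.sum_mul] at e2
      simp only [mul_sub, Finset.sum_sub_distrib]
      simp only [mul_assoc] at e1 e2 ⊢
      rw [e1, e2, sub_zero]
    have hlt : (Finset.univ.filter fun j => (b * c' j - c' j * b) ≠ 0).card < N := by
      rw [← hs]
      refine Finset.card_lt_card (Finset.ssubset_iff_of_subset ?_ |>.mpr ⟨i0, ?_, ?_⟩)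
      · intro j
        simp only [Finset.mem_filter, Finset.mem_univ, true_and]
        intro hj h0
        simp [hc', h0] at hj
      · simpa using hi0
      · simp [hc', mul_inv_cancel₀ hi0]
    exact sub_eq_zero.mp (congrFun (ih _ hlt _ hz rfl) i)
  have h0 : ∑ i, x i * c' i = 0 := by simpa using h1 1 (one_mem A)
  have := congrFun (hx c' hmem h0) i0
  simp [hc', mul_inv_cancel₀ hi0] at this

omit [Algebra.IsAlgebraic F D] in
theorem CInd.le_finrank (A : Subalgebra F D) [FiniteDimensional F A] {m : ℕ} {x : Fin m → D}
    (hx : CInd A x) : m ≤ Module.finrank F A := by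
  by_contra hlt
  set n := Module.finrank F A
  set l := Module.finBasis F A
  let f : (Fin m → D) →ₗ[Dᵐᵒᵖ] (Fin n → D) :=
    { toFun := fun c j => ∑ i, x i * (l j : D) * c i
      map_add' := fun c c' => by
        funext j; simp [mul_add, Finset.sum_add_distrib]
      map_smul' := fun r c => by
        funext j
        simp [MulOpposite.smul_eq_mul_unop, Finset.sum_mul, mul_assoc] }
  let e : Dᵐᵒᵖ ≃ₗ[Dᵐᵒᵖ] D :=
    { toFun := MulOpposite.unop
      invFun := MulOpposite.op
      map_add' := fun _ _ => rfl
      map_smul' := fun _ _ => rfl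
      left_inv := fun _ => rfl
      right_inv := fun _ => rfl }
  have : Module.Finite Dᵐᵒᵖ D := Module.Finite.equiv e
  have h1 : Module.finrank Dᵐᵒᵖ D = 1 := by rw [← e.finrank_eq, Module.finrank_self]
  have : LinearMap.ker f ≠ ⊥ := by
    intro hb
    have := LinearMap.finrank_le_finrank_of_injective (LinearMap.ker_eq_bot.mp hb)
    simp [Module.finrank_pi_fintype, h1] at this
    omega
  obtain ⟨c, hc, hc0⟩ := Submodule.exists_mem_ne_zero_of_ne_bot this
  refine hc0 (sandwich_right A hx c fun a ha => ?_)
  have hrep := l.sum_repr ⟨a, ha⟩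
  have : a = ∑ j, l.repr ⟨a, ha⟩ j • (l j : D) := by
    have := congrArg Subtype.val hrep
    simpa only [AddSubmonoidClass.coe_finsetSum, Subalgebra.coe_smul] using this.symm
  rw [this]
  simp only [Finset.mul_sum, Finset.sum_mul, mul_smul_comm, smul_mul_assoc]
  rw [Finset.sum_comm]
  refine Finset.sum_eq_zero fun j _ => ?_
  rw [← Finset.smul_sum]
  have : f c j = 0 := by rw [LinearMap.mem_ker.mp hc]; rfl
  change ∑ i, x i * (l j : D) * c i = 0 at this
  rw [this, smul_zero]

/-- `D` is finite over the centraliser of `A`. -/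
theorem exists_centralizer_span (A : Subalgebra F D) [FiniteDimensional F A] :
    ∃ (m : ℕ) (x : Fin m → D), m ≤ Module.finrank F A ∧ ∀ y : D, ∃ c : Fin m → D,
      (∀ i, c i ∈ Subalgebra.centralizer F (A : Set D)) ∧ y = ∑ i, x i * c i := by
  classical
  set n := Module.finrank F A
  let P : ℕ → Prop := fun m => ∃ x : Fin m → D, CInd A x
  have h0 : P 0 := ⟨Fin.elim0, fun c _ _ => funext fun i => i.elim0⟩
  set m := Nat.findGreatest P n with hm
  obtain ⟨x, hx⟩ : P m := Nat.findGreatest_spec (Nat.zero_le n) h0
  refine ⟨m, x, Nat.findGreatest_le n, fun y => ?_⟩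
  have hn : ¬ CInd A (Fin.snoc x y) := fun h => by
    have := h.le_finrank
    exact Nat.findGreatest_is_greatest (P := P) (n := n) (Nat.lt_succ_self m) this ⟨_, h⟩
  simp only [CInd, not_forall, exists_prop] at hn
  obtain ⟨c, hc, hsum, hne⟩ := hn
  rw [Fin.sum_univ_castSucc] at hsum
  simp only [Fin.snoc_castSucc, Fin.snoc_last] at hsum
  have hlast : c (Fin.last m) ≠ 0 := by
    intro h
    apply hne
    have := hx (fun i => c i.castSucc) (fun i => hc _) (by simpa [h] using hsum)
    funext i
    refine Fin.lastCases h (fun j => ?_) i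
    exact congrFun this j
  refine ⟨fun i => -(c i.castSucc * (c (Fin.last m))⁻¹), fun i => ?_, ?_⟩
  · exact neg_mem (mul_mem (hc _) (inv_mem_sub _ (hc _)))
  · have e := congrArg (· * (c (Fin.last m))⁻¹) hsum
    simp only [zero_mul, add_mul, Finset.sum_mul, mul_assoc, mul_inv_cancel₀ hlast, mul_one] at e
    simp only [mul_neg, Finset.sum_neg_distrib]
    exact eq_neg_of_add_eq_zero_right e

/-- Double centraliser. -/
theorem mem_of_commute_centralizer (hZ : Central F D) (A : Subalgebra F D) [FiniteDimensional F A]
    {z : D} (hz : ∀ c ∈ Subalgebra.centralizer F (A : Set D), c * z = z * c) : z ∈ A := by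
  by_contra hzA
  obtain ⟨m, x, hm, hspan⟩ := exists_centralizer_span A
  set n := Module.finrank F A
  set l := Module.finBasis F A
  let l' : Fin (n + 1) → D := Fin.snoc (fun j => (l j : D)) z
  have hl : LinearIndependent F l' := by
    refine LinearIndependent.finSnoc (l.linearIndependent.map' A.val.toLinearMap
      (LinearMap.ker_eq_bot.mpr Subtype.val_injective)) ?_
    intro h
    apply hzA
    have hle : Submodule.span F (Set.range fun j => (l j : D)) ≤ Subalgebra.toSubmodule A := by
      rw [Submodule.span_le]
      rintro _ ⟨j, rfl⟩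
      exact (l j).2
    exact hle h
  let f : (Fin (n + 1) → D) →ₗ[D] (Fin m → D) :=
    { toFun := fun d i => ∑ j, d j * x i * l' j
      map_add' := fun c c' => by
        funext i; simp [add_mul, Finset.sum_add_distrib]
      map_smul' := fun r c => by
        funext i; simp [Finset.mul_sum, mul_assoc] }
  have hinj : Function.Injective f := by
    rw [← LinearMap.ker_eq_bot, Submodule.eq_bot_iff]
    intro d hd
    refine eq_zero_of_sandwich hZ l' hl d fun y => ?_
    obtain ⟨c, hc, rfl⟩ := hspan y
    have hcomm : ∀ i j, c i * l' j = l' j * c i := by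
      intro i j
      refine Fin.lastCases ?_ (fun k => ?_) j
      · simpa [l'] using hz _ (hc i)
      · simpa [l'] using ((Subalgebra.mem_centralizer_iff F).mp (hc i) _ (l k).2).symm
    simp only [Finset.mul_sum, Finset.sum_mul]
    rw [Finset.sum_comm]
    refine Finset.sum_eq_zero fun i _ => ?_
    have : f d i = 0 := by rw [LinearMap.mem_ker.mp hd]; rfl
    change ∑ j, d j * x i * l' j = 0 at this
    calc ∑ j, d j * (x i * c i) * l' j = (∑ j, d j * x i * l' j) * c i := by
          rw [Finset.sum_mul]
          refine Finset.sum_congr rfl fun j _ => ?_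
          simp [mul_assoc, hcomm]
      _ = 0 := by rw [this, zero_mul]
  have := LinearMap.finrank_le_finrank_of_injective hinj
  simp at this
  omega

/-- If the centraliser of `A` lies in `A`, then `D` is finite over `F`. -/
theorem finite_of_centralizer_le (A : Subalgebra F D) [FiniteDimensional F A]
    (h : Subalgebra.centralizer F (A : Set D) ≤ A) :
    FiniteDimensional F D ∧ Module.finrank F D ≤ Module.finrank F A ^ 2 := by
  obtain ⟨m, x, hm, hspan⟩ := exists_centralizer_span A
  let f : (Fin m → A) →ₗ[F] D :=
    { toFun := fun c => ∑ i, x i * (c i : D)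
      map_add' := fun c c' => by simp [mul_add, Finset.sum_add_distrib]
      map_smul' := fun r c => by simp [Finset.smul_sum] }
  have hs : Function.Surjective f := fun y => by
    obtain ⟨c, hc, rfl⟩ := hspan y
    exact ⟨fun i => ⟨c i, h (hc i)⟩, rfl⟩
  refine ⟨Module.Finite.of_surjective f hs, ?_⟩
  have hle := LinearMap.finrank_le_finrank_of_surjective hs
  simp [Module.finrank_pi_fintype] at hle
  calc Module.finrank F D ≤ m * Module.finrank F A := hle
    _ ≤ Module.finrank F A ^ 2 := by rw [sq]; exact Nat.mul_le_mul_right _ hm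

/-- Two roots of the minimal polynomial are conjugate. -/
theorem exists_conj_of_root (hZ : Central F D) (a b : D) (hb : aeval b (minpoly F a) = 0) :
    ∃ x : D, x ≠ 0 ∧ b * x = x * a := by
  set f := minpoly F a
  set n := f.natDegree
  have hint : IsIntegral F a := Algebra.IsIntegral.isIntegral a
  have hn : 0 < n := minpoly.natDegree_pos hint
  let g : ℕ → D → D := fun i y => ∑ k ∈ Finset.range i, b ^ (i - 1 - k) * y * a ^ k
  have hg : ∀ i y, b * g i y - g i y * a = b ^ i * y - y * a ^ i := by
    intro i y
    induction i with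
    | zero => simp [g]
    | succ i ih =>
      have e : g (i + 1) y = b * g i y + y * a ^ i := by
        simp only [g, Finset.sum_range_succ, Finset.mul_sum]
        congr 1
        · refine Finset.sum_congr rfl fun k hk => ?_
          have : i + 1 - 1 - k = (i - 1 - k) + 1 := by
            have := Finset.mem_range.mp hk; omega
          rw [this, pow_succ', mul_assoc, mul_assoc, mul_assoc]
        · simp
      rw [e, mul_add, add_mul, pow_succ' b, pow_succ a]
      calc b * (b * g i y) + b * (y * a ^ i) - (b * g i y * a + y * a ^ i * a)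
          = b * (b * g i y - g i y * a) + b * (y * a ^ i) - y * a ^ i * a := by noncomm_ring
        _ = b * b ^ i * y - y * (a ^ i * a) := by rw [ih]; noncomm_ring
  let G : D → D := fun y => ∑ i ∈ Finset.range (n + 1), f.coeff i • g i y
  have hG : ∀ y, b * G y = G y * a := by
    intro y
    rw [← sub_eq_zero]
    have ha : aeval a f = 0 := minpoly.aeval F a
    rw [aeval_eq_sum_range] at ha hb
    simp only [G, Finset.mul_sum, Finset.sum_mul, mul_smul_comm, smul_mul_assoc,
      ← Finset.sum_sub_distrib, ← smul_sub, hg]
    simp only [smul_sub, Finset.sum_sub_distrib]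
    have e1 : ∑ i ∈ Finset.range (n + 1), f.coeff i • (b ^ i * y) = 0 := by
      have := congrArg (· * y) hb
      simpa [Finset.sum_mul] using this
    have e2 : ∑ i ∈ Finset.range (n + 1), f.coeff i • (y * a ^ i) = 0 := by
      have := congrArg (y * ·) ha
      simpa [Finset.mul_sum] using this
    rw [e1, e2, sub_zero]
  suffices ∃ y, G y ≠ 0 by
    obtain ⟨y, hy⟩ := this
    exact ⟨G y, hy, hG y⟩
  by_contra hcon
  simp only [not_exists, not_not] at hcon
  let d : Fin n → D := fun k =>
    ∑ i ∈ Finset.range (n + 1), if (k : ℕ) < i then f.coeff i • b ^ (i - 1 - (k : ℕ)) else 0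
  have hd : d = 0 := by
    refine eq_zero_of_sandwich hZ (fun k : Fin n => a ^ (k : ℕ)) (linearIndependent_pow a) d ?_
    intro y
    have hfin : ∀ φ : ℕ → D, ∑ k : Fin n, φ k = ∑ k ∈ Finset.range n, φ k := fun φ =>
      Fin.sum_univ_eq_sum_range φ n
    calc ∑ k : Fin n, d k * y * a ^ (k : ℕ)
        = ∑ k ∈ Finset.range n, ∑ i ∈ Finset.range (n + 1),
            (if k < i then f.coeff i • (b ^ (i - 1 - k) * y * a ^ k) else 0) := by
          rw [← hfin]
          refine Finset.sum_congr rfl fun k _ => ?_
          simp only [d, Finset.sum_mul]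
          refine Finset.sum_congr rfl fun i _ => ?_
          split_ifs <;> simp
      _ = G y := by
          rw [Finset.sum_comm]
          refine Finset.sum_congr rfl fun i hi => ?_
          rw [Finset.smul_sum, ← Finset.sum_filter]
          refine Finset.sum_congr ?_ fun k _ => rfl
          ext k
          simp only [Finset.mem_filter, Finset.mem_range]
          have := Finset.mem_range.mp hi
          omega
      _ = 0 := hcon y
  have := congrFun hd ⟨n - 1, by omega⟩
  simp only [d, Pi.zero_apply] at this
  rw [Finset.sum_eq_single n] at this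
  · have hlt : n - 1 < n := by omega
    simp [hlt, n, f, minpoly.monic hint] at this
  · intro i hi hne
    have := Finset.mem_range.mp hi
    rw [if_neg]
    omega
  · simp

end Vale.Agent.P199
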