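import Mathlib

/-!
# P199: valued linear algebra over Laurent series

For a subspace `S` of `K((ε))^ι` the leading space `lead S` consists of the constant coefficients
of the integral vectors of `S`; it has the same dimension. So reduction modulo `ε` can only lower
ranks and raise kernels. The staircase lemma solves a linear recursion order by order.
-/

namespace Vale.P199.Valued

open Module

variable {K : Type*} [Field K] {ι κ : Type*}

/-- A vector of power series as a vector of Laurent series. -/
noncomputable def up (p : ι → PowerSeries K) : ι → LaurentSeries K :=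
  fun i => HahnSeries.ofPowerSeries ℤ K (p i)

lemma up_apply (p : ι → PowerSeries K) (i : ι) : up p i = HahnSeries.ofPowerSeries ℤ K (p i) :=
  rfl

lemma up_injective : Function.Injective (up : (ι → PowerSeries K) → ι → LaurentSeries K) :=
  fun _ _ h => funext fun i => HahnSeries.ofPowerSeries_injective (congrFun h i)

lemma up_zero : up (0 : ι → PowerSeries K) = 0 := funext fun _ => map_zero _

lemma up_add (p q : ι → PowerSeries K) : up (p + q) = up p + up q := funext fun _ => map_add _ _ _

lemma up_sub (p q : ι → PowerSeries K) : up (p - q) = up p - up q := funext fun _ => map_sub _ _ _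

lemma up_smul (t : PowerSeries K) (p : ι → PowerSeries K) :
    up (t • p) = HahnSeries.ofPowerSeries ℤ K t • up p :=
  funext fun _ => map_mul _ _ _

/-- Every Laurent vector is a multiple of an integral one. -/
lemma exists_smul_eq_up [Finite ι] (v : ι → LaurentSeries K) :
    ∃ (t : LaurentSeries K) (p : ι → PowerSeries K), t ≠ 0 ∧ t • v = up p := by
  have := Fintype.ofFinite ι
  set N : ℕ := Finset.univ.sup fun i => (-(v i).order).toNat
  refine ⟨HahnSeries.single (N : ℤ) 1, fun i =>
    PowerSeries.X ^ (((v i).order + N).toNat) * (v i).powerSeriesPart,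
    HahnSeries.single_ne_zero one_ne_zero, funext fun i => ?_⟩
  have h : (-(v i).order).toNat ≤ N := Finset.le_sup (f := fun i => (-(v i).order).toNat)
    (Finset.mem_univ i)
  have h1 : ((((v i).order + N).toNat : ℕ) : ℤ) = (N : ℤ) + (v i).order := by omega
  have h2 : HahnSeries.ofPowerSeries ℤ K (PowerSeries.X ^ (((v i).order + N).toNat)) =
      HahnSeries.single (N : ℤ) 1 * HahnSeries.single (v i).order 1 := by
    rw [HahnSeries.ofPowerSeries_X_pow, HahnSeries.single_mul_single, h1, one_mul]
  rw [Pi.smul_apply, up_apply, smul_eq_mul, map_mul, h2, mul_assoc,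
    LaurentSeries.single_order_mul_powerSeriesPart]

/-- The leading space of a subspace of Laurent vectors. -/
def lead (S : Submodule (LaurentSeries K) (ι → LaurentSeries K)) : Submodule K (ι → K) where
  carrier := {c | ∃ p : ι → PowerSeries K, up p ∈ S ∧
    ∀ i, PowerSeries.constantCoeff (p i) = c i}
  zero_mem' := ⟨0, by rw [up_zero]; exact S.zero_mem, fun i => by simp⟩
  add_mem' := by
    rintro c d ⟨p, hp, hpc⟩ ⟨q, hq, hqd⟩
    exact ⟨p + q, by rw [up_add]; exact S.add_mem hp hq, fun i => by simp [hpc i, hqd i]⟩
  smul_mem' := by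
    rintro a c ⟨p, hp, hpc⟩
    exact ⟨PowerSeries.C a • p, by rw [up_smul]; exact S.smul_mem _ hp,
      fun i => by simp [hpc i]⟩

lemma mem_lead {S : Submodule (LaurentSeries K) (ι → LaurentSeries K)} {c : ι → K} :
    c ∈ lead S ↔ ∃ p : ι → PowerSeries K, up p ∈ S ∧
      ∀ i, PowerSeries.constantCoeff (p i) = c i := Iff.rfl

lemma lead_mono {S T : Submodule (LaurentSeries K) (ι → LaurentSeries K)} (h : S ≤ T) :
    lead S ≤ lead T := fun _ ⟨p, hp, hc⟩ => ⟨p, h hp, hc⟩

lemma lead_bot : lead (⊥ : Submodule (LaurentSeries K) (ι → LaurentSeries K)) = ⊥ := by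
  refine (Submodule.eq_bot_iff _).2 fun c ⟨p, hp, hc⟩ => funext fun i => ?_
  rw [Submodule.mem_bot, ← up_zero] at hp
  rw [← hc i, up_injective hp]
  simp

/-- A nonzero subspace has a normalised integral vector. -/
lemma exists_normalised [Finite ι] {S : Submodule (LaurentSeries K) (ι → LaurentSeries K)}
    (h : S ≠ ⊥) : ∃ p : ι → PowerSeries K, up p ∈ S ∧ ∃ i, PowerSeries.constantCoeff (p i) ≠ 0 := by
  classical
  obtain ⟨v, hv, hv0⟩ := S.exists_mem_ne_zero_of_ne_bot h
  obtain ⟨t, p, ht, hp⟩ := exists_smul_eq_up v
  have hmem : up p ∈ S := hp ▸ S.smul_mem t hv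
  have hex : ∃ k, ∃ i, PowerSeries.coeff k (p i) ≠ 0 := by
    by_contra hcon
    push Not at hcon
    have : p = 0 := funext fun i => PowerSeries.ext fun k => by simpa using hcon k i
    rw [this, up_zero] at hp
    exact (smul_ne_zero ht hv0) hp
  set k := Nat.find hex
  set p' : ι → PowerSeries K := fun i => PowerSeries.mk fun m => PowerSeries.coeff (m + k) (p i)
  have hpp : p = (PowerSeries.X : PowerSeries K) ^ k • p' := funext fun i => PowerSeries.ext fun m => by
    rw [Pi.smul_apply, smul_eq_mul, PowerSeries.coeff_X_pow_mul']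
    split
    · simp [p', PowerSeries.coeff_mk, Nat.sub_add_cancel ‹k ≤ m›]
    · have hm : m < k := by omega
      have := Nat.find_min hex hm
      push Not at this
      exact this i
  obtain ⟨i, hi⟩ := Nat.find_spec hex
  refine ⟨p', ?_, i, ?_⟩
  · have hne : HahnSeries.ofPowerSeries ℤ K (PowerSeries.X ^ k) ≠ 0 :=
      (map_ne_zero_iff _ HahnSeries.ofPowerSeries_injective).2 (pow_ne_zero _ PowerSeries.X_ne_zero)
    have h' := S.smul_mem (HahnSeries.ofPowerSeries ℤ K (PowerSeries.X ^ k))⁻¹ hmem
    rwa [hpp, up_smul, inv_smul_smul₀ hne] at h'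
  · simpa [p', ← PowerSeries.coeff_zero_eq_constantCoeff_apply, PowerSeries.coeff_mk] using hi

/-- Passing to leading coefficients keeps the dimension. -/
theorem finrank_lead [Finite ι] (S : Submodule (LaurentSeries K) (ι → LaurentSeries K)) :
    finrank K (lead S) = finrank (LaurentSeries K) S := by
  induction h : finrank (LaurentSeries K) S using Nat.strong_induction_on generalizing S with
  | _ n ih =>
    rcases eq_or_ne S ⊥ with rfl | hS
    · rw [lead_bot, ← h, finrank_bot, finrank_bot]
    obtain ⟨p, hp, j, hj⟩ := exists_normalised hS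
    set π : (ι → LaurentSeries K) →ₗ[LaurentSeries K] LaurentSeries K := LinearMap.proj j
    set S' := S ⊓ LinearMap.ker π with hS'
    have hpj : π (up p) ≠ 0 := fun e => hj (by
      have : p j = 0 := HahnSeries.ofPowerSeries_injective (e.trans (map_zero _).symm)
      simp [this])
    have hdim : finrank (LaurentSeries K) S' + 1 = n := by
      have h1 := (π.domRestrict S).finrank_range_add_finrank_ker
      have h2 : LinearMap.range (π.domRestrict S) = ⊤ := by
        rw [LinearMap.range_domRestrict, eq_top_iff]
        rintro x -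
        exact ⟨(x / π (up p)) • up p, S.smul_mem _ hp, by
          rw [map_smul, smul_eq_mul, div_mul_cancel₀ x hpj]⟩
      have h3 : finrank (LaurentSeries K) (LinearMap.ker (π.domRestrict S)) =
          finrank (LaurentSeries K) S' := by
        have e : LinearMap.ker (π.domRestrict S) = Submodule.comap S.subtype S' := by
          rw [hS', Submodule.comap_inf, Submodule.comap_subtype_self, top_inf_eq]
          rfl
        rw [e]
        exact (Submodule.comapSubtypeEquivOfLe (p := S') (q := S) inf_le_left).finrank_eq
      rw [h2, finrank_top, Module.finrank_self, h3, h] at h1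
      omega
    set c₀ : ι → K := fun i => PowerSeries.constantCoeff (p i) with hc₀
    have hker : ∀ c ∈ lead S', c j = 0 := by
      rintro c ⟨q, hq, hqc⟩
      have hqj : q j = 0 := HahnSeries.ofPowerSeries_injective (hq.2.trans (map_zero _).symm)
      rw [← hqc j, hqj, map_zero]
    have hlead : lead S = lead S' ⊔ K ∙ c₀ := by
      refine le_antisymm ?_ (sup_le (lead_mono inf_le_left)
        ((Submodule.span_singleton_le_iff_mem _ _).2 ⟨p, hp, fun i => rfl⟩))
      rintro c ⟨q, hq, hqc⟩
      set t : PowerSeries K := q j * (p j)⁻¹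
      have htj : t * p j = q j := by rw [mul_assoc, PowerSeries.inv_mul_cancel _ hj, mul_one]
      have hmem : up (q - t • p) ∈ S' := by
        refine ⟨by rw [up_sub, up_smul]; exact S.sub_mem hq (S.smul_mem _ hp), ?_⟩
        show HahnSeries.ofPowerSeries ℤ K (q j - t * p j) = 0
        rw [htj, sub_self, map_zero]
      refine Submodule.mem_sup.2 ⟨c - PowerSeries.constantCoeff t • c₀,
        ⟨q - t • p, hmem, fun i => by simp [hc₀, hqc i]⟩, _,
        Submodule.smul_mem _ _ (Submodule.mem_span_singleton_self c₀), sub_add_cancel _ _⟩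
    have hdisj : lead S' ⊓ K ∙ c₀ = ⊥ := by
      refine (Submodule.eq_bot_iff _).2 fun c hc => ?_
      obtain ⟨a, rfl⟩ := Submodule.mem_span_singleton.1 hc.2
      have := hker _ hc.1
      simp [hc₀, hj] at this
      simp [this]
    have hsum := Submodule.finrank_sup_add_finrank_inf_eq (lead S') (K ∙ c₀)
    rw [← hlead, hdisj, finrank_bot, add_zero,
      finrank_span_singleton (show c₀ ≠ 0 from fun e => hj (congrFun e j)),
      ih _ (by omega) S' rfl] at hsum
    omega

/-- An integral family whose leading vectors form a basis of the leading space. -/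
theorem exists_integral_basis [Finite ι]
    (S : Submodule (LaurentSeries K) (ι → LaurentSeries K)) :
    ∃ p : Fin (finrank K (lead S)) → ι → PowerSeries K, (∀ k, up (p k) ∈ S) ∧
      LinearIndependent K (fun k i => PowerSeries.constantCoeff (p k i)) := by
  let b := Module.finBasis K (lead S)
  choose p hp hpc using fun k => (mem_lead.1 (b k).2)
  refine ⟨p, hp, ?_⟩
  have : (fun k i => PowerSeries.constantCoeff (p k i)) = fun k => ((b k : ι → K)) :=
    funext fun k => funext fun i => hpc k i
  rw [this]
  exact b.linearIndependent.map' (lead S).subtype (Submodule.ker_subtype _)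

section Matrix

variable [Fintype ι] [Fintype κ]

/-- The map of a matrix of power series on Laurent vectors. -/
noncomputable def bigMap (M : Matrix κ ι (PowerSeries K)) :
    (ι → LaurentSeries K) →ₗ[LaurentSeries K] κ → LaurentSeries K :=
  (M.map (HahnSeries.ofPowerSeries ℤ K)).mulVecLin

/-- The coefficient of `ε ^ n` of a matrix of power series, as a map. -/
noncomputable def coeffMap (M : Matrix κ ι (PowerSeries K)) (n : ℕ) : (ι → K) →ₗ[K] κ → K :=
  (M.map (PowerSeries.coeff n)).mulVecLin

omit [Fintype κ] in
lemma bigMap_up (M : Matrix κ ι (PowerSeries K)) (p : ι → PowerSeries K) :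
    bigMap M (up p) = up (M.mulVec p) := by
  funext k
  simp [bigMap, up, Matrix.mulVec, dotProduct, map_sum]

omit [Fintype κ] in
lemma coeffMap_zero_apply (M : Matrix κ ι (PowerSeries K)) (p : ι → PowerSeries K) :
    coeffMap M 0 (fun i => PowerSeries.constantCoeff (p i)) =
      fun k => PowerSeries.constantCoeff (M.mulVec p k) := by
  funext k
  simp [coeffMap, Matrix.mulVec, dotProduct, map_sum]

omit [Fintype κ] in
lemma coeff_one_mulVec (M : Matrix κ ι (PowerSeries K)) (p : ι → PowerSeries K) :
    (fun k => PowerSeries.coeff 1 (M.mulVec p k)) =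
      coeffMap M 1 (fun i => PowerSeries.constantCoeff (p i)) +
        coeffMap M 0 (fun i => PowerSeries.coeff 1 (p i)) := by
  funext k
  simp only [coeffMap, Matrix.mulVecLin_apply, Matrix.mulVec, dotProduct, Matrix.map_apply,
    Pi.add_apply, map_sum, ← Finset.sum_add_distrib]
  refine Finset.sum_congr rfl fun i _ => ?_
  rw [PowerSeries.coeff_mul, Finset.Nat.sum_antidiagonal_eq_sum_range_succ
    (fun a b => PowerSeries.coeff a (M k i) * PowerSeries.coeff b (p i)),
    Finset.sum_range_succ, Finset.sum_range_succ, Finset.sum_range_zero]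
  simp [add_comm]

omit [Fintype κ] in
/-- Leading vectors of the kernel: killed by order zero, with image at order one in its range. -/
theorem lead_ker_le (M : Matrix κ ι (PowerSeries K)) :
    lead (LinearMap.ker (bigMap M)) ≤ LinearMap.ker (coeffMap M 0) ⊓
      (LinearMap.range (coeffMap M 0)).comap (coeffMap M 1) := by
  rintro c ⟨p, hp, hc⟩
  have hp' : M.mulVec p = 0 := up_injective (by
    rw [← bigMap_up, LinearMap.mem_ker.1 hp, up_zero])
  obtain rfl : c = fun i => PowerSeries.constantCoeff (p i) := funext fun i => (hc i).symm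
  refine ⟨by simp [coeffMap_zero_apply, hp']; rfl, -fun i => PowerSeries.coeff 1 (p i), ?_⟩
  have h := coeff_one_mulVec M p
  rw [hp'] at h
  simp only [Pi.zero_apply, map_zero] at h
  rw [map_neg, neg_eq_iff_eq_neg, eq_neg_iff_add_eq_zero, add_comm]
  exact h.symm

/-- Semicontinuity of kernels. -/
theorem finrank_ker_le (M : Matrix κ ι (PowerSeries K)) :
    finrank (LaurentSeries K) (LinearMap.ker (bigMap M)) ≤
      finrank K (LinearMap.ker (coeffMap M 0)) := by
  rw [← finrank_lead]
  exact Submodule.finrank_mono ((lead_ker_le M).trans inf_le_left)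

/-- Semicontinuity of ranks. -/
theorem finrank_range_le (M : Matrix κ ι (PowerSeries K)) :
    finrank K (LinearMap.range (coeffMap M 0)) ≤
      finrank (LaurentSeries K) (LinearMap.range (bigMap M)) := by
  have h1 := (bigMap M).finrank_range_add_finrank_ker
  have h2 := (coeffMap M 0).finrank_range_add_finrank_ker
  have h3 := finrank_ker_le M
  rw [Module.finrank_fintype_fun_eq_card] at h1 h2
  omega

/-- The refined bound: the generic rank is at least the number of columns minus the leading
kernel. -/
theorem card_le_finrank_range_add {W : Submodule K (ι → K)} (M : Matrix κ ι (PowerSeries K))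
    (hW : LinearMap.ker (coeffMap M 0) ⊓
      (LinearMap.range (coeffMap M 0)).comap (coeffMap M 1) ≤ W) :
    Fintype.card ι ≤ finrank (LaurentSeries K) (LinearMap.range (bigMap M)) + finrank K W := by
  have h1 := (bigMap M).finrank_range_add_finrank_ker
  have h2 := Submodule.finrank_mono ((lead_ker_le M).trans hW)
  rw [finrank_lead] at h2
  rw [Module.finrank_fintype_fun_eq_card] at h1
  omega

theorem bigMap_injective {M : Matrix κ ι (PowerSeries K)}
    (h : Function.Injective (coeffMap M 0)) : Function.Injective (bigMap M) := by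
  rw [← LinearMap.ker_eq_bot] at h ⊢
  have h1 := finrank_ker_le M
  rw [h, finrank_bot] at h1
  exact Submodule.finrank_eq_zero.1 (by omega)

theorem bigMap_surjective {M : Matrix κ ι (PowerSeries K)}
    (h : Function.Surjective (coeffMap M 0)) : Function.Surjective (bigMap M) := by
  rw [← LinearMap.range_eq_top] at h ⊢
  have h1 := finrank_range_le M
  rw [h, finrank_top, Module.finrank_fintype_fun_eq_card] at h1
  refine Submodule.eq_top_of_finrank_eq ?_
  rw [Module.finrank_fintype_fun_eq_card]
  have h2 := Submodule.finrank_le (LinearMap.range (bigMap M))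
  rw [Module.finrank_fintype_fun_eq_card] at h2
  omega

/-- A pairing of two families of integral vectors has at least the rank of its leading part. -/
theorem finrank_range_pairing {α β : Type*} [Fintype α] [Fintype β]
    (M : Matrix κ ι (PowerSeries K)) (p : α → ι → PowerSeries K) (q : β → κ → PowerSeries K) :
    (Matrix.of fun b a => ∑ k, PowerSeries.constantCoeff (q b k) *
        coeffMap M 0 (fun i => PowerSeries.constantCoeff (p a i)) k).rank ≤
      (Matrix.of fun b a => ∑ k, up (q b) k * bigMap M (up (p a)) k).rank := by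
  set P : Matrix β α (PowerSeries K) := Matrix.of fun b a => ∑ k, q b k * M.mulVec (p a) k
  have h0 : (Matrix.of fun b a => ∑ k, PowerSeries.constantCoeff (q b k) *
      coeffMap M 0 (fun i => PowerSeries.constantCoeff (p a i)) k) =
      P.map (PowerSeries.coeff 0) := by
    ext b a
    simp [P, coeffMap_zero_apply, map_sum]
  have h1 : (Matrix.of fun b a => ∑ k, up (q b) k * bigMap M (up (p a)) k) =
      P.map (HahnSeries.ofPowerSeries ℤ K) := by
    ext b a
    simp [P, bigMap_up, up_apply, map_sum]
  rw [h0, h1]
  exact finrank_range_le P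

end Matrix

section Recursion

/-- Strong recursion along the naturals. -/
theorem exists_seq {V : Type*} (P : (m : ℕ) → (Fin m → V) → V → Prop)
    (h : ∀ (m : ℕ) (prev : Fin m → V), (∀ k : Fin m, P k (fun i => prev ⟨i, i.2.trans k.2⟩)
      (prev k)) → ∃ x, P m prev x) :
    ∃ v : ℕ → V, ∀ m, P m (fun i => v i) (v m) := by
  classical
  obtain ⟨x0, -⟩ := h 0 Fin.elim0 fun k => k.elim0
  have : Nonempty V := ⟨x0⟩
  let v : ℕ → V := Nat.strongRec fun m f => Classical.epsilon (P m fun i : Fin m => f i i.2)
  have hv : ∀ m, v m = Classical.epsilon (P m fun i : Fin m => v i) := fun m => by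
    simp only [v]
    conv_lhs => rw [Nat.strongRec]
  refine ⟨v, fun m => ?_⟩
  induction m using Nat.strong_induction_on with
  | _ m ih =>
    rw [hv m]
    exact Classical.epsilon_spec (h m (fun i => v i) fun k => ih k k.2)

variable {V W Y : Type*} [AddCommGroup V] [Module K V] [AddCommGroup W] [Module K W]
  [AddCommGroup Y] [Module K Y]

/-- Staircase lemma. The equations are `J (w 0) + e = 0` and
`J (w (m + 1)) + L (w m) + R m (w 0, .., w (m - 1)) = 0`. If `range J = ker π`, `π e = 0` and
`π ∘ L` maps `ker J` onto `Y`, they have a solution. -/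
theorem exists_staircase (J L : V →ₗ[K] W) (π : W →ₗ[K] Y)
    (hπ : LinearMap.range J = LinearMap.ker π) (hL : ∀ y, ∃ u, J u = 0 ∧ π (L u) = y)
    (e : W) (he : π e = 0) (R : (m : ℕ) → (Fin m → V) → W) :
    ∃ w : ℕ → V, J (w 0) + e = 0 ∧
      ∀ m, J (w (m + 1)) + L (w m) + R m (fun i => w i) = 0 := by
  let err : (m : ℕ) → (Fin m → V) → W := fun m => match m with
    | 0 => fun _ => e
    | k + 1 => fun prev => L (prev (Fin.last k)) + R k (fun i => prev i.castSucc)
  obtain ⟨w, hw⟩ := exists_seq
    (fun m prev x => J x + err m prev = 0 ∧ π (L x + R m prev) = 0) fun m prev hprev => by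
      have herr : err m prev ∈ LinearMap.range J := by
        rw [hπ, LinearMap.mem_ker]
        match m, prev, hprev with
        | 0, _, _ => exact he
        | k + 1, prev, hprev => exact (hprev (Fin.last k)).2
      obtain ⟨x, hx⟩ := herr
      obtain ⟨u, hu, hu'⟩ := hL (π (L x) - π (R m prev))
      refine ⟨u - x, by rw [map_sub, hu, hx]; abel, ?_⟩
      rw [map_add, map_sub, map_sub, hu']
      abel
  refine ⟨w, (hw 0).1, fun m => ?_⟩
  rw [add_assoc]
  exact (hw (m + 1)).1

end Recursion

end Vale.P199.Valued
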