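import Mathlib

/-!
# P199: the pencil lemma

`B : Y →ₗ T →ₗ T →ₗ F` is a `c`-dimensional family of bilinear forms on `T`, all of whose nonzero
members have rank at least `R`, and `G` is a space of `g` functionals on `T`.
If `c + g ≤ R` some `a` has `y ↦ B y a` injective modulo `G`; if `3 c + g ≤ R` some `b` with
`B y a b = 0` for all `y` has `(y, z) ↦ B y a + B z b` injective modulo `G`. In both cases finitely
many prescribed functionals may be kept nonzero. No Zariski topology is used: a member of maximal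
rank of a pencil maps its kernel into its range.
-/

namespace Vale.P199.Pencil

open Module

section Line

variable {F V W : Type*} [Field F] [AddCommGroup V] [Module F V] [FiniteDimensional F V]
  [AddCommGroup W] [Module F W]

/-- Injectivity at one point of a line of maps fails only finitely often along the line. -/
lemma finite_not_injective (A N : V →ₗ[F] W) (hA : Function.Injective A) :
    {t : F | ¬Function.Injective (A + t • N)}.Finite := by
  obtain ⟨L, hL⟩ := A.exists_leftInverse_of_injective (LinearMap.ker_eq_bot.2 hA)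
  refine ((Module.End.finite_hasEigenvalue (L ∘ₗ N : Module.End F V)).preimage
    (f := fun t : F => -t⁻¹) fun s _ t _ h => ?_).subset ?_
  · simpa using h
  intro t ht
  simp only [Set.mem_ofPred_eq, ← LinearMap.ker_eq_bot, Submodule.eq_bot_iff, not_forall] at ht
  obtain ⟨x, hx, hx0⟩ := ht
  have hx' : A x + t • N x = 0 := by simpa using hx
  have h1 : x + t • L (N x) = 0 := by
    have h := congrArg L hx'
    simpa [show L (A x) = x from LinearMap.congr_fun hL x] using h
  have ht0 : t ≠ 0 := fun h => hx0 (by simpa [h] using h1)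
  refine Module.End.hasEigenvalue_of_hasEigenvector ⟨?_, hx0⟩
  rw [Module.End.mem_eigenspace_iff]
  have h2 : t • L (N x) = -x := eq_neg_of_add_eq_zero_right h1
  calc (L ∘ₗ N) x = t⁻¹ • t • L (N x) := (inv_smul_smul₀ ht0 _).symm
    _ = -t⁻¹ • x := by rw [h2, smul_neg, neg_smul]

/-- A member of maximal rank of a pencil maps its kernel into its range. -/
lemma map_ker_le_range [Infinite F] (A N : V →ₗ[F] W)
    (hmax : ∀ t : F, finrank F (LinearMap.range (A + t • N)) ≤ finrank F (LinearMap.range A))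
    {x : V} (hx : A x = 0) : N x ∈ LinearMap.range A := by
  by_contra hN
  obtain ⟨C, hC⟩ := exists_isCompl (LinearMap.ker A)
  have hAC : Function.Injective (A.domRestrict C) := by
    rw [← LinearMap.ker_eq_bot, Submodule.eq_bot_iff]
    rintro ⟨v, hv⟩ h
    have h' : v ∈ LinearMap.ker A ⊓ C := ⟨by simpa using h, hv⟩
    rw [hC.inf_eq_bot, Submodule.mem_bot] at h'
    exact Subtype.ext h'
  set A' : (C × F) →ₗ[F] W :=
    (A.domRestrict C).coprod (LinearMap.toSpanSingleton F W (N x)) with hA'
  set N' : (C × F) →ₗ[F] W := (N.domRestrict C) ∘ₗ LinearMap.fst F C F with hN'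
  have hinj : Function.Injective A' := by
    rw [← LinearMap.ker_eq_bot, Submodule.eq_bot_iff]
    rintro ⟨v, s⟩ h
    have h' : A v + s • N x = 0 := by simpa [hA'] using h
    by_cases hs : s = 0
    · subst hs
      have : v = 0 := hAC (by simpa using h')
      simp [this]
    · refine absurd ⟨-s⁻¹ • (v : V), ?_⟩ hN
      rw [map_smul, eq_neg_of_add_eq_zero_left h', smul_neg, neg_smul, neg_neg, inv_smul_smul₀ hs]
  obtain ⟨t, ht⟩ := ((finite_not_injective A' N' hinj).insert 0).exists_notMem
  simp only [Set.mem_insert_iff, Set.mem_ofPred_eq, not_or, not_not] at ht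
  have hle : LinearMap.range (A' + t • N') ≤ LinearMap.range (A + t • N) := by
    rintro w ⟨⟨v, s⟩, rfl⟩
    refine ⟨(v : V) + (t⁻¹ * s) • x, ?_⟩
    simp [hA', hN', hx, smul_smul, mul_inv_cancel_left₀ ht.1]
    abel
  have h1 := (Submodule.finrank_mono hle).trans (hmax t)
  rw [LinearMap.finrank_range_of_inj ht.2, Module.finrank_prod, Module.finrank_self] at h1
  have h2 : finrank F C + finrank F (LinearMap.ker A) = finrank F V :=
    Submodule.finrank_add_eq_of_isCompl hC.symm
  have h3 := A.finrank_range_add_finrank_ker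
  omega

/-- An affine family of maps has an injective member unless some kernel vector of a member
of maximal rank is sent into its range by every direction. -/
lemma exists_injective_affine [Infinite F] {X : Type*} [AddCommGroup X] [Module F X]
    (A₀ : V →ₗ[F] W) (D : X →ₗ[F] V →ₗ[F] W)
    (h : ∀ p : X, ∀ v : V, (A₀ + D p) v = 0 → v ≠ 0 →
      ∃ q : X, D q v ∉ LinearMap.range (A₀ + D p)) :
    ∃ p : X, Function.Injective (A₀ + D p) := by
  obtain ⟨r, ⟨p, rfl⟩, hr⟩ : ∃ r, (∃ p, finrank F (LinearMap.range (A₀ + D p)) = r) ∧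
      ∀ p, finrank F (LinearMap.range (A₀ + D p)) ≤ r := by
    classical
    have hb : ∀ p, finrank F (LinearMap.range (A₀ + D p)) ≤ finrank F V := fun p =>
      LinearMap.finrank_range_le _
    let P : ℕ → Prop := fun r => ∃ p, finrank F (LinearMap.range (A₀ + D p)) = r
    exact ⟨Nat.findGreatest P (finrank F V),
      Nat.findGreatest_spec (P := P) (hb 0) ⟨0, rfl⟩,
      fun p => Nat.le_findGreatest (P := P) (hb p) ⟨p, rfl⟩⟩
  refine ⟨p, ?_⟩
  rw [← LinearMap.ker_eq_bot, Submodule.eq_bot_iff]
  intro v hv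
  by_contra hv0
  obtain ⟨q, hq⟩ := h p v hv hv0
  refine hq (map_ker_le_range (A₀ + D p) (D q) (fun t => ?_) hv)
  have := hr (p + t • q)
  rwa [map_add, map_smul, ← add_assoc] at this

/-- An affine family has an injective member if at every kernel vector the directions span at
least `dim V` dimensions. -/
lemma exists_injective_of_big [Infinite F] [FiniteDimensional F W] {X : Type*} [AddCommGroup X]
    [Module F X] (A₀ : V →ₗ[F] W) (D : X →ₗ[F] V →ₗ[F] W)
    (h : ∀ p : X, ∀ v : V, (A₀ + D p) v = 0 → v ≠ 0 →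
      finrank F V ≤ finrank F (LinearMap.range (D.flip v))) :
    ∃ p : X, Function.Injective (A₀ + D p) := by
  refine exists_injective_affine A₀ D fun p v hv hv0 => ?_
  by_contra hcon
  push Not at hcon
  have hle : LinearMap.range (D.flip v) ≤ LinearMap.range (A₀ + D p) := by
    rintro _ ⟨q, rfl⟩
    exact hcon q
  have h1 := (h p v hv hv0).trans (Submodule.finrank_mono hle)
  have h2 := (A₀ + D p).finrank_range_add_finrank_ker
  have h3 : 0 < finrank F (LinearMap.ker (A₀ + D p)) :=
    Module.finrank_pos_iff_exists_ne_zero.2 ⟨⟨v, hv⟩, fun e => hv0 (congrArg Subtype.val e)⟩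
  omega

/-- An affine family with an injective member has one avoiding given functionals' zeros. -/
lemma exists_injective_avoid [Infinite F] {X : Type*} [AddCommGroup X] [Module F X]
    (A₀ : V →ₗ[F] W) (D : X →ₗ[F] V →ₗ[F] W) (hex : ∃ p, Function.Injective (A₀ + D p))
    (s : Finset (X →ₗ[F] F)) (hs : ∀ l ∈ s, l ≠ 0) :
    ∃ p, Function.Injective (A₀ + D p) ∧ ∀ l ∈ s, l p ≠ 0 := by
  classical
  induction s using Finset.induction_on with
  | empty => obtain ⟨p, hp⟩ := hex; exact ⟨p, hp, by simp⟩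
  | @insert l s _ ih =>
    obtain ⟨p, hp, hps⟩ := ih fun k hk => hs k (Finset.mem_insert_of_mem hk)
    obtain ⟨q, hq⟩ : ∃ q, l q ≠ 0 := by
      by_contra hne
      push Not at hne
      exact hs l (Finset.mem_insert_self l s) (LinearMap.ext fun q => by simpa using hne q)
    have hbad : ∀ k : X →ₗ[F] F, k p ≠ 0 ∨ k q ≠ 0 → {t : F | k (p + t • q) = 0}.Finite := by
      intro k hk
      refine Set.Subsingleton.finite fun a ha b hb => ?_
      simp only [Set.mem_ofPred_eq, map_add, map_smul, smul_eq_mul] at ha hb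
      by_cases hkq : k q = 0
      · simp [hkq] at ha
        exact absurd hk (by simp [hkq, ha])
      · exact mul_right_cancel₀ hkq (by linear_combination ha - hb)
    have hfin := ((finite_not_injective (A₀ + D p) (D q) hp).union
      ((hbad l (Or.inr hq)).union (s.finite_toSet.biUnion fun k hk => hbad k (Or.inl (hps k hk)))))
    obtain ⟨t, ht⟩ := hfin.exists_notMem
    simp only [Set.mem_union, Set.mem_ofPred_eq, Set.mem_iUnion, not_or, not_not, not_exists,
      Finset.mem_coe] at ht
    refine ⟨p + t • q, by rw [map_add, map_smul, ← add_assoc]; exact ht.1, fun k hk => ?_⟩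
    rcases Finset.mem_insert.1 hk with rfl | hk
    · exact ht.2.1
    · exact ht.2.2 k hk

end Line

section Rank

variable {F T W : Type*} [Field F] [AddCommGroup T] [Module F T] [FiniteDimensional F T]
  [AddCommGroup W] [Module F W]

/-- Restriction of the domain to the kernel of a map into `U` loses at most `dim U`. -/
lemma finrank_range_le_map_ker_add {U : Type*} [AddCommGroup U] [Module F U]
    [FiniteDimensional F U] (f : T →ₗ[F] W) (π : T →ₗ[F] U) :
    finrank F (LinearMap.range f) ≤
      finrank F ((LinearMap.ker π).map f) + finrank F U := by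
  obtain ⟨C, hC⟩ := exists_isCompl (LinearMap.ker π)
  have h : LinearMap.range f = (LinearMap.ker π).map f ⊔ C.map f := by
    rw [← Submodule.map_sup, hC.sup_eq_top, Submodule.map_top]
  rw [h]
  refine (Submodule.finrank_add_le_finrank_add_finrank _ _).trans ?_
  gcongr
  refine (Submodule.finrank_map_le f C).trans ?_
  have h2 : finrank F (LinearMap.ker π) + finrank F C = finrank F T :=
    Submodule.finrank_add_eq_of_isCompl hC
  have h3 := π.finrank_range_add_finrank_ker
  have h4 := Submodule.finrank_le (LinearMap.range π)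
  omega

/-- A bilinear form restricted to a subspace loses at most twice the codimension. -/
lemma finrank_range_restrict (B : T →ₗ[F] Dual F T) (S : Submodule F T) :
    finrank F (LinearMap.range B) + 2 * finrank F S ≤
      finrank F (LinearMap.range (S.subtype.dualMap ∘ₗ B ∘ₗ S.subtype)) + 2 * finrank F T := by
  have h1 := finrank_range_le_map_ker_add B S.mkQ
  rw [S.ker_mkQ] at h1
  have hr : LinearMap.range (S.subtype.dualMap ∘ₗ B ∘ₗ S.subtype) =
      (S.map B).map S.subtype.dualMap := by
    rw [LinearMap.range_comp, LinearMap.range_comp, Submodule.range_subtype]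
  have h2 : finrank F (S.map B) ≤
      finrank F ((S.map B).map S.subtype.dualMap) + finrank F S.dualAnnihilator := by
    have h := LinearMap.finrank_range_add_finrank_ker (K := F) (V := S.map B) (V₂ := Dual F S)
      (S.subtype.dualMap.domRestrict (S.map B))
    rw [LinearMap.range_domRestrict] at h
    rw [← h]
    gcongr
    refine (LinearMap.finrank_le_finrank_of_injective (f := LinearMap.codRestrict S.dualAnnihilator
      ((S.map B).subtype ∘ₗ (LinearMap.ker (S.subtype.dualMap.domRestrict (S.map B))).subtype)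
      fun v => ?_) fun a b hab => ?_)
    · rw [Submodule.mem_dualAnnihilator]
      intro w hw
      exact LinearMap.congr_fun v.2 ⟨w, hw⟩
    · have := congrArg Subtype.val hab
      exact Subtype.ext (Subtype.ext this)
  have h3 := Subspace.finrank_add_finrank_dualAnnihilator_eq S
  have h4 := S.finrank_quotient_add_finrank
  rw [hr]
  omega

end Rank

section Abstract

variable {F Y T W U : Type*} [Field F] [Infinite F] [AddCommGroup Y] [Module F Y]
  [FiniteDimensional F Y] [AddCommGroup T] [Module F T] [FiniteDimensional F T]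
  [AddCommGroup W] [Module F W] [FiniteDimensional F W]

omit [FiniteDimensional F T] in
/-- First half of the pencil lemma, for maps. -/
lemma exists_fst' (B : Y →ₗ[F] T →ₗ[F] W) (G : Submodule F W) {R : ℕ}
    (hB : ∀ y, y ≠ 0 → R ≤ finrank F (LinearMap.range (B y)))
    (hR : finrank F Y + finrank F G ≤ R)
    (s : Finset (T →ₗ[F] F)) (hs : ∀ l ∈ s, l ≠ 0) :
    ∃ a : T, (∀ y, B y a ∈ G → y = 0) ∧ ∀ l ∈ s, l a ≠ 0 := by
  set A₀ : (Y × G) →ₗ[F] W := G.subtype ∘ₗ LinearMap.snd F Y G with hA
  set D : T →ₗ[F] (Y × G) →ₗ[F] W :=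
    (LinearMap.lcomp F W (LinearMap.fst F Y G)) ∘ₗ B.flip with hD
  obtain ⟨a, ha, hl⟩ := exists_injective_avoid A₀ D
    (exists_injective_of_big A₀ D fun (a : T) (v : Y × G) hv hv0 => by
      have hy : v.1 ≠ 0 := by
        intro hy
        have hv' : (v.2 : W) + B v.1 a = 0 := by simpa [hA, hD] using hv
        rw [hy] at hv'
        exact hv0 (Prod.ext hy (Subtype.ext (by simpa using hv')))
      have hflip : D.flip v = B v.1 := by ext q; simp [hD]
      rw [hflip, Module.finrank_prod]
      exact hR.trans (hB _ hy)) s hs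
  refine ⟨a, fun y hy => ?_, hl⟩
  have h : (A₀ + D a) (y, -⟨B y a, hy⟩) = 0 := by simp [hA, hD]
  exact congrArg Prod.fst (ha (h.trans (map_zero _).symm))

/-- Second half of the pencil lemma, for maps, on the kernel of `π`. -/
lemma exists_snd' [AddCommGroup U] [Module F U] [FiniteDimensional F U]
    (B : Y →ₗ[F] T →ₗ[F] W) (G : Submodule F W) (π : T →ₗ[F] U) {R : ℕ}
    (hB : ∀ y, y ≠ 0 → R ≤ finrank F (LinearMap.range (B y)))
    (hR : 2 * finrank F Y + finrank F G + finrank F U ≤ R) {a : T}
    (ha : ∀ y, B y a ∈ G → y = 0)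
    (s : Finset (LinearMap.ker π →ₗ[F] F)) (hs : ∀ l ∈ s, l ≠ 0) :
    ∃ b : LinearMap.ker π, (∀ y z, B y a + B z b ∈ G → y = 0 ∧ z = 0) ∧ ∀ l ∈ s, l b ≠ 0 := by
  set A₀ : ((Y × Y) × G) →ₗ[F] W :=
    G.subtype ∘ₗ LinearMap.snd F (Y × Y) G +
      B.flip a ∘ₗ LinearMap.fst F Y Y ∘ₗ LinearMap.fst F (Y × Y) G with hA
  set D : LinearMap.ker π →ₗ[F] ((Y × Y) × G) →ₗ[F] W :=
    (LinearMap.lcomp F W (LinearMap.snd F Y Y ∘ₗ LinearMap.fst F (Y × Y) G)) ∘ₗ
      B.flip ∘ₗ (LinearMap.ker π).subtype with hD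
  have hval : ∀ (b : LinearMap.ker π) (v : (Y × Y) × G),
      (A₀ + D b) v = (v.2 : W) + B v.1.1 a + B v.1.2 b := fun b v => by simp [hA, hD]
  obtain ⟨b, hb, hl⟩ := exists_injective_avoid A₀ D
    (exists_injective_of_big A₀ D fun (b : LinearMap.ker π) (v : (Y × Y) × G) hv hv0 => by
      have hz : v.1.2 ≠ 0 := by
        intro hz
        rw [hval, hz, map_zero, LinearMap.zero_apply, add_zero] at hv
        have hy : v.1.1 = 0 := ha _ (by
          rw [eq_neg_of_add_eq_zero_right hv]; exact G.neg_mem v.2.2)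
        rw [hy, map_zero, LinearMap.zero_apply, add_zero] at hv
        exact hv0 (Prod.ext (Prod.ext hy hz) (Subtype.ext (by simpa using hv)))
      have hflip : D.flip v = B v.1.2 ∘ₗ (LinearMap.ker π).subtype := by ext q; simp [hD]
      rw [hflip, LinearMap.range_comp, Submodule.range_subtype, Module.finrank_prod,
        Module.finrank_prod]
      have h1 := (hB _ hz).trans (finrank_range_le_map_ker_add (B v.1.2) π)
      omega) s hs
  refine ⟨b, fun y z hyz => ?_, hl⟩
  have h : (A₀ + D b) ((y, z), -⟨B y a + B z b, hyz⟩) = 0 := by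
    rw [hval]; simp
  have h' := congrArg Prod.fst (hb (h.trans (map_zero _).symm))
  exact ⟨congrArg Prod.fst h', congrArg Prod.snd h'⟩

end Abstract

section Main

variable {F Y T : Type*} [Field F] [Infinite F] [AddCommGroup Y] [Module F Y]
  [FiniteDimensional F Y] [AddCommGroup T] [Module F T] [FiniteDimensional F T]

/-- First half: `y ↦ B y a` is injective modulo `G`. -/
theorem exists_fst (B : Y →ₗ[F] T →ₗ[F] Dual F T) (G : Submodule F (Dual F T)) {R : ℕ}
    (hB : ∀ y, y ≠ 0 → R ≤ finrank F (LinearMap.range (B y)))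
    (hR : finrank F Y + finrank F G ≤ R)
    (s : Finset (Dual F T)) (hs : ∀ l ∈ s, l ≠ 0) :
    ∃ a : T, (∀ y, B y a ∈ G → y = 0) ∧ ∀ l ∈ s, l a ≠ 0 :=
  exists_fst' B G hB hR s hs

/-- The common orthogonal `{b | ∀ y, B y a b = 0}`. -/
def orth (B : Y →ₗ[F] T →ₗ[F] Dual F T) (a : T) : Submodule F T :=
  LinearMap.ker ((B.flip a).flip)

omit [Infinite F] [FiniteDimensional F Y] [FiniteDimensional F T] in
lemma mem_orth {B : Y →ₗ[F] T →ₗ[F] Dual F T} {a b : T} :
    b ∈ orth B a ↔ ∀ y, B y a b = 0 := by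
  simp [orth, LinearMap.ext_iff]

/-- Second half: `(y, z) ↦ B y a + B z b` is injective modulo `G` for some `b` orthogonal
to `a`. -/
theorem exists_snd (B : Y →ₗ[F] T →ₗ[F] Dual F T) (G : Submodule F (Dual F T)) {R : ℕ}
    (hB : ∀ y, y ≠ 0 → R ≤ finrank F (LinearMap.range (B y)))
    (hR : 3 * finrank F Y + finrank F G ≤ R) {a : T} (ha : ∀ y, B y a ∈ G → y = 0)
    (s : Finset (Dual F T)) (hs : ∀ l ∈ s, ∃ b ∈ orth B a, l b ≠ 0) :
    ∃ b : T, (∀ y, B y a b = 0) ∧ (∀ y z, B y a + B z b ∈ G → y = 0 ∧ z = 0) ∧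
      ∀ l ∈ s, l b ≠ 0 := by
  classical
  set res := s.image fun l : Dual F T => l ∘ₗ (orth B a).subtype with hres
  have hres0 : ∀ l ∈ res, l ≠ 0 := by
    intro l hl
    obtain ⟨k, hk, rfl⟩ := Finset.mem_image.1 hl
    obtain ⟨b, hb, hkb⟩ := hs k hk
    exact fun h => hkb (LinearMap.congr_fun h ⟨b, hb⟩)
  have hdim : finrank F (Dual F Y) = finrank F Y := Subspace.dual_finrank_eq
  obtain ⟨b, h2, h3⟩ := exists_snd' B G ((B.flip a).flip) hB
    (show 2 * finrank F Y + finrank F G + finrank F (Dual F Y) ≤ R by omega) ha res hres0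
  exact ⟨b, mem_orth.1 b.2, h2,
    fun l hl => h3 (l ∘ₗ (orth B a).subtype) (Finset.mem_image_of_mem _ hl)⟩

/-- Pencil lemma. -/
theorem pencil (B : Y →ₗ[F] T →ₗ[F] Dual F T) (G : Submodule F (Dual F T))
    (hB : ∀ y, y ≠ 0 → 3 * finrank F Y + finrank F G ≤ finrank F (LinearMap.range (B y))) :
    ∃ a b : T, (∀ y, B y a b = 0) ∧ (∀ y, B y a ∈ G → y = 0) ∧
      ∀ y z, B y a + B z b ∈ G → y = 0 ∧ z = 0 := by
  obtain ⟨a, ha, -⟩ := exists_fst B G hB (by omega) ∅ (by simp)
  obtain ⟨b, h1, h2, -⟩ := exists_snd B G hB le_rfl ha ∅ (by simp)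
  exact ⟨a, b, h1, ha, h2⟩

omit [Infinite F] in
/-- `exists_eval` for an abstract space of functionals. -/
lemma exists_eval' {E : Type*} [AddCommGroup E] [Module F E] (B : Y →ₗ[F] T →ₗ[F] Dual F T)
    (ι : E →ₗ[F] Dual F T) {a b : T}
    (h : ∀ y z φ, B y a + B z b = ι φ → φ = 0) (f : Dual F E) :
    ∃ s : T, (∀ y, B y a s = 0) ∧ (∀ y, B y b s = 0) ∧ ∀ φ : E, ι φ s = f φ := by
  set P : T →ₗ[F] Dual F (Y × Y) := ((B.flip a).coprod (B.flip b)).flip with hP
  set Ψ : E →ₗ[F] Dual F (LinearMap.ker P) := (LinearMap.ker P).subtype.dualMap ∘ₗ ι with hΨ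
  have hinj : Function.Injective Ψ := by
    rw [injective_iff_map_eq_zero]
    intro φ hφ'
    have hφ : ι φ ∈ (LinearMap.ker P).dualAnnihilator := by
      rw [Submodule.mem_dualAnnihilator]
      intro t ht
      exact LinearMap.congr_fun hφ' ⟨t, ht⟩
    rw [← LinearMap.range_dualMap_eq_dualAnnihilator_ker] at hφ
    obtain ⟨w, hw⟩ := hφ
    obtain ⟨v, rfl⟩ : ∃ v, Dual.eval F (Y × Y) v = w :=
      (Module.evalEquiv F (Y × Y)).surjective w
    refine h v.1 v.2 φ ?_
    rw [← hw]; ext t; simp [hP]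
  obtain ⟨w, hw⟩ := LinearMap.dualMap_surjective_of_injective hinj f
  obtain ⟨⟨s, hs⟩, hs'⟩ := (Module.evalEquiv F (LinearMap.ker P)).surjective w
  have hs0 : ∀ y z, B y a s + B z b s = 0 := fun y z => by
    simpa [hP] using LinearMap.congr_fun hs (y, z)
  refine ⟨s, fun y => by simpa using hs0 y 0, fun y => by simpa using hs0 0 y, fun φ => ?_⟩
  have h' := LinearMap.congr_fun hw φ
  rw [← hs'] at h'
  simpa [hΨ] using h'

omit [Infinite F] in
/-- If `(y, z) ↦ B y a + B z b` is injective modulo `G`, the common orthogonal of `a` and `b`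
realises every value of the functionals in `G`. -/
theorem exists_eval (B : Y →ₗ[F] T →ₗ[F] Dual F T) (G : Submodule F (Dual F T)) {a b : T}
    (h : ∀ y z, B y a + B z b ∈ G → y = 0 ∧ z = 0) (f : Dual F G) :
    ∃ s : T, (∀ y, B y a s = 0) ∧ (∀ y, B y b s = 0) ∧ ∀ φ : G, (φ : Dual F T) s = f φ :=
  exists_eval' B G.subtype (fun (y z : Y) (φ : G) (e : B y a + B z b = G.subtype φ) => by
    obtain ⟨h1, h2⟩ := h y z (by rw [e]; exact φ.2)
    exact Subtype.ext (by simpa [h1, h2] using e.symm)) f

end Main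

end Vale.P199.Pencil
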