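import Vale.Agent.P199.LiftSym
import Vale.Agent.P199.Stage.PencilPair

/-!
P199, the lift of a stage: symbol data and a pencil pair give, granted deletion on the new series, a step to a point
which solves the rows and generates; enough rank gives such a pair.
-/

namespace Vale.Agent.P199

noncomputable section

open Module LiftSeries

namespace Rows

variable {P : Pt} {L : Listing} {n : ℕ} (r : Rows L n P)

/-- The deletion hypothesis at a lift: vanishing projections force vanishing equations. -/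
def DeletesAt (S : SymData P) (a b : Amb P) : Prop :=
  ∀ w : ℕ → S.pt.Dir (L.b n),
    (∀ (j : Fin n) m, PF S.ext r j (err S.ext a b S.U S.V w m j) = 0) →
      ∀ (j : Fin n) m, err S.ext a b S.U S.V w m j = 0

/-- **LIFT**: a lifted point solving the rows and generating. -/
theorem exists_lift (S : SymData P) (hl : 1 < S.l) (hS : P.Solves L n) (hT : r.Tight)
    (hAlt : r.Alternating) (hP : P.Generates)
    (hK : ∀ d : P.D, (∀ t, d * t = t * d) → ∃ k : P.K, algebraMap P.K P.D k = d)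
    {a b : r.T} (hab : ∀ y, r.B y a b = 0)
    (hinj : ∀ y z, r.B y a + r.B z b = 0 → y = 0 ∧ z = 0) (hind : P.IndepInner a b)
    (hdel : r.DeletesAt S a b) :
    ∃ w : ℕ → S.pt.Dir (L.b n),
      let T := SeriesPoint.data (XW S.ext (a : Amb P) (b : Amb P) S.U S.V w) (CW w) rfl rfl
      Step P T.pt ∧ T.pt.Solves L n ∧ T.pt.Generates ∧
        finrank T.pt.K T.pt.D = finrank P.K P.D * (S.l * S.l) := by
  have hinj' : ∀ y ∈ r.Y, ∀ z ∈ r.Y,
      (∀ s ∈ r.T, r.form y a s + r.form z b s = 0) → y = 0 ∧ z = 0 := fun y hy z hz h => by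
    obtain ⟨h1, h2⟩ := hinj ⟨y, hy⟩ ⟨z, hz⟩ (LinearMap.ext fun s => h s s.2)
    exact ⟨congrArg Subtype.val h1, congrArg Subtype.val h2⟩
  have hdata : LiftData S.ext r (a : Amb P) (b : Amb P) S.U S.V :=
    liftData_sym r S hl hT hAlt a.2 b.2 (fun y hy => hab ⟨y, hy⟩) hinj'
  obtain ⟨w, hstep, hsol⟩ := exists_step S.ext r (a : Amb P) (b : Amb P) S.U S.V hS hdata hdel
  refine ⟨w, hstep, hsol, ?_, ?_⟩
  · refine S.generates_lift (SeriesPoint.data _ _ rfl rfl).laur hP hK (a := (a : Amb P))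
      (b := (b : Amb P)) (fun i => ?_) hind (le_of_eq (LaurData.finrank_pt _))
    show SkewLaurent.cf (LaurentAlg.psE (PowerSeries.mk fun m =>
      XW S.ext (a : Amb P) (b : Amb P) S.U S.V w m i)) ((1 : ℕ) : ℤ) = _
    rw [LaurentAlg.cf_psE, PowerSeries.coeff_mk]
    rfl
  · rw [LaurData.finrank_pt]
    exact S.finrank_alg

/-- **LIFT** from enough rank. -/
theorem exists_lift_of_rank {R l : ℕ} (hl : 1 < l) (hS : P.Solves L n) (hT : r.Tight)
    (hAlt : r.Alternating) (hP : P.Generates)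
    (hK : ∀ d : P.D, (∀ t, d * t = t * d) → ∃ k : P.K, algebraMap P.K P.D k = d)
    (hR : r.RankGE R) (hcR : 3 * r.corank ≤ R)
    (hbud : ∑ j, finrank P.K (r.W j) < finrank P.K P.D)
    (hdel : ∀ (S : SymData P), S.l = l → ∀ a b : r.T, r.DeletesAt S a b) :
    ∃ Q : Pt, Step P Q ∧ Q.Solves L n ∧ Q.Generates ∧
      finrank Q.K Q.D = finrank P.K P.D * (l * l) := by
  obtain ⟨S, rfl⟩ := exists_symData P (by omega : 0 < l)
  have hbot : finrank P.K (⊥ : Submodule P.K (Dual P.K r.T)) = 0 := finrank_bot _ _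
  obtain ⟨a, ha, -, ha'⟩ := r.exists_fst_indep hS hR ⊥ (by omega) hbud ∅ (by simp)
  obtain ⟨b, hab, hinj, -, hind⟩ :=
    r.exists_snd_indep hT hS hR ⊥ (by omega) hbud ha ha' ∅ (by simp)
  obtain ⟨w, h⟩ := r.exists_lift S hl hS hT hAlt hP hK hab
    (fun y z e => hinj y z ((Submodule.mem_bot _).2 e)) hind (hdel S rfl a b)
  exact ⟨_, h⟩

end Rows

end

end Vale.Agent.P199
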