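import Mathlib

/-!
# P199: the cut tangents of a lift still reach every frame

`V` are the tangents of the rows `< j`, `T` those of all rows, `P` sends a covector pair `(y, z)` to
`B y a + B z b` on `V` and is injective on `T` (the pencil), `Φ` is the differential of row `j`, zero on `T`.
Then `Φ` has the same image on the common kernel of the forms as on all of `V`.
-/

namespace Vale.P199.FullImage

variable {F V W Y : Type*} [Field F] [AddCommGroup V] [Module F V] [FiniteDimensional F V]
  [AddCommGroup W] [Module F W] [AddCommGroup Y] [Module F Y]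

/-- The common kernel of a family of functionals injective on `T` maps onto the whole image. -/
theorem map_coannihilator_eq_range (P : Y →ₗ[F] Module.Dual F V) (Φ : V →ₗ[F] W) (T : Submodule F V)
    (hT : T ≤ LinearMap.ker Φ) (hinj : ∀ y, (∀ t ∈ T, P y t = 0) → y = 0) :
    Submodule.map Φ (LinearMap.range P).dualCoannihilator = LinearMap.range Φ := by
  refine le_antisymm (LinearMap.map_le_range) ?_
  rintro w ⟨v, rfl⟩
  by_contra hv
  obtain ⟨φ, hφv, hφ⟩ := Submodule.exists_dual_map_eq_bot_of_notMem hv inferInstance
  have hker : ∀ x ∈ (LinearMap.range P).dualCoannihilator, φ (Φ x) = 0 := fun x hx =>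
    (Submodule.mem_bot F).1 (hφ ▸ Submodule.mem_map_of_mem (Submodule.mem_map_of_mem hx))
  have hmem : φ.comp Φ ∈ LinearMap.range P := by
    rw [← Subspace.dualCoannihilator_dualAnnihilator_eq (W := LinearMap.range P)]
    exact (Submodule.mem_dualAnnihilator _).2 hker
  obtain ⟨y, hy⟩ := hmem
  have hy0 : y = 0 := hinj y fun t ht => by simp [hy, LinearMap.mem_ker.1 (hT ht)]
  exact hφv (by simpa [hy0] using (LinearMap.congr_fun hy v).symm)

end Vale.P199.FullImage
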