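import Mathlib

/-!
# P199: the quantum binomial theorem and independence of the freeze vectors

If `V U = q U V` then `(a U + b V) ^ n = ∑ qb q n i * a ^ i * b ^ (n - i) • U ^ i V ^ (n - i)`.
The coefficients `qb q n i`, `i ≤ n`, are nonzero when no `q ^ j`, `1 ≤ j ≤ n`, is one, and then
at most `n + 1` pairwise non proportional pairs `(a, b)` give independent coefficient vectors.
-/

namespace Vale.P199.QBinom

variable {F : Type*} [Field F]

/-- Quantum binomial coefficients for `V U = q U V`, ordered as `U ^ i V ^ (n - i)`. -/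
def qb (q : F) : ℕ → ℕ → F
  | _, 0 => 1
  | 0, _ + 1 => 0
  | n + 1, i + 1 => q ^ (n - i) * qb q n i + qb q n (i + 1)

@[simp] lemma qb_zero (q : F) (n : ℕ) : qb q n 0 = 1 := by cases n <;> rfl

lemma qb_of_lt (q : F) : ∀ {n i : ℕ}, n < i → qb q n i = 0
  | 0, i + 1, _ => rfl
  | n + 1, i + 1, h => by
    rw [qb, qb_of_lt q (show n < i by omega), qb_of_lt q (show n < i + 1 by omega)]
    simp

/-- Product formula. -/
lemma qb_mul_prod (q : F) : ∀ n i : ℕ,
    qb q n i * ∏ j ∈ Finset.range i, (q ^ (j + 1) - 1) =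
      ∏ j ∈ Finset.range i, (q ^ (n - j) - 1)
  | n, 0 => by simp
  | 0, i + 1 => by
    rw [qb, zero_mul, Finset.prod_range_succ']
    simp
  | n + 1, i + 1 => by
    have h1 := qb_mul_prod q n i
    have h2 := qb_mul_prod q n (i + 1)
    rw [Finset.prod_range_succ, Finset.prod_range_succ _ i] at h2
    rw [qb, Finset.prod_range_succ, Finset.prod_range_succ' (fun j => q ^ (n + 1 - j) - 1)]
    simp only [Nat.add_sub_add_right, Nat.sub_zero]
    rcases le_or_gt i n with hi | hi
    · have h3 : q ^ (n - i) * q ^ (i + 1) = q ^ (n + 1) := by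
        rw [← pow_add]; congr 1; omega
      linear_combination (q ^ (n - i) * (q ^ (i + 1) - 1)) * h1 + h2 +
        (∏ j ∈ Finset.range i, (q ^ (n - j) - 1)) * h3
    · have h4 : ∏ j ∈ Finset.range i, (q ^ (n - j) - 1) = 0 :=
        Finset.prod_eq_zero (Finset.mem_range.2 hi) (by simp)
      rw [qb_of_lt q hi, qb_of_lt q (show n < i + 1 by omega), h4]
      simp

lemma qb_ne_zero {q : F} {n i : ℕ} (hq : ∀ j, 1 ≤ j → j ≤ n → q ^ j ≠ 1) (hi : i ≤ n) :
    qb q n i ≠ 0 := by
  intro h
  have h1 := qb_mul_prod q n i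
  rw [h, zero_mul, eq_comm, Finset.prod_eq_zero_iff] at h1
  obtain ⟨j, hj, hj'⟩ := h1
  rw [Finset.mem_range] at hj
  exact hq (n - j) (by omega) (by omega) (sub_eq_zero.1 hj')

lemma qb_ne_zero_of_primitive {q : F} {l n i : ℕ} (hq : IsPrimitiveRoot q l) (hn : n < l)
    (hi : i ≤ n) : qb q n i ≠ 0 :=
  qb_ne_zero (fun _ hj hjn => hq.pow_ne_one_of_pos_of_lt (by omega) (by omega)) hi

section Theorem

variable {A : Type*} [Ring A] [Algebra F A]

lemma pow_mul_comm' {q : F} {U V : A} (h : V * U = q • (U * V)) (k : ℕ) :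
    V ^ k * U = q ^ k • (U * V ^ k) := by
  induction k with
  | zero => simp
  | succ k ih =>
    rw [pow_succ', mul_assoc, ih, mul_smul_comm, ← mul_assoc, h, smul_mul_assoc, smul_smul,
      mul_assoc, ← pow_succ', ← pow_succ]

/-- The quantum binomial theorem. -/
theorem add_pow_qb {q : F} {U V : A} (h : V * U = q • (U * V)) (a b : F) (n : ℕ) :
    (a • U + b • V) ^ n =
      ∑ i ∈ Finset.range (n + 1), (qb q n i * a ^ i * b ^ (n - i)) • (U ^ i * V ^ (n - i)) := by
  induction n with
  | zero => simp
  | succ n ih =>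
    set f : ℕ → A := fun i =>
      (qb q n i * a ^ i * b ^ (n + 1 - i)) • (U ^ i * V ^ (n + 1 - i)) with hf
    set g : ℕ → A := fun i =>
      (q ^ (n - i) * qb q n i * a ^ (i + 1) * b ^ (n - i)) • (U ^ (i + 1) * V ^ (n - i)) with hg
    have hstep : ∀ i ∈ Finset.range (n + 1),
        (qb q n i * a ^ i * b ^ (n - i)) • (U ^ i * V ^ (n - i)) * (a • U + b • V) =
          g i + f i := by
      intro i hi
      rw [Finset.mem_range] at hi
      simp only [hf, hg, mul_add, smul_mul_assoc, mul_smul_comm, smul_smul, mul_assoc (U ^ i)]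
      congr 1
      · rw [pow_mul_comm' h, mul_smul_comm, ← mul_assoc (U ^ i), ← pow_succ, smul_smul]
        congr 1
        ring
      · rw [show n + 1 - i = (n - i) + 1 by omega, ← pow_succ]
        congr 1
        ring
    rw [pow_succ, ih, Finset.sum_mul, Finset.sum_congr rfl hstep, Finset.sum_add_distrib]
    conv_rhs => rw [Finset.sum_range_succ']
    rw [Finset.sum_range_succ' f]
    have hlast : ∑ i ∈ Finset.range n, f (i + 1) = ∑ i ∈ Finset.range (n + 1), f (i + 1) := by
      rw [Finset.sum_range_succ, show f (n + 1) = 0 by simp [hf, qb_of_lt q (Nat.lt_succ_self n)],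
        add_zero]
    rw [hlast, ← add_assoc, ← Finset.sum_add_distrib]
    congr 1
    · refine Finset.sum_congr rfl fun i _ => ?_
      simp only [hf, hg, Nat.add_sub_add_right, ← add_smul, qb]
      congr 1
      ring
    · simp [hf]

end Theorem

/-- At most `n + 1` pairwise non proportional pairs have independent monomial vectors. -/
lemma sum_monomial_eq_zero {ι : Type*} (s : Finset ι) : ∀ (n : ℕ) (a b : ι → F) (c : ι → F),
    (∀ k ∈ s, a k ≠ 0 ∨ b k ≠ 0) → (∀ k ∈ s, ∀ k' ∈ s, k ≠ k' → a k * b k' ≠ a k' * b k) →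
    s.card ≤ n + 1 → (∀ i ≤ n, ∑ k ∈ s, c k * (a k ^ i * b k ^ (n - i)) = 0) →
    ∀ k ∈ s, c k = 0 := by
  classical
  induction s using Finset.induction_on with
  | empty => intros; simp_all
  | @insert L s hL ih =>
    intro n a b c hne hpair hcard hsum
    have hs0 : ∀ k ∈ s, c k = 0 := by
      rcases s.eq_empty_or_nonempty with rfl | hs
      · simp
      rw [Finset.card_insert_of_notMem hL] at hcard
      have hn : 1 ≤ n := by have := hs.card_pos; omega
      intro k hk
      have := ih (n - 1) a b (fun k => c k * (a k * b L - a L * b k))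
        (fun k hk => hne k (Finset.mem_insert_of_mem hk))
        (fun k hk k' hk' => hpair k (Finset.mem_insert_of_mem hk) k' (Finset.mem_insert_of_mem hk'))
        (by omega) (fun i hi => ?_) k hk
      · rcases mul_eq_zero.1 this with h | h
        · exact h
        · exact absurd (sub_eq_zero.1 h) (hpair k (Finset.mem_insert_of_mem hk) L
            (Finset.mem_insert_self L s) fun e => hL (e ▸ hk))
      · have h1 := hsum (i + 1) (by omega)
        have h2 := hsum i (by omega)
        rw [Finset.sum_insert hL] at h1 h2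
        have key : ∑ k ∈ s, c k * (a k * b L - a L * b k) * (a k ^ i * b k ^ (n - 1 - i)) =
            b L * ∑ k ∈ s, c k * (a k ^ (i + 1) * b k ^ (n - (i + 1))) -
              a L * ∑ k ∈ s, c k * (a k ^ i * b k ^ (n - i)) := by
          rw [Finset.mul_sum, Finset.mul_sum, ← Finset.sum_sub_distrib]
          refine Finset.sum_congr rfl fun k _ => ?_
          rw [show n - (i + 1) = n - 1 - i by omega, show n - i = (n - 1 - i) + 1 by omega]
          ring
        rw [key, eq_neg_of_add_eq_zero_right h1, eq_neg_of_add_eq_zero_right h2,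
          show n - (i + 1) = n - 1 - i by omega, show n - i = (n - 1 - i) + 1 by omega]
        ring
    intro k hk
    rcases Finset.mem_insert.1 hk with rfl | hk
    · rcases hne k (Finset.mem_insert_self k s) with ha | hb
      · have h := hsum n le_rfl
        rw [Finset.sum_insert hL, Finset.sum_eq_zero (fun j hj => by simp [hs0 j hj]), add_zero,
          Nat.sub_self, pow_zero, mul_one] at h
        exact (mul_eq_zero.1 h).resolve_right (pow_ne_zero _ ha)
      · have h := hsum 0 (Nat.zero_le n)
        rw [Finset.sum_insert hL, Finset.sum_eq_zero (fun j hj => by simp [hs0 j hj]), add_zero,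
          pow_zero, one_mul] at h
        exact (mul_eq_zero.1 h).resolve_right (pow_ne_zero _ hb)
    · exact hs0 k hk

/-- Independence of the vectors `(qb q n i * a ^ i * b ^ (n - i))ᵢ`. -/
theorem linearIndependent_qb {ι : Type*} [Fintype ι] {q : F} {n : ℕ} (a b : ι → F)
    (hq : ∀ j, 1 ≤ j → j ≤ n → q ^ j ≠ 1) (hne : ∀ k, a k ≠ 0 ∨ b k ≠ 0)
    (hpair : ∀ k k', k ≠ k' → a k * b k' ≠ a k' * b k) (hn : Fintype.card ι ≤ n + 1) :
    LinearIndependent F
      (fun k (i : Fin (n + 1)) => qb q n i * a k ^ (i : ℕ) * b k ^ (n - i)) := by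
  rw [Fintype.linearIndependent_iff]
  intro c hc k
  refine sum_monomial_eq_zero Finset.univ n a b c (fun k _ => hne k)
    (fun k _ k' _ => hpair k k') hn (fun i hi => ?_) k (Finset.mem_univ k)
  have h := congrFun hc ⟨i, by omega⟩
  simp only [Finset.sum_apply, Pi.smul_apply, smul_eq_mul, Pi.zero_apply] at h
  have h' : qb q n i * ∑ k, c k * (a k ^ i * b k ^ (n - i)) = 0 := by
    rw [Finset.mul_sum, ← h]
    exact Finset.sum_congr rfl fun k _ => by ring
  exact (mul_eq_zero.1 h').resolve_left (qb_ne_zero hq hi)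

end Vale.P199.QBinom
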