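import Vale.Agent.P199.Averaging
import Vale.Agent.P199.QBinom

/-!
P199: in a ring with `V U = ζ U V`, `U ^ l = u`, `V ^ l = v`: products of monomials, the trace (coefficient of `1`),
`(a U + b V) ^ l = a ^ l u + b ^ l v`, and the centraliser of `a U + b V` is generated by it over that of `U`, `V`.
-/

namespace Vale.Agent.P199

open Finset Vale.P199

variable {F R : Type*} [Field F] [Ring R] [Algebra F R] {l : ℕ} {ζ u v : F} {U V : Rˣ}

/-- The monomial `U ^ i * V ^ j` with exponents below `l`. -/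
def pmon (U V : Rˣ) (p : Fin l × Fin l) : R := (U : R) ^ (p.1 : ℕ) * (V : R) ^ (p.2 : ℕ)

variable (hζ : IsPrimitiveRoot ζ l) (hVU : (V : R) * U = ζ • ((U : R) * V))

include hVU in
theorem pow_swap_pow (i j : ℕ) :
    (V : R) ^ j * (U : R) ^ i = ζ ^ (i * j) • ((U : R) ^ i * (V : R) ^ j) := by
  induction i with
  | zero => simp
  | succ i ih =>
    rw [pow_succ, ← mul_assoc, ih, smul_mul_assoc, mul_assoc ((U : R) ^ i),
      QBinom.pow_mul_comm' hVU, mul_smul_comm, smul_smul, ← mul_assoc ((U : R) ^ i), ← pow_add,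
      add_mul, one_mul]

variable (hU : (U : R) ^ l = algebraMap F R u) (hV : (V : R) ^ l = algebraMap F R v)

theorem pow_reduce {X : R} {x : F} (hX : X ^ l = algebraMap F R x) (n : ℕ) :
    X ^ n = x ^ (n / l) • X ^ (n % l) := by
  conv_lhs => rw [← Nat.div_add_mod n l, pow_add, pow_mul, hX, ← map_pow, ← Algebra.smul_def]

include hU in
theorem u_ne_zero [Nontrivial R] : u ≠ 0 := fun h => by
  have := (U ^ l).ne_zero
  rw [Units.val_pow_eq_pow_val, hU, h, map_zero] at this
  exact this rfl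

/-- The factor in a product of two monomials. -/
def monFactor (l : ℕ) (ζ u v : F) (p q : Fin l × Fin l) : F :=
  ζ ^ ((q.1 : ℕ) * p.2) * u ^ (((p.1 : ℕ) + q.1) / l) * v ^ (((p.2 : ℕ) + q.2) / l)

include hVU hU hV in
/-- The product of two monomials. -/
theorem pmon_mul (p q : Fin l × Fin l) :
    pmon U V p * pmon U V q = monFactor l ζ u v p q • pmon U V (p.1 + q.1, p.2 + q.2) := by
  unfold pmon monFactor
  rw [mul_assoc, ← mul_assoc ((V : R) ^ (p.2 : ℕ)), pow_swap_pow hVU, smul_mul_assoc, mul_smul_comm,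
    mul_assoc ((U : R) ^ (q.1 : ℕ)), ← pow_add, ← mul_assoc, ← pow_add, pow_reduce hU,
    pow_reduce hV ((p.2 : ℕ) + q.2), smul_mul_smul_comm, smul_smul, Fin.val_add, Fin.val_add,
    mul_assoc]

variable [NeZero l]

include hζ in
/-- Opposite monomials have the same factor in both orders. -/
theorem monFactor_symm {p q : Fin l × Fin l} (h : p + q = 0) :
    monFactor l ζ u v p q = monFactor l ζ u v q p := by
  obtain rfl : q = -p := eq_neg_of_add_eq_zero_right h
  unfold monFactor
  rw [add_comm (p.1 : ℕ), add_comm (p.2 : ℕ)]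
  congr 2
  have hd : ∀ x : Fin l, l ∣ ((-x : Fin l) : ℕ) + x := fun x =>
    Nat.dvd_of_mod_eq_zero (by rw [← Fin.val_add, neg_add_cancel, Fin.val_zero])
  show ζ ^ (((-p.1 : Fin l) : ℕ) * p.2) = ζ ^ ((p.1 : ℕ) * ((-p.2 : Fin l) : ℕ))
  refine mul_right_cancel₀ (pow_ne_zero ((p.1 : ℕ) * p.2) (hζ.ne_zero (NeZero.ne l))) ?_
  rw [← pow_add, ← pow_add, ← add_mul, ← mul_add, (hζ.pow_eq_one_iff_dvd _).2,
    (hζ.pow_eq_one_iff_dvd _).2]
  · exact dvd_mul_of_dvd_right (hd p.2) _
  · exact dvd_mul_of_dvd_left (hd p.1) _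

include hU hV in
theorem monFactor_ne_zero [Nontrivial R] (hζ : IsPrimitiveRoot ζ l) (p q : Fin l × Fin l) :
    monFactor l ζ u v p q ≠ 0 :=
  mul_ne_zero (mul_ne_zero (pow_ne_zero _ (hζ.ne_zero (NeZero.ne l)))
    (pow_ne_zero _ (u_ne_zero hU))) (pow_ne_zero _ (u_ne_zero hV))

section Trace

variable (τ : R →ₗ[F] F)
  (hτ : ∀ p : Fin l × Fin l, τ (pmon U V p) = if p = 0 then 1 else 0)
include hVU hU hV hτ

theorem trace_pmon_mul (p q : Fin l × Fin l) :
    τ (pmon U V p * pmon U V q) = if p + q = 0 then monFactor l ζ u v p q else 0 := by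
  rw [pmon_mul hVU hU hV, map_smul, hτ, smul_eq_mul, mul_ite, mul_one, mul_zero]
  rfl

include hζ in
/-- The coefficient of `1` is a trace on the span of the monomials. -/
theorem trace_mul_comm {x y : R}
    (hx : x ∈ Submodule.span F (Set.range (pmon U V (l := l))))
    (hy : y ∈ Submodule.span F (Set.range (pmon U V (l := l)))) : τ (x * y) = τ (y * x) := by
  induction hx using Submodule.span_induction with
  | mem a ha =>
    obtain ⟨p, rfl⟩ := ha
    induction hy using Submodule.span_induction with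
    | mem b hb =>
      obtain ⟨q, rfl⟩ := hb
      rw [trace_pmon_mul hVU hU hV τ hτ, trace_pmon_mul hVU hU hV τ hτ, add_comm q p]
      split
      · rename_i h
        exact monFactor_symm hζ h
      · rfl
    | zero => simp
    | add a b _ _ ha hb => rw [mul_add, add_mul, map_add, map_add, ha, hb]
    | smul c a _ ha => rw [mul_smul_comm, smul_mul_assoc, map_smul, map_smul, ha]
  | zero => simp
  | add a b _ _ ha hb => rw [mul_add, add_mul, map_add, map_add, ha, hb]
  | smul c a _ ha => rw [mul_smul_comm, smul_mul_assoc, map_smul, map_smul, ha]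

include hζ in
/-- The trace pairing is nondegenerate on the span of the monomials. -/
theorem trace_nondegenerate [Nontrivial R] {x : R}
    (hx : x ∈ Submodule.span F (Set.range (pmon U V (l := l))))
    (h : ∀ q : Fin l × Fin l, τ (x * pmon U V q) = 0) : x = 0 := by
  obtain ⟨c, rfl⟩ := Submodule.mem_span_range_iff_exists_fun F |>.1 hx
  refine sum_eq_zero fun p _ => ?_
  have h1 := h (-p)
  rw [sum_mul, map_sum, sum_eq_single p] at h1
  · rw [smul_mul_assoc, map_smul, trace_pmon_mul hVU hU hV τ hτ, if_pos (add_neg_cancel p),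
      smul_eq_mul] at h1
    rw [(mul_eq_zero.1 h1).resolve_right (monFactor_ne_zero hU hV hζ p (-p)), zero_smul]
  · intro q _ hqp
    rw [smul_mul_assoc, map_smul, trace_pmon_mul hVU hU hV τ hτ, if_neg, smul_zero]
    exact fun h2 => hqp (eq_of_sub_eq_zero (by rwa [sub_eq_add_neg]))
  · intro h2; exact absurd (mem_univ p) h2

end Trace

include hζ hVU hU hV in
/-- `(a U + b V) ^ l = a ^ l u + b ^ l v`. -/
theorem theta_pow_l (a b : F) :
    (a • (U : R) + b • (V : R)) ^ l = algebraMap F R (a ^ l * u + b ^ l * v) := by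
  have hl : 0 < l := Nat.pos_of_ne_zero (NeZero.ne l)
  have hz : ∀ i, 0 < i → i < l → QBinom.qb ζ l i = 0 := fun i h0 hil => by
    have h1 := QBinom.qb_mul_prod ζ l i
    have h2 : ∏ j ∈ range i, (ζ ^ (l - j) - 1) = 0 :=
      prod_eq_zero (mem_range.2 h0) (by rw [Nat.sub_zero, hζ.pow_eq_one, sub_self])
    rw [h2, mul_eq_zero] at h1
    refine h1.resolve_right (prod_ne_zero_iff.2 fun j hj => sub_ne_zero.2 ?_)
    exact hζ.pow_ne_one_of_pos_of_lt (by omega) (by have := mem_range.1 hj; omega)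
  have hq : ∀ n, QBinom.qb ζ n n = 1 := fun n => by
    induction n with
    | zero => rfl
    | succ n ih => rw [QBinom.qb, ih, QBinom.qb_of_lt ζ n.lt_succ_self]; simp
  rw [QBinom.add_pow_qb hVU, sum_range_succ, sum_eq_single_of_mem 0 (mem_range.2 hl)]
  · rw [QBinom.qb_zero, hq]
    simp [hU, hV, Algebra.smul_def, add_comm]
  · intro i hi h0
    rw [hz i (Nat.pos_of_ne_zero h0) (mem_range.1 hi)]
    simp

section Centraliser

variable (hl : (l : F) ≠ 0)
include hζ hVU hU hV hl

omit [NeZero l] hU hV in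
/-- A combination of monomials with coefficients commuting with `U` and `V` vanishes only trivially. -/
theorem pmon_coeff_eq_zero {c : Fin l × Fin l → R}
    (hc : ∀ p, Commute (U : R) (c p) ∧ Commute (V : R) (c p))
    (h : ∑ p, c p * pmon U V p = 0) (p : Fin l × Fin l) : c p = 0 :=
  congrFun (monomials_eq_zero hl hζ hVU hc h) p

omit hζ hl in
/-- The bracket of `a U + b V` with a monomial, for `l > 1`. -/
theorem bracket_pmon (h1 : 1 < l) (a b : F) (c : R)
    (hc : Commute (U : R) c ∧ Commute (V : R) c) (p : Fin l × Fin l) :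
    (a • (U : R) + b • (V : R)) * (c * pmon U V p) - c * pmon U V p * (a • (U : R) + b • (V : R)) =
      (a * (1 - ζ ^ (p.2 : ℕ)) * u ^ ((1 + (p.1 : ℕ)) / l)) • (c * pmon U V (p + (1, 0))) +
        (b * (ζ ^ (p.1 : ℕ) - 1) * v ^ ((1 + (p.2 : ℕ)) / l)) • (c * pmon U V (p + (0, 1))) := by
  have hone : ((1 : Fin l) : ℕ) = 1 := by rw [Fin.val_one', Nat.mod_eq_of_lt h1]
  have e1 : (U : R) * pmon U V p = u ^ ((1 + (p.1 : ℕ)) / l) • pmon U V (p + (1, 0)) := by
    show (U : R) * ((U : R) ^ (p.1 : ℕ) * (V : R) ^ (p.2 : ℕ)) = _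
    unfold pmon
    rw [← mul_assoc, ← pow_succ', pow_reduce hU, smul_mul_assoc, add_comm (p.1 : ℕ) 1]
    simp [Fin.val_add, add_comm]
  have e2 : pmon U V p * (U : R) =
      (ζ ^ (p.2 : ℕ) * u ^ ((1 + (p.1 : ℕ)) / l)) • pmon U V (p + (1, 0)) := by
    rw [mul_smul, ← e1]
    show (U : R) ^ (p.1 : ℕ) * (V : R) ^ (p.2 : ℕ) * U = _
    rw [mul_assoc, QBinom.pow_mul_comm' hVU, mul_smul_comm, ← mul_assoc, ← pow_succ]
    show _ = ζ ^ (p.2 : ℕ) • ((U : R) * ((U : R) ^ (p.1 : ℕ) * (V : R) ^ (p.2 : ℕ)))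
    rw [← mul_assoc (U : R), ← pow_succ']
  have e4 : pmon U V p * (V : R) = v ^ ((1 + (p.2 : ℕ)) / l) • pmon U V (p + (0, 1)) := by
    show (U : R) ^ (p.1 : ℕ) * (V : R) ^ (p.2 : ℕ) * V = _
    unfold pmon
    rw [mul_assoc, ← pow_succ, pow_reduce hV, mul_smul_comm, add_comm (p.2 : ℕ) 1]
    simp [Fin.val_add, add_comm]
  have e3 : (V : R) * pmon U V p =
      (ζ ^ (p.1 : ℕ) * v ^ ((1 + (p.2 : ℕ)) / l)) • pmon U V (p + (0, 1)) := by
    rw [mul_smul, ← e4]
    show (V : R) * ((U : R) ^ (p.1 : ℕ) * (V : R) ^ (p.2 : ℕ)) = _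
    have h2 := pow_swap_pow hVU (p.1 : ℕ) 1
    rw [pow_one, mul_one] at h2
    rw [← mul_assoc, h2, smul_mul_assoc, mul_assoc, ← pow_succ']
    show _ = ζ ^ (p.1 : ℕ) • ((U : R) ^ (p.1 : ℕ) * (V : R) ^ (p.2 : ℕ) * V)
    rw [mul_assoc ((U : R) ^ (p.1 : ℕ)), ← pow_succ]
  rw [add_mul, mul_add, smul_mul_assoc, smul_mul_assoc, mul_smul_comm, mul_smul_comm, ← mul_assoc,
    hc.1.eq, mul_assoc, e1, ← mul_assoc, hc.2.eq, mul_assoc, e3, mul_assoc, e2, mul_assoc, e4]
  simp only [mul_smul_comm, smul_smul]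
  module

/-- What commutes with `a U + b V` (`a ≠ 0`) and has no pure powers of `U` vanishes. -/
theorem eq_zero_of_commute_theta {a : F} (ha : a ≠ 0) (b : F) {c : Fin l × Fin l → R}
    (hc : ∀ p, Commute (U : R) (c p) ∧ Commute (V : R) (c p)) (h0 : ∀ i, c (i, 0) = 0)
    (h : Commute (a • (U : R) + b • (V : R)) (∑ p, c p * pmon U V p)) : c = 0 := by
  suffices ∀ n, ∀ p : Fin l × Fin l, (p.2 : ℕ) = n → c p = 0 from funext fun p => this _ p rfl
  intro n
  induction n with
  | zero =>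
    rintro ⟨i, j⟩ hj
    obtain rfl : j = 0 := Fin.ext hj
    exact h0 i
  | succ n ih =>
    intro p hp
    have h1 : 1 < l := by have := p.2.isLt; omega
    have hone : ((1 : Fin l) : ℕ) = 1 := by rw [Fin.val_one', Nat.mod_eq_of_lt h1]
    let f : Fin l × Fin l → F := fun q => a * (1 - ζ ^ (q.2 : ℕ)) * u ^ ((1 + (q.1 : ℕ)) / l)
    let g : Fin l × Fin l → F := fun q => b * (ζ ^ (q.1 : ℕ) - 1) * v ^ ((1 + (q.2 : ℕ)) / l)
    let d : Fin l × Fin l → R := fun r =>
      f (r - (1, 0)) • c (r - (1, 0)) + g (r - (0, 1)) • c (r - (0, 1))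
    have hsum : ∑ r, d r * pmon U V r = 0 := by
      have h2 : ∑ q, ((a • (U : R) + b • (V : R)) * (c q * pmon U V q) -
          c q * pmon U V q * (a • (U : R) + b • (V : R))) = 0 := by
        rw [sum_sub_distrib, ← mul_sum, ← sum_mul, h.eq, sub_self]
      simp only [bracket_pmon hVU hU hV h1 a b _ (hc _), sum_add_distrib] at h2
      rw [← h2]
      simp only [d, add_mul, sum_add_distrib, smul_mul_assoc]
      congr 1
      · exact Fintype.sum_equiv (Equiv.subRight (1, 0)) _ _ fun r => by simp [f]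
      · exact Fintype.sum_equiv (Equiv.subRight (0, 1)) _ _ fun r => by simp [g]
    have hd : ∀ r, Commute (U : R) (d r) ∧ Commute (V : R) (d r) := fun r =>
      ⟨((hc _).1.smul_right _).add_right ((hc _).1.smul_right _),
        ((hc _).2.smul_right _).add_right ((hc _).2.smul_right _)⟩
    have h3 := pmon_coeff_eq_zero hζ hVU hl hd hsum (p + (1, 0))
    have hprev : c (p + (1, 0) - (0, 1)) = 0 := by
      refine ih _ ?_
      show ((p.2 + 0 - 1 : Fin l) : ℕ) = n
      have := p.2.isLt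
      rw [add_zero, Fin.val_sub, hone, hp, show l - 1 + (n + 1) = l + n by omega, Nat.add_mod_left,
        Nat.mod_eq_of_lt (by omega)]
    simp only [d, add_sub_cancel_right, hprev, smul_zero, add_zero, f] at h3
    have : Nontrivial R ∨ c p = 0 := by
      rcases subsingleton_or_nontrivial R with hs | hs
      · exact Or.inr (Subsingleton.elim _ _)
      · exact Or.inl hs
    rcases this with hs | hs
    · refine (smul_eq_zero.1 h3).resolve_left (mul_ne_zero (mul_ne_zero ha ?_) (pow_ne_zero _ (u_ne_zero hU)))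
      rw [sub_ne_zero]
      exact fun h4 => hζ.pow_ne_one_of_pos_of_lt (by omega) p.2.isLt h4.symm
    · exact hs

/-- **The centraliser of `θ = a U + b V`**, `a ≠ 0`: combinations of the powers of `θ` with
coefficients commuting with `U` and `V`. -/
theorem exists_eq_sum_theta {a : F} (ha : a ≠ 0) (b : F) {z : R}
    (hz : Commute (a • (U : R) + b • (V : R)) z) :
    ∃ d : Fin l → R, (∀ k, Commute (U : R) (d k) ∧ Commute (V : R) (d k)) ∧
      z = ∑ k, d k * (a • (U : R) + b • (V : R)) ^ (k : ℕ) := by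
  obtain ⟨c, hc, hcz⟩ := exists_eq_sum_monomials hl hζ hVU
    (fun z => by rw [Units.val_pow_eq_pow_val, hU]; exact Algebra.commutes u z)
    (fun z => by rw [Units.val_pow_eq_pow_val, hV]; exact Algebra.commutes v z) z
  generalize hθ : a • (U : R) + b • (V : R) = θ at hz ⊢
  let γ : Fin l → Fin l × Fin l → F := fun k p =>
    if (p.1 : ℕ) + p.2 = k then QBinom.qb ζ k p.1 * a ^ (p.1 : ℕ) * b ^ ((k : ℕ) - p.1) else 0
  have hγ : ∀ k : Fin l, θ ^ (k : ℕ) = ∑ p, γ k p • pmon U V p := by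
    intro k
    rw [← hθ, QBinom.add_pow_qb hVU]
    simp only [γ, ite_smul, zero_smul]
    rw [← sum_filter]
    refine sum_bij'
      (fun i hi => ((⟨i, by have := mem_range.1 hi; omega⟩, ⟨(k : ℕ) - i, by omega⟩) : Fin l × Fin l))
      (fun p _ => (p.1 : ℕ))
      (fun i hi => by
        have := mem_range.1 hi
        exact mem_filter.2 ⟨mem_univ _, by simp only; omega⟩)
      (fun p hp => by
        have := (mem_filter.1 hp).2
        exact mem_range.2 (by omega))
      (fun i hi => rfl)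
      (fun p hp => by
        have := (mem_filter.1 hp).2
        exact Prod.ext rfl (Fin.ext (by simp only; omega)))
      fun i hi => rfl
  let d : Fin l → R := fun k => (a ^ (k : ℕ))⁻¹ • c (k, 0)
  have hd : ∀ k, Commute (U : R) (d k) ∧ Commute (V : R) (d k) := fun k =>
    ⟨(hc _).1.smul_right _, (hc _).2.smul_right _⟩
  refine ⟨d, hd, ?_⟩
  let c' : Fin l × Fin l → R := fun p => c p - ∑ k, γ k p • d k
  have hc' : ∀ p, Commute (U : R) (c' p) ∧ Commute (V : R) (c' p) := fun p =>
    ⟨(hc p).1.sub_right (Commute.sum_right _ _ _ fun k _ => (hd k).1.smul_right _),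
      (hc p).2.sub_right (Commute.sum_right _ _ _ fun k _ => (hd k).2.smul_right _)⟩
  have hz' : ∑ p, c' p * pmon U V p = z - ∑ k, d k * θ ^ (k : ℕ) := by
    have h5 : ∀ p, c p * pmon U V p = c p * ((U : R) ^ (p.1 : ℕ) * (V : R) ^ (p.2 : ℕ)) := fun p => rfl
    simp only [c', sub_mul, sum_sub_distrib, hγ, mul_sum, sum_mul, smul_mul_assoc, mul_smul_comm, h5,
      ← hcz]
    rw [sum_comm]
  have h0 : ∀ i, c' (i, 0) = 0 := fun i => by
    have hq : ∀ n, QBinom.qb ζ n n = 1 := fun n => by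
      induction n with
      | zero => rfl
      | succ n ih => rw [QBinom.qb, ih, QBinom.qb_of_lt ζ n.lt_succ_self]; simp
    show c (i, 0) - ∑ k, γ k (i, 0) • d k = 0
    rw [sum_eq_single_of_mem i (mem_univ i) fun k _ hk => by
      simp [γ, Fin.val_inj, Ne.symm hk]]
    simp [γ, d, hq, smul_smul, mul_inv_cancel₀ (pow_ne_zero _ ha)]
  have hcomm : Commute θ (∑ p, c' p * pmon U V p) := by
    rw [hz']
    refine hz.sub_right (Commute.sum_right _ _ _ fun k _ => ?_)
    refine Commute.mul_right ?_ ((Commute.refl θ).pow_right _)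
    rw [← hθ]
    exact ((hd k).1.smul_left a).add_left ((hd k).2.smul_left b)
  have := eq_zero_of_commute_theta hζ hVU hU hV hl ha b hc' h0 (hθ.symm ▸ hcomm)
  rw [this] at hz'
  simp only [Pi.zero_apply, zero_mul, sum_const_zero] at hz'
  exact sub_eq_zero.1 hz'.symm

end Centraliser

end Vale.Agent.P199
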