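import Vale.Agent.P199.LiftSeries
import Vale.Agent.P199.SymbolTrace

/-!
P199: the hypotheses of a lift over the symbol algebra, from the pencil: `(y, z) ↦ B_y(a) + B_z(b)` injective on
identities makes every value of `s ↦ (B(a, s), B(b, s))` attained.
-/

namespace Vale.Agent.P199

open Module SkewLaurent

noncomputable section

section Pow

variable {K D : Type} [Field K] [DivisionRing D] [Algebra K D] (ζ : Dˣ)
  (hc : ∀ a : D, (ζ : D) * a = a * ζ) {l : ℕ} (hl : 0 < l) (hζ : orderOf ζ = l)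

/-- `V ^ l` is a scalar. -/
theorem symV_pow_scalar :
    symV ζ hc ^ l = symScalarHom ζ hc hl hζ (HahnSeries.single 1 (1 : LaurentSeries K)) := by
  have hl' : (0 : ℤ) < l := by omega
  refine ext_cf2 ζ hc fun n m => ?_
  rw [symV, T_natPow, mul_one, cf2, cf_T, cf2_symScalarHom]
  by_cases hn : n = (l : ℤ)
  · subst hn
    rw [if_pos rfl, Int.ediv_self hl'.ne', HahnSeries.coeff_single_same,
      ← map_one (SkewLaurent.C (1 : RingAut D)), cf_C, HahnSeries.coeff_one]
    by_cases hm : m = 0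
    · simp [hm]
    · rw [if_neg hm]
      split
      · rename_i hd
        obtain ⟨j, rfl⟩ := hd.2
        rw [Int.mul_ediv_cancel_left _ hl'.ne', if_neg (fun h => hm (by rw [h, mul_zero])), map_zero]
      · rfl
  · rw [if_neg hn, cf_zero]
    split
    · rename_i hd
      obtain ⟨i, rfl⟩ := hd.1
      rw [Int.mul_ediv_cancel_left _ hl'.ne',
        HahnSeries.coeff_single_of_ne (fun h => hn (by rw [h, mul_one])), HahnSeries.coeff_zero,
        map_zero]
    · rfl

/-- `U ^ l` is a scalar. -/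
theorem symU_pow_scalar :
    symU ζ hc ^ l =
      symScalarHom ζ hc hl hζ (HahnSeries.C (HahnSeries.single 1 (1 : K))) := by
  have hl' : (0 : ℤ) < l := by omega
  refine ext_cf2 ζ hc fun n m => ?_
  rw [symU, ← map_pow, T_natPow, mul_one, cf2, cf_C, cf2_symScalarHom, HahnSeries.C_apply]
  by_cases hn : n = 0
  · subst hn
    rw [if_pos rfl, Int.zero_ediv, HahnSeries.coeff_single_same, cf_T]
    by_cases hm : m = (l : ℤ)
    · subst hm
      rw [if_pos rfl, if_pos ⟨dvd_zero _, dvd_refl _⟩, Int.ediv_self hl'.ne',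
        HahnSeries.coeff_single_same, map_one]
    · rw [if_neg hm]
      split
      · rename_i hd
        obtain ⟨j, rfl⟩ := hd.2
        rw [Int.mul_ediv_cancel_left _ hl'.ne',
          HahnSeries.coeff_single_of_ne (fun h => hm (by rw [h, mul_one])), map_zero]
      · rfl
  · rw [if_neg hn, cf_zero]
    split
    · rename_i hd
      obtain ⟨i, rfl⟩ := hd.1
      rw [Int.mul_ediv_cancel_left _ hl'.ne',
        HahnSeries.coeff_single_of_ne (fun h => hn (by rw [h, mul_zero])), HahnSeries.coeff_zero,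
        map_zero]
    · rfl

end Pow

namespace LiftSeries

variable {P : Pt} {L : Listing} {n : ℕ} (r : Rows L n P)

/-- The pairing with `a` on tangents, into the product of the linked parts. -/
def pairing (a : Rows.Amb P) : r.T →ₗ[P.K] ((j : Fin n) → r.W j) where
  toFun s j := ⟨r.proj j (D2 r a (s : Rows.Amb P) j), r.proj_mem j _⟩
  map_add' s s' := funext fun j => Subtype.ext (by
    have h : P.dirVal (N := L.b n) ((s : Rows.Amb P) + (s' : Rows.Amb P), 0) =
        P.dirVal (N := L.b n) ((s : Rows.Amb P), 0) + P.dirVal (N := L.b n) ((s' : Rows.Amb P), 0) := by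
      funext z
      rw [Pi.add_apply, ← P.dirVal_add, Prod.mk_add_mk, add_zero]
    simp only [D2, Pi.add_apply, Submodule.coe_add, h, Poly.d2_add_right, map_add])
  map_smul' c s := funext fun j => Subtype.ext (by
    have h : P.dirVal (N := L.b n) (c • (s : Rows.Amb P), 0) =
        c • P.dirVal (N := L.b n) ((s : Rows.Amb P), 0) := by
      funext z
      rw [Pi.smul_apply, ← P.dirVal_smul, Prod.smul_mk, smul_zero]
    simp only [D2, RingHom.id_apply, Pi.smul_apply, Submodule.coe_smul, h, Poly.d2_smul_right,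
      map_smul])

/-- An injective map into a dual space attains every functional. -/
theorem exists_eval {F A B : Type*} [Field F] [AddCommGroup A] [Module F A] [AddCommGroup B]
    [Module F B] [FiniteDimensional F B] (Φ : A →ₗ[F] Dual F B) (hΦ : Function.Injective Φ)
    (f : A →ₗ[F] F) : ∃ b : B, ∀ a, Φ a b = f a := by
  obtain ⟨w, hw⟩ := LinearMap.dualMap_surjective_of_injective hΦ f
  obtain ⟨b, rfl⟩ := (Module.evalEquiv F B).surjective w
  exact ⟨b, fun a => LinearMap.congr_fun hw a⟩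

/-- The pencil makes every pair of values attained. -/
theorem exists_tangent {a b : Rows.Amb P}
    (hinj : ∀ y ∈ r.Y, ∀ z ∈ r.Y, (∀ s ∈ r.T, r.form y a s + r.form z b s = 0) → y = 0 ∧ z = 0)
    (f g : Dual P.K r.Y) :
    ∃ s ∈ r.T, ∀ y : r.Y, r.form y a s = f y ∧ r.form y b s = g y := by
  set Φ : (r.Y × r.Y) →ₗ[P.K] Dual P.K r.T :=
    ((pairing r a).dualMap ∘ₗ r.Y.subtype).coprod ((pairing r b).dualMap ∘ₗ r.Y.subtype) with hΦ
  have hval : ∀ (y z : r.Y) (s : r.T), Φ (y, z) s = r.form y a s + r.form z b s :=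
    fun y z s => rfl
  have hker : LinearMap.ker Φ = ⊥ := by
    refine (Submodule.eq_bot_iff _).2 fun p hp => ?_
    obtain ⟨h1, h2⟩ := hinj p.1 p.1.2 p.2 p.2.2 fun s hs => by
      rw [← hval p.1 p.2 ⟨s, hs⟩, Prod.mk.eta, LinearMap.mem_ker.1 hp, LinearMap.zero_apply]
    exact Prod.ext (Subtype.ext h1) (Subtype.ext h2)
  obtain ⟨s, hs⟩ := exists_eval (F := P.K) (A := r.Y × r.Y) (B := r.T) Φ
    (LinearMap.ker_eq_bot.1 hker) (f.coprod g)
  refine ⟨s, s.2, fun y => ⟨?_, ?_⟩⟩
  · have h := hs (y, 0)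
    simpa [hval, Rows.form] using h
  · have h := hs (0, y)
    simpa [hval, Rows.form] using h

variable {P₁ : Pt} (E : Ext P P₁)

/-- The hypotheses of a lift, over monomials `U ^ i V ^ j`. -/
theorem liftData_of_monomials {l : ℕ} (hl : 1 < l) {ζ u v : P₁.K} {U V : P₁.Dˣ}
    (hζ : IsPrimitiveRoot ζ l) (hVU : (V : P₁.D) * U = ζ • ((U : P₁.D) * V))
    (hU : (U : P₁.D) ^ l = algebraMap P₁.K P₁.D u) (hV : (V : P₁.D) ^ l = algebraMap P₁.K P₁.D v)
    (e : Fin E.m ≃ Fin l × Fin l) (hmon : ∀ k, E.mon k = pmon U V (e k))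
    (hT : r.Tight) (hAlt : r.Alternating) {a b : Rows.Amb P} (ha : a ∈ r.T) (hb : b ∈ r.T)
    (hab : ∀ y ∈ r.Y, r.form y a b = 0)
    (hinj : ∀ y ∈ r.Y, ∀ z ∈ r.Y, (∀ s ∈ r.T, r.form y a s + r.form z b s = 0) → y = 0 ∧ z = 0) :
    LiftData E r a b (U : P₁.D) (V : P₁.D) := by
  have : NeZero l := ⟨by omega⟩
  have hmem : ∀ i j : ℕ, (U : P₁.D) ^ i * (V : P₁.D) ^ j ∈ monSpan E := fun i j => by
    rw [pow_reduce hU i, pow_reduce hV j, smul_mul_smul_comm]
    refine Submodule.smul_mem _ _ ?_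
    have h := mon_mem E (e.symm (⟨i % l, Nat.mod_lt _ (by omega)⟩, ⟨j % l, Nat.mod_lt _ (by omega)⟩))
    rw [hmon, Equiv.apply_symm_apply] at h
    exact h
  have hu : u ≠ 0 := u_ne_zero hU
  have hv : v ≠ 0 := u_ne_zero hV
  have hone : ((e (one E)).1 : ℕ) = 0 ∧ ((e (one E)).2 : ℕ) = 0 := by
    have hz : e.symm (⟨0, by omega⟩, ⟨0, by omega⟩) = one E := by
      by_contra hne
      obtain ⟨i₀⟩ : Nonempty (Fin (finrank P.K P.D)) := ⟨⟨0, finrank_pos⟩⟩
      have h1 : E.mon (e.symm (⟨0, by omega⟩, ⟨0, by omega⟩)) = E.mon (one E) := by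
        rw [hmon, Equiv.apply_symm_apply, mon_one_eq]; simp [pmon]
      exact hne (Prod.ext_iff.1 ((basis E).injective
        (a₁ := (i₀, e.symm (⟨0, by omega⟩, ⟨0, by omega⟩))) (a₂ := (i₀, one E))
        (by rw [basis_apply, basis_apply, h1]))).2
    rw [← hz, Equiv.apply_symm_apply]
    exact ⟨rfl, rfl⟩
  refine
    { tight := hT, alt := hAlt, memA := ha, memB := hb, ab := hab
      mul := fun i k => ?_
      memU := by simpa using hmem 1 0
      memV := by simpa using hmem 0 1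
      comm := fun k hk => ?_
      solA := fun f => by
        obtain ⟨s, hs, h⟩ := exists_tangent r hinj f 0
        exact ⟨s, hs, fun y => ⟨(h y).1, by rw [(h y).2]; rfl⟩⟩
      solB := fun f => by
        obtain ⟨s, hs, h⟩ := exists_tangent r hinj 0 f
        exact ⟨s, hs, fun y => ⟨(h y).2, by rw [(h y).1]; rfl⟩⟩ }
  · rw [hmon, hmon, pmon_mul hVU hU hV]
    exact Submodule.smul_mem _ _ (hmem _ _)
  · rw [hmon k]
    rcases hp : e k with ⟨⟨i, hi⟩, ⟨j, hj⟩⟩
    simp only [pmon]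
    by_cases hj0 : j = 0
    · subst hj0
      have hi0 : i ≠ 0 := fun h0 => hk (e.injective (Prod.ext (Fin.ext (by rw [hp, hone.1]; exact h0))
        (Fin.ext (by rw [hp, hone.2]))))
      have hq : ζ ^ i - 1 ≠ 0 := sub_ne_zero.2 (hζ.pow_ne_one_of_pos_of_lt hi0 hi)
      refine ⟨((ζ ^ i - 1) * v)⁻¹ • ((U : P₁.D) ^ i * (V : P₁.D) ^ (l - 1)),
        Submodule.smul_mem _ _ (hmem _ _), Or.inr ?_⟩
      have hswap : (V : P₁.D) * (U : P₁.D) ^ i = ζ ^ i • ((U : P₁.D) ^ i * V) := by
        simpa using pow_swap_pow hVU i 1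
      have hVl : (V : P₁.D) * (V : P₁.D) ^ (l - 1) = algebraMap P₁.K P₁.D v := by
        rw [← pow_succ', Nat.sub_add_cancel (by omega), hV]
      have hVl' : (V : P₁.D) ^ (l - 1) * (V : P₁.D) = algebraMap P₁.K P₁.D v := by
        rw [← pow_succ, Nat.sub_add_cancel (by omega), hV]
      rw [mul_smul_comm, smul_mul_assoc, ← smul_sub, ← mul_assoc, hswap, smul_mul_assoc,
        mul_assoc, mul_assoc, hVl, hVl', ← Algebra.commutes, ← Algebra.smul_def, smul_smul,
        ← sub_smul, smul_smul, pow_zero, mul_one,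
        show ((ζ ^ i - 1) * v)⁻¹ * (ζ ^ i * v - v) = 1 by
          rw [show ζ ^ i * v - v = (ζ ^ i - 1) * v by ring, inv_mul_cancel₀ (mul_ne_zero hq hv)],
        one_smul]
    · have hq : 1 - ζ ^ j ≠ 0 := sub_ne_zero.2 (hζ.pow_ne_one_of_pos_of_lt hj0 hj).symm
      refine ⟨((1 - ζ ^ j) * u)⁻¹ • ((U : P₁.D) ^ (i + (l - 1)) * (V : P₁.D) ^ j),
        Submodule.smul_mem _ _ (hmem _ _), Or.inl ?_⟩
      have hswap : (V : P₁.D) ^ j * U = ζ ^ j • ((U : P₁.D) * (V : P₁.D) ^ j) :=
        Vale.P199.QBinom.pow_mul_comm' hVU j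
      have hUl : (U : P₁.D) * (U : P₁.D) ^ (i + (l - 1)) = u • (U : P₁.D) ^ i := by
        rw [← pow_succ', show i + (l - 1) + 1 = l + i by omega, pow_add, hU, ← Algebra.smul_def]
      have hUl' : (U : P₁.D) ^ (i + (l - 1)) * (U : P₁.D) = u • (U : P₁.D) ^ i := by
        rw [← pow_succ, show i + (l - 1) + 1 = l + i by omega, pow_add, hU, ← Algebra.smul_def]
      rw [mul_smul_comm, smul_mul_assoc, ← smul_sub, ← mul_assoc, hUl, mul_assoc, hswap,
        mul_smul_comm, ← mul_assoc, hUl', smul_mul_assoc, smul_smul, ← sub_smul, smul_smul,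
        show ((1 - ζ ^ j) * u)⁻¹ * (u - ζ ^ j * u) = 1 by
          rw [show u - ζ ^ j * u = (1 - ζ ^ j) * u by ring, inv_mul_cancel₀ (mul_ne_zero hq hu)],
        one_smul]

/-- The hypotheses of a lift over the symbol algebra of a point. -/
theorem liftData_sym (S : SymData P) (hl : 1 < S.l) (hT : r.Tight) (hAlt : r.Alternating)
    {a b : Rows.Amb P} (ha : a ∈ r.T) (hb : b ∈ r.T) (hab : ∀ y ∈ r.Y, r.form y a b = 0)
    (hinj : ∀ y ∈ r.Y, ∀ z ∈ r.Y, (∀ s ∈ r.T, r.form y a s + r.form z b s = 0) → y = 0 ∧ z = 0) :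
    LiftData S.ext r a b (symU S.unit S.unit_central : S.pt.D) (symV S.unit S.unit_central) := by
  let _ := S.algebra
  have := P.charZero
  refine liftData_of_monomials r S.ext hl (ζ := S.iK S.z)
    (u := HahnSeries.C (HahnSeries.single 1 (1 : P.K)))
    (v := HahnSeries.single 1 (1 : LaurentSeries P.K))
    (U := (symUu S.unit S.unit_central : S.pt.Dˣ)) (V := (symVu S.unit S.unit_central : S.pt.Dˣ))
    (sym_primitive S.unit S.unit_order S.z rfl)
    (sym_relation S.unit S.unit_central S.pos S.unit_order S.z rfl fun _ => rfl)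
    (symU_pow_scalar S.unit S.unit_central S.pos S.unit_order)
    (symV_pow_scalar S.unit S.unit_central S.pos S.unit_order)
    finProdFinEquiv.symm (fun _ => rfl) hT hAlt ha hb hab hinj

end LiftSeries

end

end Vale.Agent.P199
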