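import Mathlib

/-!
P199: skew Laurent series `D((t; σ))` over a division ring, with `t a = σ(a) t`. They are realised as the graded
subring of the ordinary Laurent series over `End (ℤ → D)`: the coefficient at `n` is a weighted shift by `n`.
-/

namespace Vale.Agent.P199

noncomputable section

variable {D : Type} [DivisionRing D] (σ : RingAut D)

theorem zpow_apply_add (i j : ℤ) (a : D) : (σ ^ (i + j)) a = (σ ^ i) ((σ ^ j) a) := by
  rw [zpow_add, RingAut.mul_apply]

theorem one_zpow_apply (n : ℤ) (a : D) : ((1 : RingAut D) ^ n) a = a := by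
  rw [one_zpow, RingAut.one_apply]

/-- Multiplication by `a` twisted at each place, followed by a shift by `k`. -/
def wShift (a : D) (k : ℤ) : AddMonoid.End (ℤ → D) where
  toFun f n := (σ ^ n) a * f (n + k)
  map_zero' := funext fun n => by simp
  map_add' f g := funext fun n => by simp [mul_add]

theorem wShift_apply (a : D) (k : ℤ) (f : ℤ → D) (n : ℤ) :
    wShift σ a k f n = (σ ^ n) a * f (n + k) := rfl

theorem wShift_zero (k : ℤ) : wShift σ 0 k = 0 :=
  AddMonoidHom.ext fun f => funext fun n => by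
    show (σ ^ n) 0 * f (n + k) = 0
    simp

theorem wShift_add (a b : D) (k : ℤ) : wShift σ (a + b) k = wShift σ a k + wShift σ b k :=
  AddMonoidHom.ext fun f => funext fun n => by
    show wShift σ (a + b) k f n = wShift σ a k f n + wShift σ b k f n
    simp [wShift_apply, map_add, add_mul]

theorem wShift_neg (a : D) (k : ℤ) : wShift σ (-a) k = -wShift σ a k := by
  rw [eq_neg_iff_add_eq_zero, ← wShift_add, neg_add_cancel, wShift_zero]

theorem wShift_one : wShift σ 1 0 = 1 :=
  AddMonoidHom.ext fun f => funext fun n => by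
    show wShift σ 1 0 f n = f n
    simp [wShift_apply]

theorem wShift_mul (a b : D) (i j : ℤ) :
    wShift σ a i * wShift σ b j = wShift σ (a * (σ ^ i) b) (i + j) :=
  AddMonoidHom.ext fun f => funext fun n => by
    show (σ ^ n) a * ((σ ^ (n + i)) b * f (n + i + j)) = (σ ^ n) (a * (σ ^ i) b) * f (n + (i + j))
    rw [map_mul, zpow_apply_add, add_assoc, mul_assoc]

/-- The coefficient seen by a weighted shift. -/
def evalOne : AddMonoid.End (ℤ → D) →+ D where
  toFun E := E (fun _ => 1) 0
  map_zero' := rfl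
  map_add' _ _ := rfl

theorem evalOne_wShift (a : D) (k : ℤ) : evalOne (wShift σ a k) = a := by
  show (σ ^ (0 : ℤ)) a * 1 = a
  simp

/-- Weighted shifts by `n`, as an additive subgroup. -/
def grade (n : ℤ) : AddSubgroup (AddMonoid.End (ℤ → D)) where
  carrier := Set.range fun a => wShift σ a n
  zero_mem' := ⟨0, wShift_zero σ n⟩
  add_mem' := by
    rintro _ _ ⟨a, rfl⟩ ⟨b, rfl⟩
    exact ⟨a + b, wShift_add σ a b n⟩
  neg_mem' := by
    rintro _ ⟨a, rfl⟩
    exact ⟨-a, wShift_neg σ a n⟩

theorem grade_mul {i j : ℤ} {E F : AddMonoid.End (ℤ → D)} (hE : E ∈ grade σ i) (hF : F ∈ grade σ j) :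
    E * F ∈ grade σ (i + j) := by
  obtain ⟨a, rfl⟩ := hE
  obtain ⟨b, rfl⟩ := hF
  exact ⟨_, (wShift_mul σ a b i j).symm⟩

theorem eq_wShift {n : ℤ} {E : AddMonoid.End (ℤ → D)} (h : E ∈ grade σ n) :
    E = wShift σ (evalOne E) n := by
  obtain ⟨a, rfl⟩ := h
  rw [evalOne_wShift]

/-- The skew Laurent series. -/
def skewSub : Subring (HahnSeries ℤ (AddMonoid.End (ℤ → D))) where
  carrier := {f | ∀ n, f.coeff n ∈ grade σ n}
  zero_mem' n := by simp
  one_mem' n := by
    rw [HahnSeries.coeff_one]
    split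
    · subst_vars
      exact ⟨1, wShift_one σ⟩
    · exact zero_mem _
  add_mem' hf hg n := by
    rw [HahnSeries.coeff_add]
    exact add_mem (hf n) (hg n)
  neg_mem' hf n := by
    rw [HahnSeries.coeff_neg]
    exact neg_mem (hf n)
  mul_mem' {f g} hf hg n := by
    rw [HahnSeries.coeff_mul]
    refine sum_mem fun p hp => ?_
    have := grade_mul σ (hf p.1) (hg p.2)
    rwa [(Finset.mem_antidiagonal.1 hp).2.2] at this

/-- `D((t; σ))`. -/
abbrev SkewLaurent : Type := skewSub σ

namespace SkewLaurent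

variable {σ}

instance ring : Ring (SkewLaurent σ) := inferInstance

instance zero : Zero (SkewLaurent σ) := ⟨⟨0, (skewSub σ).zero_mem⟩⟩

instance one : One (SkewLaurent σ) := ⟨⟨1, (skewSub σ).one_mem⟩⟩

/-- The coefficient of `t ^ n`, written on the left. -/
def cf (f : SkewLaurent σ) (n : ℤ) : D := evalOne (f.1.coeff n)

theorem coeff_eq (f : SkewLaurent σ) (n : ℤ) : f.1.coeff n = wShift σ (cf f n) n :=
  eq_wShift σ (f.2 n)

theorem ext_cf {f g : SkewLaurent σ} (h : ∀ n, cf f n = cf g n) : f = g :=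
  Subtype.ext (HahnSeries.ext (funext fun n => by rw [coeff_eq, coeff_eq, h n]))

theorem cf_add (f g : SkewLaurent σ) (n : ℤ) : cf (f + g) n = cf f n + cf g n := by
  show evalOne ((f.1 + g.1).coeff n) = _
  rw [HahnSeries.coeff_add, map_add]
  rfl

theorem cf_mul (f g : SkewLaurent σ) (n : ℤ) :
    cf (f * g) n = ∑ p ∈ Finset.antidiagonal f.1.isPWO_support g.1.isPWO_support n,
      cf f p.1 * (σ ^ p.1) (cf g p.2) := by
  show evalOne ((f.1 * g.1).coeff n) = _
  rw [HahnSeries.coeff_mul, map_sum]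
  refine Finset.sum_congr rfl fun p _ => ?_
  rw [coeff_eq f, coeff_eq g, wShift_mul]
  exact evalOne_wShift σ _ _

variable (σ)

/-- The constants. -/
def C : D →+* SkewLaurent σ where
  toFun a := ⟨HahnSeries.single 0 (wShift σ a 0), fun n => by
    rw [HahnSeries.coeff_single]
    split
    · subst_vars; exact ⟨a, rfl⟩
    · exact zero_mem _⟩
  map_one' := Subtype.ext (by simp [wShift_one])
  map_mul' a b := Subtype.ext (by simp [HahnSeries.single_mul_single, wShift_mul])
  map_zero' := Subtype.ext (by simp [wShift_zero])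
  map_add' a b := Subtype.ext (by simp [wShift_add])

/-- The powers of `t`. -/
def T (k : ℤ) : SkewLaurent σ :=
  ⟨HahnSeries.single k (wShift σ 1 k), fun n => by
    rw [HahnSeries.coeff_single]
    split
    · subst_vars; exact ⟨1, rfl⟩
    · exact zero_mem _⟩

theorem cf_C (a : D) (n : ℤ) : cf (C σ a) n = if n = 0 then a else 0 := by
  show evalOne ((HahnSeries.single 0 (wShift σ a 0)).coeff n) = _
  rw [HahnSeries.coeff_single]
  split
  · exact evalOne_wShift σ a 0
  · rfl

theorem cf_T (k n : ℤ) : cf (T σ k) n = if n = k then 1 else 0 := by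
  show evalOne ((HahnSeries.single k (wShift σ 1 k)).coeff n) = _
  rw [HahnSeries.coeff_single]
  split
  · exact evalOne_wShift σ 1 k
  · rfl

theorem C_injective : Function.Injective (C σ) := fun a b h => by
  simpa [cf_C] using congrArg (fun f => cf f 0) h

theorem T_zero : T σ 0 = 1 :=
  Subtype.ext (by show HahnSeries.single 0 (wShift σ 1 0) = 1; rw [wShift_one]; rfl)

theorem T_add (i j : ℤ) : T σ (i + j) = T σ i * T σ j := Subtype.ext (by
  show HahnSeries.single (i + j) _ = HahnSeries.single i _ * HahnSeries.single j _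
  rw [HahnSeries.single_mul_single, wShift_mul, map_one, mul_one])

theorem T_mul_C (k : ℤ) (a : D) : T σ k * C σ a = C σ ((σ ^ k) a) * T σ k := Subtype.ext (by
  show HahnSeries.single k _ * HahnSeries.single 0 _ = HahnSeries.single 0 _ * HahnSeries.single k _
  rw [HahnSeries.single_mul_single, HahnSeries.single_mul_single, wShift_mul, wShift_mul]
  simp [add_comm])

variable {σ}

theorem isUnit_T (k : ℤ) : IsUnit (T σ k) :=
  ⟨⟨T σ k, T σ (-k), by rw [← T_add, add_neg_cancel, T_zero],
    by rw [← T_add, neg_add_cancel, T_zero]⟩, rfl⟩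

theorem isUnit_of_start {f : SkewLaurent σ} (hneg : ∀ n < 0, f.1.coeff n = 0) (h0 : cf f 0 ≠ 0) :
    IsUnit f := by
  let g : PowerSeries (AddMonoid.End (ℤ → D)) := PowerSeries.mk fun n => f.1.coeff (n : ℤ)
  let u : (AddMonoid.End (ℤ → D))ˣ :=
    ⟨wShift σ (cf f 0) 0, wShift σ (cf f 0)⁻¹ 0,
      by rw [wShift_mul, zpow_zero, RingAut.one_apply, mul_inv_cancel₀ h0, add_zero, wShift_one],
      by rw [wShift_mul, zpow_zero, RingAut.one_apply, inv_mul_cancel₀ h0, add_zero, wShift_one]⟩
  have hu : PowerSeries.constantCoeff g = (u : AddMonoid.End (ℤ → D)) := by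
    rw [← PowerSeries.coeff_zero_eq_constantCoeff_apply, PowerSeries.coeff_mk]
    simpa [u] using coeff_eq f 0
  have hmem : ∀ n : ℕ, PowerSeries.coeff n (PowerSeries.invOfUnit g u) ∈ grade σ n := by
    intro n
    induction n using Nat.strong_induction_on with
    | _ n ih =>
      rw [PowerSeries.coeff_invOfUnit]
      split
      · subst_vars
        exact ⟨(cf f 0)⁻¹, rfl⟩
      · have hinv : (-(↑u⁻¹ : AddMonoid.End (ℤ → D))) ∈ grade σ 0 := neg_mem ⟨(cf f 0)⁻¹, rfl⟩
        refine (congrArg (fun j => _ ∈ grade σ j) (zero_add (n : ℤ))).mp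
          (grade_mul σ hinv (sum_mem fun x hx => ?_))
        split
        · rw [PowerSeries.coeff_mk]
          have := grade_mul σ (f.2 x.1) (ih x.2 (by assumption))
          rwa [show ((x.1 : ℤ) + x.2) = n by
            exact_mod_cast Finset.HasAntidiagonal.mem_antidiagonal.1 hx] at this
        · exact zero_mem _
  have hgrade : ∀ (p : PowerSeries (AddMonoid.End (ℤ → D))),
      (∀ n : ℕ, PowerSeries.coeff n p ∈ grade σ n) → HahnSeries.ofPowerSeries ℤ _ p ∈ skewSub σ := by
    intro p hp n
    by_cases hn : 0 ≤ n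
    · obtain ⟨m, rfl⟩ := Int.eq_ofNat_of_zero_le hn
      rw [HahnSeries.ofPowerSeries_apply_coeff]
      exact hp m
    · rw [HahnSeries.ofPowerSeries_apply, HahnSeries.embDomain_of_notMem_range]
      · exact zero_mem _
      · rintro ⟨m, hm⟩
        exact hn (hm ▸ Int.natCast_nonneg m)
  have hf : HahnSeries.ofPowerSeries ℤ _ g = f.1 := by
    ext n : 2
    by_cases hn : 0 ≤ n
    · obtain ⟨m, rfl⟩ := Int.eq_ofNat_of_zero_le hn
      rw [HahnSeries.ofPowerSeries_apply_coeff, PowerSeries.coeff_mk]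
    · rw [hneg n (by omega), HahnSeries.ofPowerSeries_apply, HahnSeries.embDomain_of_notMem_range]
      rintro ⟨m, hm⟩
      exact hn (hm ▸ Int.natCast_nonneg m)
  refine ⟨⟨f, ⟨_, hgrade _ hmem⟩, Subtype.ext ?_, Subtype.ext ?_⟩, rfl⟩
  · show f.1 * _ = 1
    rw [← hf, ← map_mul, PowerSeries.mul_invOfUnit g u hu, map_one]
  · show _ * f.1 = 1
    rw [← hf, ← map_mul, PowerSeries.invOfUnit_mul g u hu, map_one]

theorem isUnit_or_eq_zero (f : SkewLaurent σ) : IsUnit f ∨ f = 0 := by
  rcases eq_or_ne f 0 with h | h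
  · exact Or.inr h
  refine Or.inl ?_
  have h1 : f.1 ≠ 0 := fun e => h (Subtype.ext e)
  set k := f.1.order
  have hk : cf f k ≠ 0 := fun e => h1 (HahnSeries.coeff_order_eq_zero.1 (by
    rw [coeff_eq, e, wShift_zero]))
  have key : ∀ n, (T σ (-k) * f).1.coeff n = wShift σ 1 (-k) * f.1.coeff (n + k) := fun n => by
    show (HahnSeries.single (-k) (wShift σ 1 (-k)) * f.1).coeff n = _
    rw [show n = (n + k) + (-k) by omega, HahnSeries.coeff_single_mul_add]
    congr 2
    omega
  have hu : IsUnit (T σ (-k) * f) := by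
    refine isUnit_of_start (fun n hn => ?_) ?_
    · rw [key, HahnSeries.coeff_eq_zero_of_lt_order (by omega), mul_zero]
    · show evalOne ((T σ (-k) * f).1.coeff 0) ≠ 0
      rw [key, zero_add, coeff_eq, wShift_mul, evalOne_wShift, one_mul]
      simpa using hk
  have := (isUnit_T (σ := σ) k).mul hu
  rwa [← mul_assoc, ← T_add, add_neg_cancel, T_zero, one_mul] at this

instance : Nontrivial (SkewLaurent σ) := ⟨⟨C σ 1, C σ 0, fun h => one_ne_zero (C_injective σ h)⟩⟩

instance divisionRing : DivisionRing (SkewLaurent σ) :=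
  DivisionRing.ofIsUnitOrEqZero isUnit_or_eq_zero

end SkewLaurent

end

end Vale.Agent.P199
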