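import Vale.Agent.P199.Glue
import Vale.Agent.P199.Stage.Pt

/-!
P199, glue for stages: one fixed guarded enumeration, listings with consecutive symbol blocks given by the degrees, and
the passage from a step hypothesis on points to the Kurosh statement.
-/

namespace Vale.Agent.P199

namespace Glue

open Vale.Agent.P199.Poly (ev X)

/-- The fixed enumeration: the `j`th element only uses symbols below `j`. -/
noncomputable def gEnum : ℕ → Poly := exists_guarded_enum.choose

theorem gEnum_surjective : Function.Surjective gEnum := exists_guarded_enum.choose_spec.1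

theorem gEnum_zero : gEnum 0 = X (Sum.inl true) := exists_guarded_enum.choose_spec.2.1

theorem gEnum_one : gEnum 1 = X (Sum.inl false) := exists_guarded_enum.choose_spec.2.2.1

theorem below_gEnum (j : ℕ) : Below j (gEnum j) := exists_guarded_enum.choose_spec.2.2.2 j

/-- The first symbol of row `j`. -/
def offset (e : ℕ → ℕ) (j : ℕ) : ℕ := ∑ i ∈ Finset.range j, e i

/-- The listing with degrees `e`. -/
noncomputable def listing (e : ℕ → ℕ) : Listing where
  p := gEnum
  b := offset e
  e := e
  b_succ j := Finset.sum_range_succ e j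

theorem offset_congr {e e' : ℕ → ℕ} {j : ℕ} (h : ∀ i < j, e i = e' i) :
    offset e j = offset e' j :=
  Finset.sum_congr rfl fun i hi => h i (Finset.mem_range.1 hi)

theorem le_offset {e : ℕ → ℕ} {j : ℕ} (h : ∀ i < j, 0 < e i) : j ≤ offset e j := by
  have := Finset.card_nsmul_le_sum (Finset.range j) e 1 fun i hi => h i (Finset.mem_range.1 hi)
  simpa [offset] using this

/-- The listing is guarded at every row after rows of positive degree. -/
theorem guarded_listing {e : ℕ → ℕ} {j : ℕ} (h : ∀ i < j, 0 < e i) : (listing e).Guarded j := by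
  intro R _ v v' hx hs
  refine ev_congr (M := j) (fun z hz => ?_) (below_gEnum j)
  rcases z with a | i
  · exact hx a
  · exact hs i (lt_of_lt_of_le (hz i rfl) (le_offset h))

/-- The equations of earlier rows do not see later degrees. -/
theorem eqn_listing_congr {e e' : ℕ → ℕ} {j : ℕ} (h : ∀ i ≤ j, e i = e' i) :
    (listing e).eqn j = (listing e').eqn j := by
  simp only [Listing.eqn, listing, h j le_rfl, offset_congr fun i hi => h i (le_of_lt hi)]

theorem solves_listing_congr {e e' : ℕ → ℕ} {n : ℕ} (h : ∀ i < n, e i = e' i) {P : Pt}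
    (hP : P.Solves (listing e) n) : P.Solves (listing e') n := fun j hj => by
  rw [← eqn_listing_congr fun i hi => h i (lt_of_le_of_lt hi hj)]
  exact hP j hj

/-- What a step hypothesis has to deliver for the first `n` rows. -/
def HasPoint (n : ℕ) (e : ℕ → ℕ) : Prop :=
  ∃ Q : Pt, Q.Generates ∧ Q.Solves (listing e) n ∧ n ≤ Module.finrank Q.K Q.D

theorem ev_listing_eqn (Q : Pt) (e : ℕ → ℕ) (j : ℕ) : ev Q.val ((listing e).eqn j) =
    evalSym Q.K Q.c (Q.xy true) (Q.xy false) (reorder (gEnum j)) ^ e j +
      ∑ i : Fin (e j), Q.c (offset e j + i) •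
        evalSym Q.K Q.c (Q.xy true) (Q.xy false) (reorder (gEnum j)) ^ (i : ℕ) := by
  have hv : Q.val = point Q.K Q.c (Q.xy true) (Q.xy false) := by
    funext z
    rcases z with (_ | _) | i <;> rfl
  rw [evalSym_reorder, ← hv,
    Fin.sum_univ_eq_sum_range (fun i => Q.c (offset e j + i) • ev Q.val (gEnum j) ^ i)]
  simp only [Listing.eqn, listing, map_add, map_pow, map_sum, map_mul, Poly.ev_X, Algebra.smul_def]
  rfl

/-- The Kurosh statement from a step hypothesis on stages. -/
theorem kurosh_of_point_step {P : ℕ → (ℕ → ℕ) → Prop} {e₀ : ℕ → ℕ} (base : P 0 e₀)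
    (step : ∀ n e, P n e → ∃ d, P (n + 1) (Function.update e n d))
    (out : ∀ n e, P n e → HasPoint n e) :
    (∃ (A : Type) (_ : DivisionRing A), (∀ a : A, IsAlgebraic (Subring.center A) a) ∧
      ∃ S : Finset A, ¬ FiniteDimensional (Subring.center A)
        (Algebra.adjoin (Subring.center A) (S : Set A))) ∧
    ∃ (k A : Type) (_ : Field k) (_ : DivisionRing A) (_ : Algebra k A) (a b : A),
      Algebra.IsAlgebraic k A ∧ Algebra.adjoin k ({a, b} : Set A) = ⊤ ∧
        ¬ FiniteDimensional k A := by
  choose d hd using step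
  let S : ∀ n, {e : ℕ → ℕ // P n e} := fun n =>
    Nat.rec ⟨e₀, base⟩ (fun n s => ⟨Function.update s.1 n (d n s.1 s.2), hd n s.1 s.2⟩) n
  have hconst : ∀ n j, j < n → (S n).1 j = (S (j + 1)).1 j := by
    intro n j h
    induction n with
    | zero => omega
    | succ n ih =>
      rcases Nat.lt_succ_iff_lt_or_eq.1 h with h' | h'
      · exact (Function.update_of_ne (by omega) _ _).trans (ih h')
      · rw [h']
  let E : ℕ → ℕ := fun j => (S (j + 1)).1 j
  have stage : ∀ n : ℕ, ∃ (K D : Type) (_ : Field K) (_ : DivisionRing D) (_ : Algebra K D)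
      (x y : D) (c : ℕ → K),
      (∀ j < n, evalSym K c x y (reorder (gEnum j)) ^ E j +
        ∑ i : Fin (E j), c (offset E j + i) • evalSym K c x y (reorder (gEnum j)) ^ (i : ℕ) = 0) ∧
      ∃ v : Fin n → D, (∀ i, v i ∈ Algebra.adjoin K ({x, y} : Set D)) ∧ LinearIndependent K v := by
    intro n
    obtain ⟨Q, hgen, hsol, hdim⟩ := out n (S n).1 (S n).2
    have hsol' := solves_listing_congr (e' := E) (fun j hj => hconst n j hj) hsol
    refine ⟨Q.K, Q.D, inferInstance, inferInstance, inferInstance, Q.xy true, Q.xy false, Q.c,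
      fun j hj => ?_, exists_indep_of_finrank _ _ ?_ hdim⟩
    · rw [← ev_listing_eqn]; exact hsol' j hj
    · have hr : Set.range Q.xy = ({Q.xy true, Q.xy false} : Set Q.D) := by
        ext z; simp [or_comm]
      rw [← hr]; exact hgen
  exact ⟨kurosh_of_stages _ (reorder_surjective.comp gEnum_surjective) E
      (fun j i => offset E j + i) stage,
    kurosh_k_of_stages _ (reorder_surjective.comp gEnum_surjective) E
      (fun j i => offset E j + i) stage⟩

/-- The point the iteration starts from: two commuting variables. -/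
noncomputable def basePt : Pt where
  K := FractionRing (MvPolynomial Bool ℂ)
  D := FractionRing (MvPolynomial Bool ℂ)
  xy b := algebraMap (MvPolynomial Bool ℂ) _ (MvPolynomial.X b)
  c _ := 0

theorem basePt_generates : basePt.Generates :=
  eq_top_iff.2 fun (z : FractionRing (MvPolynomial Bool ℂ)) _ =>
    (Algebra.adjoin basePt.K (Set.range basePt.xy)).algebraMap_mem z

theorem basePt_solves (L : Listing) : basePt.Solves L 0 := fun j hj => absurd hj (Nat.not_lt_zero j)

end Glue

end Vale.Agent.P199
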