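import Vale.Agent.P199.Stage.Word

/-!
P199: coefficients of a word evaluated at a point of power series. Above order one the order `m + 1`
depends on the coefficient `m + 1` by the first derivative, on the coefficient `m` linearly by the
second derivative against the coefficient one, and otherwise only on the coefficients below `m`.
-/

namespace Vale.Agent.P199

namespace Poly

open PowerSeries

variable {R : Type*} [Ring R]

/-- The coefficients of order `n` of a point of power series. -/
noncomputable def cf (n : ℕ) (v : Var → PowerSeries R) : Var → R := fun z => coeff n (v z)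

/-- The point with all coefficients from order `m` on removed. -/
noncomputable def cut (m : ℕ) (v : Var → PowerSeries R) : Var → PowerSeries R :=
  fun z => mk fun k => if k < m then coeff k (v z) else 0

lemma cf_cut (m k : ℕ) (v : Var → PowerSeries R) :
    cf k (cut m v) = if k < m then cf k v else 0 := by
  funext z
  by_cases h : k < m <;> simp [cf, cut, h]

lemma cut_congr {m : ℕ} {v v' : Var → PowerSeries R} (h : ∀ k < m, cf k v = cf k v') :
    cut m v = cut m v' := by
  funext z
  refine PowerSeries.ext fun k => ?_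
  by_cases hk : k < m
  · simpa [cut, hk, cf] using congrFun (h k hk) z
  · simp [cut, hk]

/-- Order zero is evaluation. -/
theorem coeff_zero_ev (v : Var → PowerSeries R) (p : Poly) :
    coeff 0 (ev v p) = ev (cf 0 v) p := by
  have h : (fun z => constantCoeff (v z)) = cf 0 v :=
    funext fun z => by simp [cf, coeff_zero_eq_constantCoeff_apply]
  rw [coeff_zero_eq_constantCoeff_apply, ev_map, h]

/-- Order one is the first derivative. -/
theorem coeff_one_ev (v : Var → PowerSeries R) (p : Poly) :
    coeff 1 (ev v p) = d1 (cf 0 v) (cf 1 v) p := by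
  induction p using FreeAlgebra.induction with
  | grade0 n =>
    rw [d1_int, eq_intCast (algebraMap ℤ Poly), map_intCast,
      ← map_intCast (PowerSeries.C (R := R)), coeff_C, if_neg one_ne_zero]
  | grade1 z => simp [show FreeAlgebra.ι ℤ z = X z from rfl, ev_X, cf]
  | mul a b ha hb =>
    rw [map_mul, PowerSeries.coeff_mul, Finset.Nat.sum_antidiagonal_eq_sum_range_succ
      (fun i j => coeff i (ev v a) * coeff j (ev v b)), Finset.sum_range_succ,
      Finset.sum_range_succ, Finset.sum_range_zero, d1_mul]
    simp only [Nat.sub_self, zero_add, Nat.sub_zero, coeff_zero_ev, ha, hb]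
  | add a b ha hb => rw [map_add, map_add, d1_add, ha, hb]

/-- Order two. -/
theorem coeff_two_ev (v : Var → PowerSeries R) (p : Poly) :
    coeff 2 (ev v p) = d1 (cf 0 v) (cf 2 v) p + d2 (cf 0 v) (cf 1 v) (cf 1 v) p := by
  induction p using FreeAlgebra.induction with
  | grade0 n =>
    rw [d1_int, d2_int, eq_intCast (algebraMap ℤ Poly), map_intCast,
      ← map_intCast (PowerSeries.C (R := R)), coeff_C, if_neg (by norm_num), add_zero]
  | grade1 z => simp [show FreeAlgebra.ι ℤ z = X z from rfl, ev_X, cf]
  | mul a b ha hb =>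
    rw [map_mul, PowerSeries.coeff_mul, Finset.Nat.sum_antidiagonal_eq_sum_range_succ
      (fun i j => coeff i (ev v a) * coeff j (ev v b)), Finset.sum_range_succ,
      Finset.sum_range_succ, Finset.sum_range_succ, Finset.sum_range_zero, d1_mul, d2_mul]
    simp only [Nat.sub_self, zero_add, Nat.sub_zero, show 2 - 1 = 1 from rfl, coeff_zero_ev,
      coeff_one_ev, ha, hb, mul_add, add_mul]
    abel
  | add a b ha hb =>
    rw [map_add, map_add, d1_add, d2_add, ha, hb]
    abel

lemma coeff_mul_low (f g : PowerSeries R) {m : ℕ} (hf : ∀ k < m, coeff k f = 0) :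
    (∀ k < m, coeff k (f * g) = 0) ∧ coeff m (f * g) = coeff m f * coeff 0 g ∧
      coeff (m + 1) (f * g) = coeff m f * coeff 1 g + coeff (m + 1) f * coeff 0 g := by
  refine ⟨fun k hk => ?_, ?_, ?_⟩ <;>
    rw [PowerSeries.coeff_mul,
      Finset.Nat.sum_antidiagonal_eq_sum_range_succ (fun i j => coeff i f * coeff j g)]
  · exact Finset.sum_eq_zero fun i hi => by rw [hf i (by simp at hi; omega), zero_mul]
  · rw [Finset.sum_range_succ, Finset.sum_eq_zero, zero_add, Nat.sub_self]
    exact fun i hi => by rw [hf i (by simpa using hi), zero_mul]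
  · rw [Finset.sum_range_succ, Finset.sum_range_succ, Finset.sum_eq_zero, zero_add, Nat.sub_self,
      show m + 1 - m = 1 by omega]
    exact fun i hi => by rw [hf i (by simpa using hi), zero_mul]

lemma coeff_mul_low' (g f : PowerSeries R) {m : ℕ} (hf : ∀ k < m, coeff k f = 0) :
    (∀ k < m, coeff k (g * f) = 0) ∧ coeff m (g * f) = coeff 0 g * coeff m f ∧
      coeff (m + 1) (g * f) = coeff 0 g * coeff (m + 1) f + coeff 1 g * coeff m f := by
  refine ⟨fun k hk => ?_, ?_, ?_⟩ <;>
    rw [PowerSeries.coeff_mul,
      Finset.Nat.sum_antidiagonal_eq_sum_range_succ (fun i j => coeff i g * coeff j f)]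
  · exact Finset.sum_eq_zero fun i hi => by rw [hf (k - i) (by omega), mul_zero]
  · rw [Finset.sum_range_succ', Finset.sum_eq_zero, zero_add, Nat.sub_zero]
    exact fun i hi => by rw [hf (m - (i + 1)) (by simp at hi; omega), mul_zero]
  · rw [Finset.sum_range_succ', Finset.sum_range_succ', Finset.sum_eq_zero, zero_add,
      Nat.sub_zero, show m + 1 - (0 + 1) = m by omega, zero_add, add_comm]
    exact fun i hi => by rw [hf (m + 1 - (i + 1 + 1)) (by simp at hi; omega), mul_zero]

/-- The expansion: the difference to the cut point at the orders below `m + 2`. -/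
theorem ev_sub_ev_cut (v : Var → PowerSeries R) {m : ℕ} (hm : 2 ≤ m) (p : Poly) :
    (∀ k < m, coeff k (ev v p) = coeff k (ev (cut m v) p)) ∧
      coeff m (ev v p) = d1 (cf 0 v) (cf m v) p + coeff m (ev (cut m v) p) ∧
      coeff (m + 1) (ev v p) = d1 (cf 0 v) (cf (m + 1) v) p +
        (d2 (cf 0 v) (cf 1 v) (cf m v) p + d2 (cf 0 v) (cf m v) (cf 1 v) p) +
        coeff (m + 1) (ev (cut m v) p) := by
  induction p using FreeAlgebra.induction with
  | grade0 n => simp [eq_intCast (algebraMap ℤ Poly), d1, d2, jet, ev,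
      Matrix.intCast_apply]
  | grade1 z =>
    refine ⟨fun k hk => ?_, ?_, ?_⟩ <;>
      simp [show FreeAlgebra.ι ℤ z = X z from rfl, ev_X, cf, cut, *]
  | mul a b ha hb =>
    set v' := cut m v with hv'
    have h0 : cf 0 v' = cf 0 v := by rw [hv', cf_cut, if_pos (by omega)]
    have h1 : cf 1 v' = cf 1 v := by rw [hv', cf_cut, if_pos (by omega)]
    set da := ev v a - ev v' a with hda
    set db := ev v b - ev v' b with hdb
    have la : ∀ k < m, coeff k da = 0 := fun k hk => by rw [hda, map_sub, ha.1 k hk, sub_self]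
    have lb : ∀ k < m, coeff k db = 0 := fun k hk => by rw [hdb, map_sub, hb.1 k hk, sub_self]
    have hsplit : ev v (a * b) = ev v' (a * b) + (ev v a * db + da * ev v' b) := by
      rw [map_mul, map_mul, hda, hdb]
      noncomm_ring
    obtain ⟨r0, r1, r2⟩ := coeff_mul_low' (ev v a) db lb
    obtain ⟨s0, s1, s2⟩ := coeff_mul_low da (ev v' b) la
    have am : coeff m da = d1 (cf 0 v) (cf m v) a := by rw [hda, map_sub, ha.2.1]; abel
    have bm : coeff m db = d1 (cf 0 v) (cf m v) b := by rw [hdb, map_sub, hb.2.1]; abel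
    have am1 : coeff (m + 1) da = d1 (cf 0 v) (cf (m + 1) v) a +
        (d2 (cf 0 v) (cf 1 v) (cf m v) a + d2 (cf 0 v) (cf m v) (cf 1 v) a) := by
      rw [hda, map_sub, ha.2.2]; abel
    have bm1 : coeff (m + 1) db = d1 (cf 0 v) (cf (m + 1) v) b +
        (d2 (cf 0 v) (cf 1 v) (cf m v) b + d2 (cf 0 v) (cf m v) (cf 1 v) b) := by
      rw [hdb, map_sub, hb.2.2]; abel
    refine ⟨fun k hk => ?_, ?_, ?_⟩ <;> rw [hsplit, map_add, map_add]
    · rw [r0 k hk, s0 k hk, add_zero, add_zero]
    · rw [r1, s1, am, bm, coeff_zero_ev, coeff_zero_ev, h0, d1_mul]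
      abel
    · rw [r2, s2, am, bm, am1, bm1, coeff_zero_ev, coeff_zero_ev, coeff_one_ev, coeff_one_ev, h0,
        h1, d1_mul, d2_mul, d2_mul]
      simp only [mul_add, add_mul]
      abel
  | add a b ha hb =>
    refine ⟨fun k hk => ?_, ?_, ?_⟩ <;> simp only [map_add, d1_add, d2_add]
    · rw [ha.1 k hk, hb.1 k hk]
    · rw [ha.2.1, hb.2.1]; abel
    · rw [ha.2.2, hb.2.2]; abel

end Poly

end Vale.Agent.P199
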