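import Vale.Agent.P199.SymbolExt
import Vale.Agent.P199.Valued

/-!
P199: the untwisted series `D((ε)) = SkewLaurent 1` over a division algebra `D` over `K`, as an algebra over `K((ε))`
with coordinates in a basis of `D`, and its integral points.
-/

namespace Vale.Agent.P199.LaurentAlg

open Module

noncomputable section

variable {K D : Type} [Field K] [DivisionRing D] [Algebra K D]

/-- `D((ε))` as ordinary Hahn series. -/
def toE : HahnSeries ℤ D ≃+* SkewLaurent (1 : RingAut D) where
  toFun f := ⟨{ coeff := fun n => wShift 1 (f.coeff n) n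
                isPWO_support' := f.isPWO_support.mono fun n hn h0 => hn (by
                  show wShift 1 (f.coeff n) n = 0
                  rw [h0, wShift_zero]) },
    fun n => ⟨f.coeff n, rfl⟩⟩
  invFun g := { coeff := fun n => SkewLaurent.cf g n
                isPWO_support' := g.1.isPWO_support.mono fun n hn h0 => hn (by
                  show evalOne (g.1.coeff n) = 0
                  rw [h0, map_zero]) }
  left_inv f := HahnSeries.ext (funext fun n => evalOne_wShift 1 (f.coeff n) n)
  right_inv g := Subtype.ext (HahnSeries.ext (funext fun n => (SkewLaurent.coeff_eq g n).symm))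
  map_mul' f g := Subtype.ext (HahnSeries.ext (funext fun n => by
    classical
    show wShift 1 ((f * g).coeff n) n = (_ * _ : HahnSeries ℤ (AddMonoid.End (ℤ → D))).coeff n
    rw [HahnSeries.coeff_mul, HahnSeries.coeff_mul]
    rw [show wShift 1 (∑ ij ∈ Finset.antidiagonal f.isPWO_support g.isPWO_support n,
        f.coeff ij.1 * g.coeff ij.2) n = ∑ ij ∈ Finset.antidiagonal f.isPWO_support
          g.isPWO_support n, wShift 1 (f.coeff ij.1 * g.coeff ij.2) n from
      map_sum (AddMonoidHom.mk' (fun a => wShift (1 : RingAut D) a n)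
        fun a b => wShift_add 1 a b n) _ _]
    refine (Finset.sum_subset_zero_on_sdiff ?_ ?_ ?_).symm
    · intro ij hij
      simp only [Finset.mem_antidiagonal, HahnSeries.mem_support] at hij ⊢
      exact ⟨fun h => hij.1 (by rw [h, wShift_zero]), fun h => hij.2.1 (by rw [h, wShift_zero]),
        hij.2.2⟩
    · intro ij hij
      simp only [Finset.mem_sdiff, Finset.mem_antidiagonal, HahnSeries.mem_support] at hij
      obtain ⟨⟨h1, h2, h3⟩, h⟩ := hij
      by_cases ha : wShift 1 (f.coeff ij.1) ij.1 = 0
      · exact absurd (by simpa [evalOne_wShift] using congrArg evalOne ha) h1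
      · by_cases hb : wShift 1 (g.coeff ij.2) ij.2 = 0
        · exact absurd (by simpa [evalOne_wShift] using congrArg evalOne hb) h2
        · exact absurd ⟨ha, hb, h3⟩ h
    · intro ij hij
      simp only [Finset.mem_antidiagonal, HahnSeries.mem_support] at hij
      show wShift 1 (f.coeff ij.1) ij.1 * wShift 1 (g.coeff ij.2) ij.2 = _
      rw [wShift_mul, one_zpow_apply, hij.2.2]))
  map_add' f g := Subtype.ext (HahnSeries.ext (funext fun n => by
    show wShift 1 ((f + g).coeff n) n = _
    rw [HahnSeries.coeff_add, wShift_add]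
    rfl))

lemma cf_toE (f : HahnSeries ℤ D) (n : ℤ) : SkewLaurent.cf (toE f) n = f.coeff n :=
  evalOne_wShift 1 (f.coeff n) n

lemma toE_C (a : D) : toE (HahnSeries.C a) = SkewLaurent.C 1 a :=
  SkewLaurent.ext_cf fun n => by
    rw [cf_toE, SkewLaurent.cf_C, HahnSeries.C_apply, HahnSeries.coeff_single]
    split_ifs <;> rfl

lemma toE_single (k : ℤ) : toE (HahnSeries.single k (1 : D)) = SkewLaurent.T 1 k :=
  SkewLaurent.ext_cf fun n => by
    rw [cf_toE, SkewLaurent.cf_T, HahnSeries.coeff_single]
    split_ifs <;> rfl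

/-- Integral points. -/
def psE : PowerSeries D →+* SkewLaurent (1 : RingAut D) :=
  (toE : HahnSeries ℤ D ≃+* SkewLaurent (1 : RingAut D)).toRingHom.comp
    (HahnSeries.ofPowerSeries ℤ D)

lemma psE_injective : Function.Injective (psE : PowerSeries D → SkewLaurent (1 : RingAut D)) :=
  toE.injective.comp HahnSeries.ofPowerSeries_injective

lemma cf_psE (p : PowerSeries D) (n : ℕ) : SkewLaurent.cf (psE p) n = PowerSeries.coeff n p :=
  (cf_toE _ _).trans (HahnSeries.ofPowerSeries_apply_coeff p n)

/-- The scalars of `K((ε))`. -/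
def base : LaurentSeries K →+* HahnSeries ℤ D where
  toFun f := f.map (algebraMap K D)
  map_zero' := HahnSeries.ext (funext fun n => by simp)
  map_one' := HahnSeries.ext (funext fun n => by
    simp [HahnSeries.coeff_one, apply_ite (algebraMap K D)])
  map_add' f g := HahnSeries.ext (funext fun n => by simp)
  map_mul' f g := HahnSeries.map_mul (algebraMap K D).toNonUnitalRingHom

lemma coeff_base (f : LaurentSeries K) (n : ℤ) :
    (base f : HahnSeries ℤ D).coeff n = algebraMap K D (f.coeff n) := rfl

lemma base_comm (f : LaurentSeries K) (g : HahnSeries ℤ D) : base f * g = g * base f := by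
  classical
  refine HahnSeries.ext (funext fun n => ?_)
  rw [HahnSeries.coeff_mul, HahnSeries.coeff_mul]
  refine Finset.sum_nbij' Prod.swap Prod.swap ?_ ?_ (fun _ _ => rfl) (fun _ _ => rfl) ?_
  · intro a ha
    simp only [Finset.mem_antidiagonal, Prod.fst_swap, Prod.snd_swap] at ha ⊢
    exact ⟨ha.2.1, ha.1, by omega⟩
  · intro a ha
    simp only [Finset.mem_antidiagonal, Prod.fst_swap, Prod.snd_swap] at ha ⊢
    exact ⟨ha.2.1, ha.1, by omega⟩
  · intro a _
    rw [coeff_base]
    exact Algebra.commutes _ _

variable [Algebra (LaurentSeries K) (SkewLaurent (1 : RingAut D))]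
  (halg : ∀ z, algebraMap (LaurentSeries K) (SkewLaurent (1 : RingAut D)) z = laurentScalarHom z)
include halg

lemma algebraMap_eq (f : LaurentSeries K) :
    algebraMap (LaurentSeries K) (SkewLaurent (1 : RingAut D)) f = toE (base f) := by
  rw [halg]
  exact SkewLaurent.ext_cf fun n => by rw [cf_laurentScalarHom, cf_toE, coeff_base]

variable {ι : Type} [Fintype ι] (b : Basis ι K D)

/-- Coordinates in a basis of `D`. -/
def comb : (ι → LaurentSeries K) ≃ₗ[LaurentSeries K] SkewLaurent (1 : RingAut D) :=
  (laurentBasis halg b).equivFun.symm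

lemma cf_comb (x : ι → LaurentSeries K) (n : ℤ) :
    SkewLaurent.cf (comb halg b x) n = ∑ i, (x i).coeff n • b i := by
  rw [comb, Basis.equivFun_symm_apply, SkewLaurent.cf_finsetSum]
  refine Finset.sum_congr rfl fun i _ => ?_
  rw [laurentBasis, Basis.mk_apply, Algebra.smul_def, algebraMap_eq halg, ← toE_C, ← map_mul,
    cf_toE, HahnSeries.C_apply, HahnSeries.coeff_mul_single_zero, coeff_base, Algebra.smul_def]

/-- Integral coordinate vectors are exactly the integral points. -/
theorem comb_up (p : ι → PowerSeries K) :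
    comb halg b (Vale.P199.Valued.up p) =
      psE (PowerSeries.mk fun n => ∑ i, PowerSeries.coeff n (p i) • b i) := by
  refine SkewLaurent.ext_cf fun n => ?_
  rw [cf_comb]
  by_cases hn : 0 ≤ n
  · obtain ⟨m, rfl⟩ := Int.eq_ofNat_of_zero_le hn
    rw [cf_psE, PowerSeries.coeff_mk]
    simp [Vale.P199.Valued.up_apply, HahnSeries.ofPowerSeries_apply_coeff]
  · have h : ∀ (R : Type) [Semiring R] (q : PowerSeries R),
        (HahnSeries.ofPowerSeries ℤ R q).coeff n = 0 := fun R _ q => by
      rw [HahnSeries.ofPowerSeries_apply, HahnSeries.embDomain_of_notMem_range]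
      rintro ⟨m, hm⟩
      exact hn (hm ▸ Int.natCast_nonneg m)
    rw [show psE (PowerSeries.mk fun k => ∑ i, PowerSeries.coeff k (p i) • b i) =
      toE (HahnSeries.ofPowerSeries ℤ D _) from rfl, cf_toE, h]
    simp [Vale.P199.Valued.up_apply, h]

omit halg [Fintype ι] in
/-- Every element is an integral point times a power of `ε`. -/
theorem exists_psE (g : SkewLaurent (1 : RingAut D)) :
    ∃ (p : PowerSeries D) (k : ℤ), g = SkewLaurent.T 1 k * psE p := by
  obtain ⟨g, rfl⟩ := toE.surjective g
  refine ⟨LaurentSeries.powerSeriesPart g, g.order, ?_⟩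
  rw [psE, RingHom.comp_apply, ← toE_single]
  show toE g = toE _ * toE _
  rw [← map_mul, LaurentSeries.single_order_mul_powerSeriesPart]

omit halg in
/-- An element with no negative coefficient is an integral point. -/
theorem exists_psE_of_neg (g : SkewLaurent (1 : RingAut D))
    (hg : ∀ n < 0, SkewLaurent.cf g n = 0) :
    psE (PowerSeries.mk fun n : ℕ => SkewLaurent.cf g n) = g := by
  refine SkewLaurent.ext_cf fun n => ?_
  by_cases hn : 0 ≤ n
  · obtain ⟨m, rfl⟩ := Int.eq_ofNat_of_zero_le hn
    rw [cf_psE, PowerSeries.coeff_mk]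
  · rw [hg n (by omega), show psE (PowerSeries.mk fun k : ℕ => SkewLaurent.cf g k) =
      toE (HahnSeries.ofPowerSeries ℤ D _) from rfl, cf_toE, HahnSeries.ofPowerSeries_apply,
      HahnSeries.embDomain_of_notMem_range]
    rintro ⟨m, hm⟩
    exact hn (hm ▸ Int.natCast_nonneg m)

end

end Vale.Agent.P199.LaurentAlg
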