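import Vale.Agent.P199.SymbolPoint
import Vale.Agent.P199.LaurentAlg
import Vale.Agent.P199.Expansion

/-!
P199: Laurent points from coefficient sequences. The equations of such a point hold exactly when every coefficient of
the evaluation at the series point vanishes, so a recursion on coefficients gives a point.
-/

namespace Vale.Agent.P199

open SkewLaurent LaurentAlg

noncomputable section

namespace SeriesPoint

variable {P₁ : Pt} (X : ℕ → Bool → P₁.D) (Cs : ℕ → ℕ → P₁.K)

/-- The series point of coefficient sequences. -/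
def ser : Var → PowerSeries P₁.D
  | Sum.inl a => PowerSeries.mk fun m => X m a
  | Sum.inr i => PowerSeries.mk fun m => algebraMap P₁.K P₁.D (Cs m i)

theorem cf_ser (m : ℕ) :
    Poly.cf m (ser X Cs) = fun z => match z with
      | Sum.inl a => X m a
      | Sum.inr i => algebraMap P₁.K P₁.D (Cs m i) := by
  funext z
  cases z <;> simp [Poly.cf, ser]

theorem cf_psE_neg (p : PowerSeries P₁.D) {n : ℤ} (hn : n < 0) :
    SkewLaurent.cf (psE p) n = 0 := by
  rw [show psE p = toE (HahnSeries.ofPowerSeries ℤ P₁.D p) from rfl, cf_toE,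
    HahnSeries.ofPowerSeries_apply, HahnSeries.embDomain_of_notMem_range]
  rintro ⟨m, hm⟩
  exact absurd (hm ▸ Int.natCast_nonneg m : (0 : ℤ) ≤ n) (by omega)

variable (hX : X 0 = P₁.xy) (hC : Cs 0 = P₁.c)

/-- The Laurent data of the sequences. -/
def data : LaurData P₁ where
  x a := psE (PowerSeries.mk fun m => X m a)
  c i := HahnSeries.ofPowerSeries ℤ P₁.K (PowerSeries.mk fun m => Cs m i)
  x_neg _ _ hn := cf_psE_neg _ hn
  x_zero a := by
    have h := cf_psE (PowerSeries.mk fun m => X m a) 0
    rw [PowerSeries.coeff_mk, hX] at h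
    exact h
  c_neg _ n hn := by
    rw [HahnSeries.ofPowerSeries_apply, HahnSeries.embDomain_of_notMem_range]
    rintro ⟨m, hm⟩
    exact absurd (hm ▸ Int.natCast_nonneg m : (0 : ℤ) ≤ n) (by omega)
  c_zero i := by
    have h := HahnSeries.ofPowerSeries_apply_coeff (Γ := ℤ) (PowerSeries.mk fun m => Cs m i) 0
    rw [PowerSeries.coeff_mk, hC] at h
    exact h

include hX hC in
/-- The residue of the series point is the old point. -/
theorem cf_ser_zero : Poly.cf 0 (ser X Cs) = P₁.val := by
  rw [cf_ser]
  funext z
  cases z <;> simp [Pt.val, ← hX, ← hC]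

/-- The values of the new point are integral. -/
theorem val_data (z : Var) : (data X Cs hX hC).pt.val z = psE (ser X Cs z) := by
  cases z with
  | inl a => rfl
  | inr i =>
    show laurentScalarHom (HahnSeries.ofPowerSeries ℤ P₁.K (PowerSeries.mk fun m => Cs m i)) = _
    refine ext_cf fun n => ?_
    rw [cf_laurentScalarHom]
    by_cases hn : 0 ≤ n
    · obtain ⟨m, rfl⟩ := Int.eq_ofNat_of_zero_le hn
      rw [cf_psE, HahnSeries.ofPowerSeries_apply_coeff, PowerSeries.coeff_mk, ser,
        PowerSeries.coeff_mk]
    · rw [cf_psE_neg _ (by omega), HahnSeries.ofPowerSeries_apply,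
        HahnSeries.embDomain_of_notMem_range, map_zero]
      rintro ⟨m, hm⟩
      exact hn (hm ▸ Int.natCast_nonneg m)

/-- Evaluation commutes with taking the series. -/
theorem ev_data (p : Poly) :
    Poly.ev (data X Cs hX hC).pt.val p = psE (Poly.ev (ser X Cs) p) := by
  rw [funext (val_data X Cs hX hC)]
  exact (Poly.ev_map (psE (D := P₁.D)) (ser X Cs) p).symm

/-- The equations hold when all coefficients vanish. -/
theorem solves_data (L : Listing) (n : ℕ) :
    (data X Cs hX hC).pt.Solves L n ↔
      ∀ j < n, ∀ m : ℕ, PowerSeries.coeff m (Poly.ev (ser X Cs) (L.eqn j)) = 0 := by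
  refine forall₂_congr fun j _ => ?_
  rw [ev_data]
  constructor
  · intro h m
    have h0 : psE (D := P₁.D) (Poly.ev (ser X Cs) (L.eqn j)) = psE 0 := by rw [map_zero]; exact h
    rw [psE_injective h0, map_zero]
  · intro h
    rw [show Poly.ev (ser X Cs) (L.eqn j) = 0 from
      PowerSeries.ext fun m => by rw [h m, map_zero], map_zero]
    rfl

end SeriesPoint

end

end Vale.Agent.P199
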