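import Vale.Agent.P199.SymbolExt
import Vale.Agent.P199.Stage.Pt

/-!
P199: the two base changes of a point: to the symbol algebra over `K((u))((v))`, and to Laurent series with prescribed
integral values of the generators and of the symbols.
-/

namespace Vale.Agent.P199

open SkewLaurent

noncomputable section

/-- A complex algebra field has characteristic zero. -/
theorem Pt.charZero (P : Pt) : CharZero P.K :=
  charZero_of_injective_algebraMap (RingHom.injective (algebraMap ℂ P.K))

/-- Division algebra data over a point: the symbol algebra of degree `l`. -/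
structure SymData (P : Pt) where
  /-- The degree. -/
  l : ℕ
  /-- The root of unity. -/
  z : P.K
  pos : 0 < l
  prim : IsPrimitiveRoot z l

namespace SymData

variable {P : Pt} (S : SymData P)

/-- The root of unity in `D`. -/
def unit : P.Dˣ := Units.mk0 (algebraMap P.K P.D S.z) fun h => S.prim.ne_zero S.pos.ne' (by
  simpa using h)

theorem unit_central (a : P.D) : (S.unit : P.D) * a = a * S.unit := Algebra.commutes S.z a

theorem unit_order : orderOf S.unit = S.l := by
  rw [← orderOf_units]
  exact (orderOf_injective (algebraMap P.K P.D).toMonoidHom (algebraMap P.K P.D).injective S.z).trans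
    S.prim.eq_orderOf.symm

/-- The field of scalars. -/
abbrev Scalar (_S : SymData P) : Type := LaurentSeries (LaurentSeries P.K)

/-- The algebra. -/
abbrev Alg : Type := Sym S.unit S.unit_central

/-- The scalar action. -/
abbrev algebra : Algebra S.Scalar S.Alg := symAlgebra S.unit S.unit_central S.pos S.unit_order

/-- The inclusion of `K`. -/
def iK : P.K →+* S.Scalar := (HahnSeries.C (Γ := ℤ)).comp (HahnSeries.C (Γ := ℤ))

/-- The monomial basis. -/
def basis {ι : Type} [Fintype ι] (b : Module.Basis ι P.K P.D) :
    letI := S.algebra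
    Module.Basis (ι × Fin S.l × Fin S.l) S.Scalar S.Alg :=
  letI := S.algebra
  haveI := P.charZero
  symBasis S.unit S.unit_central S.pos S.unit_order S.z rfl (fun _ => rfl) b

/-- The point over the symbol algebra. -/
def pt : Pt :=
  letI := S.algebra
  haveI := P.charZero
  haveI : FiniteDimensional S.Scalar S.Alg :=
    finiteDimensional_sym S.unit S.unit_central S.pos S.unit_order S.z rfl fun _ => rfl
  { K := S.Scalar
    D := S.Alg
    xy := fun a => symC S.unit S.unit_central (P.xy a)
    c := fun i => S.iK (P.c i) }

theorem iD_algebraMap (a : P.K) :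
    symC S.unit S.unit_central (algebraMap P.K P.D a) =
      algebraMap S.pt.K S.pt.D (S.iK a) :=
  (symScalarHom_C S.unit S.unit_central S.pos S.unit_order a).symm

/-- The monomial `U ^ i * V ^ j`, indexed by `Fin (l * l)`. -/
def mon (i : Fin (S.l * S.l)) : S.Alg :=
  symU S.unit S.unit_central ^ ((finProdFinEquiv.symm i).1 : ℕ) *
    symV S.unit S.unit_central ^ ((finProdFinEquiv.symm i).2 : ℕ)

theorem indep_mon {ι : Type} [Fintype ι] (bs : ι → P.D) (hb : LinearIndependent P.K bs) :
    letI := S.algebra
    LinearIndependent S.Scalar fun z : ι × Fin (S.l * S.l) =>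
      symC S.unit S.unit_central (bs z.1) * S.mon z.2 := by
  let _ := S.algebra
  have := P.charZero
  have h : LinearIndependent S.Scalar (symMonomial S.unit S.unit_central (l := S.l) bs) :=
    linearIndependent_sym S.unit S.unit_central S.pos S.unit_order S.z rfl (fun _ => rfl) hb
  have hinj : Function.Injective fun z : ι × Fin (S.l * S.l) =>
      (z.1, (finProdFinEquiv : Fin S.l × Fin S.l ≃ Fin (S.l * S.l)).symm z.2) := fun x y e =>
    Prod.ext (Prod.ext_iff.1 e).1 (finProdFinEquiv.symm.injective (Prod.ext_iff.1 e).2)
  have h2 := LinearIndependent.comp h _ hinj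
  convert h2 using 1
  funext z
  simp only [Function.comp_apply, symMonomial, mon]

theorem finrank_alg :
    letI := S.algebra
    Module.finrank S.Scalar S.Alg = Module.finrank P.K P.D * (S.l * S.l) := by
  let _ := S.algebra
  have := P.charZero
  exact finrank_sym S.unit S.unit_central S.pos S.unit_order S.z rfl fun _ => rfl

/-- The base change data. -/
def ext : Ext P S.pt where
  iK := S.iK
  iD := symC S.unit S.unit_central
  map_algebraMap := S.iD_algebraMap
  m := S.l * S.l
  mon := S.mon
  comm a i := by
    exact (((symC_commute S.unit S.unit_central a).1.symm.pow_right _).mul_right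
      ((symC_commute S.unit S.unit_central a).2.symm.pow_right _)).eq
  mon_one := ⟨finProdFinEquiv (⟨0, S.pos⟩, ⟨0, S.pos⟩), by
    simp only [mon, Equiv.symm_apply_apply, pow_zero, one_mul]
    rfl⟩
  indep bs hb := S.indep_mon bs hb
  finrank_eq := S.finrank_alg
  xy_eq _ := rfl
  c_eq _ := rfl

end SymData

/-- Integral values of the generators and of the symbols over a point. -/
structure LaurData (P₁ : Pt) where
  /-- The generators. -/
  x : Bool → SkewLaurent (1 : RingAut P₁.D)
  /-- The symbols. -/
  c : ℕ → LaurentSeries P₁.K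
  x_neg : ∀ a, ∀ n < 0, cf (x a) n = 0
  x_zero : ∀ a, cf (x a) 0 = P₁.xy a
  c_neg : ∀ i, ∀ n < 0, (c i).coeff n = 0
  c_zero : ∀ i, (c i).coeff 0 = P₁.c i

namespace LaurData

variable {P₁ : Pt} (T : LaurData P₁)

/-- The Laurent point. -/
def pt : Pt :=
  letI := laurentAlgebra (K := P₁.K) (D := P₁.D)
  haveI : FiniteDimensional (LaurentSeries P₁.K) (SkewLaurent (1 : RingAut P₁.D)) :=
    finiteDimensional_laurent fun _ => rfl
  { K := LaurentSeries P₁.K
    D := SkewLaurent (1 : RingAut P₁.D)
    xy := T.x
    c := T.c }

/-- It lies over `P₁`. -/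
def laur : Laur P₁ T.pt where
  eK := RingEquiv.refl _
  eD := RingEquiv.refl _
  map_scalar z n := cf_laurentScalarHom z n
  xy_neg := T.x_neg
  xy_zero := T.x_zero
  c_neg := T.c_neg
  c_zero := T.c_zero

theorem finrank_pt : Module.finrank T.pt.K T.pt.D = Module.finrank P₁.K P₁.D :=
  letI := laurentAlgebra (K := P₁.K) (D := P₁.D)
  finrank_laurent fun _ => rfl

end LaurData

/-- A symbol base change followed by integral values is a step. -/
theorem step_of_data {P : Pt} (S : SymData P) (T : LaurData S.pt) : Step P T.pt :=
  ⟨S.pt, ⟨S.ext⟩, ⟨T.laur⟩⟩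

end

end Vale.Agent.P199
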