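import Vale.Agent.P199.Stage.Word

/-!
# P199: the second order form of a row through a preimage of the first motion

For the equation `f (p) = 0` of a row let `q` be the value of `p`, let `z` commute with `q` and let
`τ` be cyclic. If the first motion `d1 x u p` is `q ξ - ξ q`, then the second derivative of the row
paired with `z` is `τ (z f' (q) (ξ * d1 x v p + d2 x u v p)) - τ (z ξ * d1 x v (f p))`. So on
tangents no roots, leaves or splitting are needed: the pole sits in `ξ`.
-/

namespace Vale.Agent.P199.Poly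

open Finset Polynomial

variable {R : Type*} [Ring R] (x u v : Var → R) (p : Poly)

/-- The first derivative of a power, when the motion of `p` is a commutator. -/
theorem d1_pow_of_comm {ξ : R} (hξ : d1 x u p = ev x p * ξ - ξ * ev x p) (m : ℕ) :
    d1 x u (p ^ m) = ev x p ^ m * ξ - ξ * ev x p ^ m := by
  induction m with
  | zero => simp [d1]
  | succ m ih =>
    rw [pow_succ, d1_mul, ih, hξ, map_pow, pow_succ, mul_sub, sub_mul]
    simp only [mul_assoc]
    abel

variable {K : Type*} [CommRing K] [Algebra K R] (τ : R →ₗ[K] K) (hτ : ∀ a b, τ (a * b) = τ (b * a))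

include hτ in
/-- The second derivative of a power against an element commuting with the value. -/
theorem tau_d2_pow {ξ : R} (hξ : d1 x u p = ev x p * ξ - ξ * ev x p) (m : ℕ) :
    ∀ z : R, z * ev x p = ev x p * z → τ (z * d2 x u v (p ^ m)) =
      τ (z * ((m : R) * ev x p ^ (m - 1)) * (ξ * d1 x v p + d2 x u v p)) -
        τ (z * ξ * d1 x v (p ^ m)) := by
  induction m with
  | zero =>
    intro z _
    simp [d1, d2]
  | succ m ih =>
    intro z hz
    generalize hq : ev x p = q at hz hξ ih ⊢
    have h1 := d1_pow_of_comm x u p (ξ := ξ) (by rw [hq]; exact hξ) m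
    rw [hq] at h1
    have hzq : z * q * q = q * (z * q) := by rw [← mul_assoc, ← hz]
    have ih' := ih (z * q) hzq
    have hm : q * ((m : R) * q ^ (m - 1)) = (m : R) * q ^ m := by
      rcases Nat.eq_zero_or_pos m with h | h
      · simp [h]
      rw [← mul_assoc, ← Nat.cast_comm, mul_assoc, ← pow_succ', Nat.sub_add_cancel h]
    rw [mul_assoc z q ((m : R) * q ^ (m - 1)), hm] at ih'
    have e1 : τ (z * (d2 x u v (p ^ m) * q)) = τ (z * q * d2 x u v (p ^ m)) := by
      rw [← mul_assoc, hτ, ← mul_assoc, ← hz]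
    have e2 : τ (z * ξ * (d1 x v (p ^ m) * q)) = τ (z * q * ξ * d1 x v (p ^ m)) := by
      rw [← mul_assoc, hτ, ← mul_assoc, ← mul_assoc, ← hz]
    simp only [pow_succ, d2_mul, d1_mul, map_pow, hq, h1, Nat.add_sub_cancel, mul_add, map_add,
      Nat.cast_succ, add_mul, one_mul, sub_mul, mul_sub, map_sub, e1, e2, ih']
    simp only [mul_assoc]
    abel

include hτ in
/-- The same for an equation `p ^ e + ∑ X (s i) * p ^ i` whose symbols stay fixed. -/
theorem tau_d2_eqn {ξ : R} (hξ : d1 x u p = ev x p * ξ - ξ * ev x p) (e : ℕ) (s : ℕ → Var)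
    (c : ℕ → K) (hx : ∀ i < e, x (s i) = algebraMap K R (c i)) (hu : ∀ i < e, u (s i) = 0)
    (hv : ∀ i < e, v (s i) = 0) (z : R) (hz : z * ev x p = ev x p * z) :
    τ (z * d2 x u v (p ^ e + ∑ i ∈ range e, X (s i) * p ^ i)) =
      τ (z * aeval (ev x p) (derivative (Polynomial.X ^ e + ∑ i ∈ range e, C (c i) * Polynomial.X ^ i))
          * (ξ * d1 x v p + d2 x u v p)) -
        τ (z * ξ * d1 x v (p ^ e + ∑ i ∈ range e, X (s i) * p ^ i)) := by
  have h2 : ∀ q : Poly, ∀ i < e, d2 x u v (X (s i) * q) = c i • d2 x u v q ∧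
      d1 x v (X (s i) * q) = c i • d1 x v q := fun q i hi => by
    simp [d1_mul, d2_mul, ev_X, hx i hi, hu i hi, hv i hi, Algebra.smul_def]
  have hd1 : ∀ t : Finset ℕ, ∀ f : ℕ → Poly,
      d1 x v (∑ i ∈ t, f i) = ∑ i ∈ t, d1 x v (f i) := fun t f => by
    induction t using Finset.cons_induction with
    | empty => simpa using d1_int x v 0
    | cons i t hi ih => rw [sum_cons, sum_cons, d1_add, ih]
  have hd2 : ∀ t : Finset ℕ, ∀ f : ℕ → Poly,
      d2 x u v (∑ i ∈ t, f i) = ∑ i ∈ t, d2 x u v (f i) := fun t f => by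
    induction t using Finset.cons_induction with
    | empty => simpa using d2_int x u v 0
    | cons i t hi ih => rw [sum_cons, sum_cons, d2_add, ih]
  rw [d1_add, d2_add, hd1, hd2, sum_congr rfl fun i hi => (h2 _ i (mem_range.1 hi)).1,
    sum_congr rfl fun i hi => (h2 _ i (mem_range.1 hi)).2]
  simp only [mul_add, add_mul, map_add, derivative_C_mul_X_pow, derivative_X_pow, map_sum, mul_sum,
    sum_mul, map_mul, aeval_C, map_pow, aeval_X, mul_smul_comm, map_smul,
    tau_d2_pow x u v p τ hτ hξ _ z hz, map_natCast, smul_sub, sum_sub_distrib, ← Algebra.smul_def,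
    smul_mul_assoc]
  simp only [smul_add, sum_add_distrib]
  abel

include hτ in
/-- On tangents, normalised by the inverse `g` of `f' (q)`: the form is `τ (z (ξ * b + d2 p))`. -/
theorem tau_d2_tangent {ξ : R} (hξ : d1 x u p = ev x p * ξ - ξ * ev x p) (e : ℕ) (s : ℕ → Var)
    (c : ℕ → K) (hx : ∀ i < e, x (s i) = algebraMap K R (c i)) (hu : ∀ i < e, u (s i) = 0)
    (hv : ∀ i < e, v (s i) = 0) (z g : R) (hz : z * ev x p = ev x p * z)
    (hgq : g * ev x p = ev x p * g)
    (hg : g * aeval (ev x p)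
      (derivative (Polynomial.X ^ e + ∑ i ∈ range e, C (c i) * Polynomial.X ^ i)) = 1)
    (ht : d1 x v (p ^ e + ∑ i ∈ range e, X (s i) * p ^ i) = 0) :
    τ (z * g * d2 x u v (p ^ e + ∑ i ∈ range e, X (s i) * p ^ i)) =
      τ (z * (ξ * d1 x v p + d2 x u v p)) := by
  rw [tau_d2_eqn x u v p τ hτ hξ e s c hx hu hv (z * g)
    (by rw [mul_assoc, hgq, ← mul_assoc, hz, mul_assoc]), ht, mul_zero, map_zero, sub_zero,
    mul_assoc z g, hg, mul_one]

end Vale.Agent.P199.Poly
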