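import Mathlib

/-!
# P199: the rank lemma at a freeze

In a symbol algebra (`V U = ζ U V`, monomial basis) let `θ K = a K • U + b K • V` have pairwise
different ratios `b K / a K` and let `w K n` (`K, n < g`) not all vanish. Then on a subspace `W` of
dimension at least `(l - 3 g) (l - 2 g) - g l` there are preimages `ξ K` under `ad (θ K)` such that
`x ↦ ∑ w K n • θ K ^ n * ξ K x` is injective. Proof: expand in powers of `b K / a K`; the lowest
surviving coefficient is a monomial map whose entries are nonzero polynomials of degree `< g` in `ζ^i`.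
-/

namespace Vale.P199.Rank

open Module Finset Polynomial

variable {F A : Type*} [Field F] [Ring A] [Algebra F A]

/-- The monomial `U ^ i * V ^ j`. -/
def E (U : Aˣ) (V : A) (i : ℤ) (j : ℕ) : A := ((U ^ i : Aˣ) : A) * V ^ j

variable {U : Aˣ} {V : A} {l : ℕ} {ζ : F}

lemma mul_zpow_swap (hζ0 : ζ ≠ 0) (hVU : V * (U : A) = ζ • ((U : A) * V)) (i : ℤ) :
    V * ((U ^ i : Aˣ) : A) = ζ ^ i • (((U ^ i : Aˣ) : A) * V) := by
  induction i using Int.induction_on with
  | zero => simp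
  | succ m ih =>
    rw [zpow_add_one, Units.val_mul, ← mul_assoc, ih, smul_mul_assoc, mul_assoc, hVU,
      mul_smul_comm, smul_smul, ← mul_assoc, ← zpow_add_one₀ hζ0]
  | pred m ih =>
    have h : V * ((U⁻¹ : Aˣ) : A) = ζ⁻¹ • (((U⁻¹ : Aˣ) : A) * V) := by
      have h2 : (U : A) * V = ζ⁻¹ • (V * (U : A)) := by rw [hVU, smul_smul, inv_mul_cancel₀ hζ0,
        one_smul]
      calc V * ((U⁻¹ : Aˣ) : A) = ((U⁻¹ : Aˣ) : A) * ((U : A) * V) * ((U⁻¹ : Aˣ) : A) := by
            rw [← mul_assoc, Units.inv_mul, one_mul]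
        _ = ζ⁻¹ • (((U⁻¹ : Aˣ) : A) * V) := by
            rw [h2, mul_smul_comm, smul_mul_assoc, mul_assoc, mul_assoc, Units.mul_inv, mul_one]
    rw [zpow_sub_one, Units.val_mul, ← mul_assoc, ih, smul_mul_assoc, mul_assoc, h,
      mul_smul_comm, smul_smul, ← mul_assoc, ← zpow_sub_one₀ hζ0]

lemma pow_swap (hVU : V * (U : A) = ζ • ((U : A) * V)) (j : ℕ) :
    V ^ j * (U : A) = ζ ^ j • ((U : A) * V ^ j) := by
  induction j with
  | zero => simp
  | succ m ih =>
    rw [pow_succ V, mul_assoc, hVU, mul_smul_comm, ← mul_assoc, ih, smul_mul_assoc, smul_smul,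
      mul_assoc, ← pow_succ, ← pow_succ']

/-- The commutator of `a • U + b • V` with a monomial. -/
lemma ad_E (hζ0 : ζ ≠ 0) (hVU : V * (U : A) = ζ • ((U : A) * V)) (a b : F) (i : ℤ) (j : ℕ) :
    (a • (U : A) + b • V) * E U V i j - E U V i j * (a • (U : A) + b • V) =
      (a * (1 - ζ ^ j)) • E U V (i + 1) j + (b * (ζ ^ i - 1)) • E U V i (j + 1) := by
  have h1 : (U : A) * E U V i j = E U V (i + 1) j := by
    rw [E, E, ← mul_assoc, add_comm i 1, zpow_add, zpow_one, Units.val_mul]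
  have h2 : E U V i j * (U : A) = ζ ^ j • E U V (i + 1) j := by
    rw [E, E, mul_assoc, pow_swap hVU, mul_smul_comm, ← mul_assoc, zpow_add_one, Units.val_mul]
  have h3 : V * E U V i j = ζ ^ i • E U V i (j + 1) := by
    rw [E, E, ← mul_assoc, mul_zpow_swap hζ0 hVU, smul_mul_assoc, mul_assoc, ← pow_succ']
  have h4 : E U V i j * V = E U V i (j + 1) := by rw [E, E, mul_assoc, ← pow_succ]
  simp only [add_mul, mul_add, smul_mul_assoc, mul_smul_comm, h1, h2, h3, h4, smul_smul, sub_smul,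
    mul_sub, mul_one]
  abel

lemma theta_mul_E (hζ0 : ζ ≠ 0) (hVU : V * (U : A) = ζ • ((U : A) * V)) (a b : F) (i : ℤ) (j : ℕ) :
    (a • (U : A) + b • V) * E U V i j = a • E U V (i + 1) j + (b * ζ ^ i) • E U V i (j + 1) := by
  rw [E, E, E, add_mul, smul_mul_assoc, smul_mul_assoc, ← mul_assoc, ← mul_assoc,
    mul_zpow_swap hζ0 hVU, smul_mul_assoc, smul_smul, mul_assoc _ V, ← pow_succ', add_comm i 1,
    zpow_add, zpow_one, Units.val_mul]

/-- Coefficients of the preimage of `U ^ i * V ^ j` in powers of `-b / a`. -/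
def pc (ζ : F) (i : ℤ) (j : ℕ) : ℕ → F
  | 0 => (1 - ζ ^ j)⁻¹
  | t + 1 => pc ζ i j t * (ζ ^ (i - 1 - t) - 1) / (1 - ζ ^ (j + t + 1))

/-- A preimage of `U ^ i * V ^ j` under the commutator, up to a multiple of `V ^ l`. -/
noncomputable def xi (U : Aˣ) (V : A) (l : ℕ) (ζ a b : F) (i : ℤ) (j : ℕ) : A :=
  a⁻¹ • ∑ t ∈ range (l - j), ((-(b / a)) ^ t * pc ζ i j t) • E U V (i - 1 - t) (j + t)

/-- The defect of `xi`. -/
def res (l : ℕ) (ζ a b : F) (i : ℤ) (j : ℕ) : F :=
  a⁻¹ * b * (-(b / a)) ^ (l - 1 - j) * pc ζ i j (l - 1 - j) * (ζ ^ (i - 1 - ↑(l - 1 - j)) - 1)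

lemma one_sub_ne (hζ : IsPrimitiveRoot ζ l) {j : ℕ} (h0 : 0 < j) (hl : j < l) :
    (1 : F) - ζ ^ j ≠ 0 := fun h => hζ.pow_ne_one_of_pos_of_lt h0.ne' hl (sub_eq_zero.1 h).symm

lemma ad_xi (hζ : IsPrimitiveRoot ζ l) (hVU : V * (U : A) = ζ • ((U : A) * V)) {a : F} (ha : a ≠ 0)
    (b : F) (i : ℤ) {j : ℕ} (hj : 0 < j) (hjl : j < l) :
    (a • (U : A) + b • V) * xi U V l ζ a b i j - xi U V l ζ a b i j * (a • (U : A) + b • V) =
      E U V i j + res l ζ a b i j • E U V (i - 1 - ↑(l - 1 - j)) l := by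
  have hζ0 : ζ ≠ 0 := hζ.ne_zero (by omega)
  have hθ : ∀ (i : ℤ) (j : ℕ), (a • (U : A) + b • V) * E U V i j -
      E U V i j * (a • (U : A) + b • V) =
        (a * (1 - ζ ^ j)) • E U V (i + 1) j + (b * (ζ ^ i - 1)) • E U V i (j + 1) :=
    ad_E hζ0 hVU a b
  generalize a • (U : A) + b • V = θ at hθ ⊢
  have key : ∀ n, j + n < l →
      θ * (a⁻¹ • ∑ t ∈ range (n + 1), ((-(b / a)) ^ t * pc ζ i j t) • E U V (i - 1 - t) (j + t))
        - (a⁻¹ • ∑ t ∈ range (n + 1), ((-(b / a)) ^ t * pc ζ i j t) • E U V (i - 1 - t) (j + t)) * θ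
      = E U V i j + (a⁻¹ * b * (-(b / a)) ^ n * pc ζ i j n * (ζ ^ (i - 1 - (n : ℤ)) - 1)) •
          E U V (i - 1 - n) (j + n + 1) := by
    intro n
    induction n with
    | zero =>
      intro hn
      have h := one_sub_ne hζ hj hjl
      simp only [zero_add, range_one, sum_singleton, pow_zero, one_mul, Nat.cast_zero, sub_zero,
        add_zero, mul_smul_comm, smul_mul_assoc, ← smul_sub, hθ, pc, smul_add, smul_smul]
      congr 1
      · rw [show a⁻¹ * (1 - ζ ^ j)⁻¹ * (a * (1 - ζ ^ j)) = 1 by field_simp, one_smul, sub_add_cancel]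
      · congr 1; ring
    | succ m ih =>
      intro hn
      have ih := ih (by omega)
      rw [sum_range_succ _ (m + 1), smul_add, mul_add, add_mul, add_sub_add_comm, ih,
        mul_smul_comm, smul_mul_assoc, ← smul_sub, mul_smul_comm, smul_mul_assoc, ← smul_sub, hθ,
        smul_smul, smul_add, smul_smul, smul_smul]
      have h := one_sub_ne hζ (show 0 < j + m + 1 by omega) (by omega)
      have e1 : i - 1 - ((m + 1 : ℕ) : ℤ) + 1 = i - 1 - (m : ℤ) := by push_cast; ring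
      rw [e1, ← add_assoc, show j + (m + 1) = j + m + 1 from rfl, add_assoc (E U V i j), ← add_smul]
      have hz : a⁻¹ * b * (-(b / a)) ^ m * pc ζ i j m * (ζ ^ (i - 1 - (m : ℤ)) - 1) +
          a⁻¹ * ((-(b / a)) ^ (m + 1) * pc ζ i j (m + 1)) * (a * (1 - ζ ^ (j + m + 1))) = 0 := by
        simp only [pc]
        generalize 1 - ζ ^ (j + m + 1) = D at h ⊢
        generalize ζ ^ (i - 1 - (m : ℤ)) - 1 = Y
        rw [pow_succ]
        field_simp
        ring
      rw [hz, zero_smul, add_zero]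
      congr 1; congr 1; ring
  have h := key (l - 1 - j) (by omega)
  rwa [show l - 1 - j + 1 = l - j by omega, show j + (l - 1 - j) + 1 = l by omega] at h

/-- Coefficients of `θ ^ n * xi` in powers of `b / a`. -/
def qc (l : ℕ) (ζ : F) (i : ℤ) (j : ℕ) : ℕ → ℕ → F
  | 0, t => if t < l - j then (-1) ^ t * pc ζ i j t else 0
  | n + 1, 0 => qc l ζ i j n 0
  | n + 1, t + 1 => qc l ζ i j n (t + 1) + ζ ^ (i - 1 + n - t) * qc l ζ i j n t

lemma qc_eq_zero (l : ℕ) (ζ : F) (i : ℤ) (j : ℕ) :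
    ∀ n t, l - j + n ≤ t → qc l ζ i j n t = 0
  | 0, t, h => by simp only [qc]; rw [if_neg (by omega)]
  | n + 1, 0, h => by simp at h
  | n + 1, t + 1, h => by
    simp only [qc, qc_eq_zero l ζ i j n (t + 1) (by omega), qc_eq_zero l ζ i j n t (by omega),
      mul_zero, add_zero]

lemma pow_mul_xi (hζ0 : ζ ≠ 0) (hVU : V * (U : A) = ζ • ((U : A) * V)) {a : F} (ha : a ≠ 0) (b : F)
    (i : ℤ) (j n : ℕ) : (a • (U : A) + b • V) ^ n * xi U V l ζ a b i j = (a ^ n * a⁻¹) •
      ∑ t ∈ range (l - j + n), ((b / a) ^ t * qc l ζ i j n t) • E U V (i - 1 + n - t) (j + t) := by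
  induction n with
  | zero =>
    rw [pow_zero, one_mul, pow_zero, one_mul, add_zero, xi]
    refine congrArg _ (sum_congr rfl fun t ht => ?_)
    simp only [qc, mem_range.1 ht, if_true, Nat.cast_zero, add_zero]
    congr 1
    rw [← neg_one_mul, mul_pow]; ring
  | succ n ih =>
    rw [pow_succ' (a • (U : A) + b • V), mul_assoc, ih, mul_smul_comm, mul_sum]
    simp only [mul_smul_comm, theta_mul_E hζ0 hVU, smul_add, smul_smul, sum_add_distrib]
    rw [← Nat.add_assoc, sum_range_succ' (fun t => (((b / a) ^ t * qc l ζ i j (n + 1) t) •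
      E U V (i - 1 + ((n + 1 : ℕ) : ℤ) - t) (j + t)))]
    simp only [smul_add, smul_sum, smul_smul]
    have hA : ∑ t ∈ range (l - j + n), (a ^ n * a⁻¹ * ((b / a) ^ t * qc l ζ i j n t * a)) •
        E U V (i - 1 + n - t + 1) (j + t) =
        ∑ t ∈ range (l - j + n), (a ^ (n + 1) * a⁻¹ * ((b / a) ^ (t + 1) * qc l ζ i j n (t + 1))) •
          E U V (i - 1 + ((n + 1 : ℕ) : ℤ) - ((t + 1 : ℕ) : ℤ)) (j + (t + 1)) +
        (a ^ (n + 1) * a⁻¹ * ((b / a) ^ 0 * qc l ζ i j n 0)) •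
          E U V (i - 1 + ((n + 1 : ℕ) : ℤ) - ((0 : ℕ) : ℤ)) (j + 0) := by
      rw [← sum_range_succ' (fun t => (a ^ (n + 1) * a⁻¹ * ((b / a) ^ t * qc l ζ i j n t)) •
        E U V (i - 1 + ((n + 1 : ℕ) : ℤ) - t) (j + t)), sum_range_succ,
        qc_eq_zero l ζ i j n _ le_rfl, mul_zero, mul_zero, zero_smul, add_zero]
      refine sum_congr rfl fun t _ => ?_
      congr 1
      · ring
      · congr 1; push_cast; ring
    rw [hA, add_right_comm, ← sum_add_distrib]
    congr 1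
    · refine sum_congr rfl fun t _ => ?_
      have e : i - 1 + (n : ℤ) - t = i - 1 + ((n + 1 : ℕ) : ℤ) - ((t + 1 : ℕ) : ℤ) := by
        push_cast; ring
      rw [← e, ← add_assoc, ← add_smul]
      congr 1
      have hb : b = b / a * a := (div_mul_cancel₀ b ha).symm
      simp only [qc]
      generalize b / a = c at hb ⊢
      rw [hb]; ring

/-- The polynomial in `ζ ^ i` giving `qc` below the truncation. -/
noncomputable def qp (ζ : F) (j : ℕ) : ℕ → ℕ → F[X]
  | 0, t => C (∏ r ∈ range (t + 1), (1 - ζ ^ (j + r))⁻¹) *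
      ∏ r ∈ range t, (1 - C (ζ ^ (-1 - (r : ℤ))) * X)
  | n + 1, 0 => qp ζ j n 0
  | n + 1, t + 1 => qp ζ j n (t + 1) + C (ζ ^ ((n : ℤ) - 1 - t)) * X * qp ζ j n t

lemma qc_eq_eval (hζ0 : ζ ≠ 0) (l : ℕ) (i : ℤ) (j : ℕ) :
    ∀ n t, t < l - j → qc l ζ i j n t = (qp ζ j n t).eval (ζ ^ i) := by
  intro n
  induction n with
  | zero =>
    intro t
    induction t with
    | zero => intro h; simp [qc, qp, pc, h]
    | succ t ih =>
      intro h
      have ih := ih (by omega)
      simp only [qc, qp, if_pos (show t < l - j by omega), eval_mul, eval_C] at ih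
      simp only [qc, qp, if_pos h, pc, eval_mul, eval_C, prod_range_succ _ (t + 1),
        prod_range_succ _ t, eval_sub, eval_one, eval_X]
      have e : ζ ^ (-1 - (t : ℤ)) * ζ ^ i = ζ ^ (i - 1 - (t : ℤ)) := by
        rw [← zpow_add₀ hζ0]; congr 1; ring
      rw [e, pow_succ, div_eq_mul_inv, ← add_assoc]
      rw [prod_range_succ _ t] at ih
      linear_combination (1 - ζ ^ (i - 1 - (t : ℤ))) * (1 - ζ ^ (j + t + 1))⁻¹ * ih
  | succ n ih =>
    intro t h
    cases t with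
    | zero => simpa [qc, qp] using ih 0 h
    | succ t =>
      simp only [qc, qp, eval_add, eval_mul, eval_C, eval_X, ih _ h, ih t (by omega)]
      rw [← zpow_add₀ hζ0, show (n : ℤ) - 1 - t + i = i - 1 + n - t by ring]

lemma qp_natDegree_le (ζ : F) (j : ℕ) : ∀ n t, (qp ζ j n t).natDegree ≤ t
  | 0, t => by
    refine (natDegree_C_mul_le _ _).trans ((natDegree_prod_le _ _).trans ?_)
    refine (sum_le_sum (g := fun _ => 1) fun r _ => ?_).trans (by simp)
    refine (natDegree_sub_le _ _).trans (max_le (by simp) ?_)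
    exact (natDegree_C_mul_le _ _).trans natDegree_X_le
  | n + 1, 0 => by simpa [qp] using qp_natDegree_le ζ j n 0
  | n + 1, t + 1 => by
    simp only [qp]
    refine (natDegree_add_le _ _).trans (max_le (qp_natDegree_le ζ j n (t + 1)) ?_)
    refine natDegree_mul_le.trans ?_
    have h1 : (C (ζ ^ ((n : ℤ) - 1 - t)) * X).natDegree ≤ 1 :=
      (natDegree_C_mul_le _ _).trans natDegree_X_le
    have := qp_natDegree_le ζ j n t
    omega

lemma qp_eval_zero (ζ : F) (j : ℕ) :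
    ∀ n t, (qp ζ j n t).eval 0 = ∏ r ∈ range (t + 1), (1 - ζ ^ (j + r))⁻¹
  | 0, t => by simp [qp, eval_prod]
  | n + 1, 0 => by simpa [qp] using qp_eval_zero ζ j n 0
  | n + 1, t + 1 => by simp [qp, qp_eval_zero ζ j n (t + 1)]

/-- Few roots of unity kill the polynomial. -/
lemma card_bad (hζ : IsPrimitiveRoot ζ l) {j k : ℕ} (hj : 0 < j) (hjk : j + k < l) (n M : ℕ)
    (hM : M ≤ l) [DecidablePred fun i : ℕ => (qp ζ j n k).eval (ζ ^ (i : ℤ)) = 0] :
    ((range M).filter fun i : ℕ => (qp ζ j n k).eval (ζ ^ (i : ℤ)) = 0).card ≤ k := by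
  classical
  have hp : qp ζ j n k ≠ 0 := fun h => by
    have h0 := qp_eval_zero ζ j n k
    rw [h, eval_zero] at h0
    refine Finset.prod_ne_zero_iff.2 (fun r hr => inv_ne_zero (one_sub_ne hζ (by omega) ?_)) h0.symm
    have := mem_range.1 hr
    omega
  refine le_trans (card_le_card_of_injOn (t := (qp ζ j n k).roots.toFinset)
    (fun i : ℕ => ζ ^ i) ?_ ?_)
    ((Multiset.toFinset_card_le _).trans ((card_roots' _).trans (qp_natDegree_le ζ j n k)))
  · intro i hi
    simpa [hp] using (mem_filter.1 hi).2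
  · intro x hx y hy h
    have hx := mem_range.1 (mem_filter.1 hx).1
    have hy := mem_range.1 (mem_filter.1 hy).1
    exact hζ.pow_inj (by omega) (by omega) h

/-- A monomial of arbitrary exponents is a scalar multiple of a reduced one. -/
lemma E_red {u v : F} (hu : u ≠ 0) (hUl : (U : A) ^ l = algebraMap F A u)
    (hVl : V ^ l = algebraMap F A v) (hl : l ≠ 0) (z : ℤ) (t : ℕ) :
    E U V z t = (u ^ (z / (l : ℤ)) * v ^ (t / l)) • ((U : A) ^ (z % (l : ℤ)).toNat * V ^ (t % l)) := by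
  have h1 : U ^ l = Units.map (algebraMap F A).toMonoidHom (Units.mk0 u hu) :=
    Units.ext (by simpa using hUl)
  have h0 : 0 ≤ z % (l : ℤ) := Int.emod_nonneg _ (by exact_mod_cast hl)
  have h2 : ((U ^ z : Aˣ) : A) = u ^ (z / (l : ℤ)) • (U : A) ^ (z % (l : ℤ)).toNat := by
    conv_lhs => rw [← Int.mul_ediv_add_emod z l, ← Int.toNat_of_nonneg h0]
    rw [zpow_add, zpow_mul, zpow_natCast, zpow_natCast, h1, ← map_zpow, Units.val_mul,
      Units.coe_map, Units.val_zpow_eq_zpow_val, Units.val_mk0, Units.val_pow_eq_pow_val]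
    exact (Algebra.smul_def _ _).symm
  have h3 : V ^ t = v ^ (t / l) • V ^ (t % l) := by
    conv_lhs => rw [← Nat.div_add_mod t l]
    rw [pow_add, pow_mul, hVl, ← map_pow, Algebra.smul_def]
  rw [E, h2, h3, smul_mul_smul_comm]

/-- Many monomials survive in the lowest coefficient. -/
lemma card_good (hζ : IsPrimitiveRoot ζ l) {g n k : ℕ} (hk : k < g) (hl : 5 * g ≤ l) :
    ∃ G : Finset (ℕ × ℕ), (l - 3 * g) * (l - 2 * g) ≤ G.card ∧ ∀ p ∈ G, p.1 + g < l ∧ g ≤ p.2 ∧
      p.2 + 2 * g ≤ l ∧ (qp ζ p.2 n k).eval (ζ ^ (p.1 : ℤ)) ≠ 0 := by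
  classical
  let bad : ℕ × ℕ → Prop := fun p => (qp ζ p.2 n k).eval (ζ ^ (p.1 : ℤ)) = 0
  refine ⟨(range (l - g) ×ˢ Icc g (l - 2 * g)).filter fun p => ¬ bad p, ?_, fun p hp => ?_⟩
  · have hB : ((range (l - g) ×ˢ Icc g (l - 2 * g)).filter bad).card ≤
        (Icc g (l - 2 * g)).card * k := by
      refine (card_le_card (t := (Icc g (l - 2 * g)).biUnion fun j =>
        ((range (l - g)).filter fun i => bad (i, j)).image fun i => (i, j)) ?_).trans
        (card_biUnion_le_card_mul _ _ _ fun j hj => card_image_le.trans ?_)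
      · intro p hp
        obtain ⟨h1, h2⟩ := mem_filter.1 hp
        obtain ⟨h3, h4⟩ := mem_product.1 h1
        exact mem_biUnion.2 ⟨p.2, h4, mem_image.2 ⟨p.1, mem_filter.2 ⟨h3, h2⟩, rfl⟩⟩
      · have := mem_Icc.1 hj
        exact card_bad hζ (by omega) (by omega) n _ (by omega)
    have h := card_filter_add_card_filter_not (s := range (l - g) ×ˢ Icc g (l - 2 * g)) bad
    rw [card_product, card_range, Nat.card_Icc] at h
    rw [Nat.card_Icc] at hB
    have e : (l - 2 * g + 1 - g) * k + (l - 3 * g) * (l - 2 * g) ≤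
        (l - g) * (l - 2 * g + 1 - g) := by
      calc (l - 2 * g + 1 - g) * k + (l - 3 * g) * (l - 2 * g)
          ≤ (l - 2 * g + 1 - g) * g + (l - 2 * g + 1 - g) * (l - 2 * g) :=
            add_le_add (Nat.mul_le_mul_left _ hk.le) (Nat.mul_le_mul_right _ (by omega))
        _ = _ := by rw [← mul_add, mul_comm]; congr 1; omega
    omega
  · obtain ⟨h1, h2⟩ := mem_filter.1 hp
    obtain ⟨h3, h4⟩ := mem_product.1 h1
    have := mem_range.1 h3
    have := mem_Icc.1 h4
    exact ⟨by omega, by omega, by omega, h2⟩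

/-- **The rank lemma.** -/
theorem exists_injective (hζ : IsPrimitiveRoot ζ l) (hVU : V * (U : A) = ζ • ((U : A) * V)) {u v : F}
    (hUl : (U : A) ^ l = algebraMap F A u) (hVl : V ^ l = algebraMap F A v)
    (hind : LinearIndependent F fun p : Fin l × Fin l => (U : A) ^ (p.1 : ℕ) * V ^ (p.2 : ℕ))
    {g : ℕ} (hl : 5 * g ≤ l) (a b : Fin g → F) (ha : ∀ K, a K ≠ 0)
    (hinj : Function.Injective fun K => b K / a K) (w : Fin g → Fin g → F)
    (hw : ∃ K n, w K n ≠ 0) :
    ∃ (W : Submodule F A) (ξ : Fin g → W →ₗ[F] A),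
      (l - 3 * g) * (l - 2 * g) ≤ finrank F W + g * l ∧
      (∀ K (x : W), (a K • (U : A) + b K • V) * ξ K x - ξ K x * (a K • (U : A) + b K • V) = x) ∧
      Function.Injective fun x : W =>
        ∑ K, ∑ n : Fin g, w K n • ((a K • (U : A) + b K • V) ^ (n : ℕ) * ξ K x) := by
  classical
  obtain ⟨K₀, n₁, hw⟩ := hw
  have hg : 0 < g := K₀.pos
  have hl0 : l ≠ 0 := by omega
  have hζ0 : ζ ≠ 0 := hζ.ne_zero hl0
  let p₀ : Fin l × Fin l := (⟨0, by omega⟩, ⟨0, by omega⟩)
  have : Nontrivial A := ⟨⟨(U : A) ^ (p₀.1 : ℕ) * V ^ (p₀.2 : ℕ), 0, hind.ne_zero p₀⟩⟩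
  have hu : u ≠ 0 := fun h => by
    have := (U ^ l).ne_zero
    rw [Units.val_pow_eq_pow_val, hUl, h, map_zero] at this
    exact this rfl
  -- the lowest surviving coefficient
  let h : Fin g → ℕ → F := fun n t => ∑ K, w K n * (a K ^ (n : ℕ) * (a K)⁻¹) * (b K / a K) ^ t
  have hex : ∃ k, ∃ n, h n k ≠ 0 ∧ k < g := by
    by_contra hc
    push Not at hc
    have hz := Matrix.eq_zero_of_forall_pow_sum_mul_pow_eq_zero hinj
      (v := fun K => w K n₁ * (a K ^ (n₁ : ℕ) * (a K)⁻¹)) fun t =>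
        not_not.1 fun hne => absurd (hc t n₁ hne) (not_le.2 t.isLt)
    exact mul_ne_zero hw (mul_ne_zero (pow_ne_zero _ (ha _)) (inv_ne_zero (ha _))) (congrFun hz K₀)
  obtain ⟨n₂, hn₂, hk0⟩ := Nat.find_spec hex
  have hmin : ∀ n t, t < Nat.find hex → h n t = 0 := fun n t ht =>
    not_not.1 fun hne => Nat.find_min hex ht ⟨n, hne, by omega⟩
  generalize Nat.find hex = k₀ at hn₂ hk0 hmin
  obtain ⟨n₀, hn₀, hmax⟩ := (univ.filter fun n => h n k₀ ≠ 0).exists_max_image id
    ⟨n₂, mem_filter.2 ⟨mem_univ _, hn₂⟩⟩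
  replace hn₀ := (mem_filter.1 hn₀).2
  obtain ⟨G, hG, hGp⟩ := card_good hζ (n := (n₀ : ℕ)) hk0 hl
  -- coordinates
  let bvec : Fin l × Fin l → A := fun p => (U : A) ^ (p.1 : ℕ) * V ^ (p.2 : ℕ)
  obtain ⟨L, hL⟩ := (Fintype.linearCombination F bvec).exists_leftInverse_of_injective
    (LinearMap.ker_eq_bot.2 (linearIndependent_iff_injective_fintypeLinearCombination.1 hind))
  let fi : ℤ → Fin l := fun z => ⟨(z % (l : ℤ)).toNat, by
    have h1 := Int.emod_lt_of_pos z (show (0 : ℤ) < l by omega)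
    omega⟩
  let fj : ℕ → Fin l := fun t => ⟨t % l, Nat.mod_lt _ (by omega)⟩
  have hLE : ∀ z t, L (E U V z t) =
      (u ^ (z / (l : ℤ)) * v ^ (t / l)) • Pi.single (fi z, fj t) (1 : F) := fun z t => by
    rw [E_red hu hUl hVl hl0, map_smul]
    congr 1
    have := LinearMap.congr_fun hL (Pi.single (fi z, fj t) 1)
    rwa [LinearMap.comp_apply, LinearMap.id_apply, Fintype.linearCombination_apply_single,
      one_smul] at this
  have hin : ∀ p : G, p.1.1 + g < l ∧ g ≤ p.1.2 ∧ p.1.2 + 2 * g ≤ l ∧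
      (qp ζ p.1.2 n₀ k₀).eval (ζ ^ (p.1.1 : ℤ)) ≠ 0 := fun p => hGp p p.2
  let Φ : (G → F) →ₗ[F] A := Fintype.linearCombination F fun p : G => E U V p.1.1 p.1.2
  have hΦ : Function.Injective Φ := linearIndependent_iff_injective_fintypeLinearCombination.1 <| by
    have h1 := hind.comp (fun p : G => ((⟨p.1.1, by have := hin p; omega⟩,
      ⟨p.1.2, by have := hin p; omega⟩) : Fin l × Fin l)) fun p q e => by
        simp only [Prod.mk.injEq, Fin.mk.injEq] at e
        exact Subtype.ext (Prod.ext e.1 e.2)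
    convert h1 using 1
    funext p
    simp [E, zpow_natCast, Units.val_pow_eq_pow_val]
  let Ξ : Fin g → (G → F) →ₗ[F] A := fun K =>
    Fintype.linearCombination F fun p : G => xi U V l ζ (a K) (b K) p.1.1 p.1.2
  let R : Submodule F A := Submodule.span F (Set.range fun i : Fin l => (U : A) ^ (i : ℕ))
  have hres : ∀ K c, (a K • (U : A) + b K • V) * Ξ K c - Ξ K c * (a K • (U : A) + b K • V) - Φ c =
      ∑ p : G, c p • res l ζ (a K) (b K) p.1.1 p.1.2 •
        E U V ((p.1.1 : ℤ) - 1 - ↑(l - 1 - p.1.2)) l := by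
    intro K c
    simp only [Ξ, Φ, Fintype.linearCombination_apply, mul_sum, sum_mul, mul_smul_comm,
      smul_mul_assoc, ← sum_sub_distrib, ← smul_sub]
    refine sum_congr rfl fun p _ => ?_
    have := hin p
    rw [ad_xi hζ hVU (ha K) _ _ (by omega) (by omega), add_sub_cancel_left]
  let ρ : (G → F) →ₗ[F] Fin g → R := LinearMap.pi fun K =>
    ((LinearMap.mulLeft F (a K • (U : A) + b K • V) -
      LinearMap.mulRight F (a K • (U : A) + b K • V)) ∘ₗ Ξ K - Φ).codRestrict R fun c => by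
      simp only [LinearMap.sub_apply, LinearMap.comp_apply, LinearMap.mulLeft_apply,
        LinearMap.mulRight_apply, hres]
      refine sum_mem fun p _ => R.smul_mem _ (R.smul_mem _ ?_)
      rw [E_red hu hUl hVl hl0, Nat.mod_self, pow_zero, mul_one]
      exact R.smul_mem _ (Submodule.subset_span ⟨fi _, rfl⟩)
  let e := Submodule.equivMapOfInjective Φ hΦ (LinearMap.ker ρ)
  refine ⟨(LinearMap.ker ρ).map Φ, fun K => Ξ K ∘ₗ (LinearMap.ker ρ).subtype ∘ₗ e.symm.toLinearMap,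
    ?_, fun K x => ?_, ?_⟩
  · have : FiniteDimensional F R := FiniteDimensional.span_of_finite F (Set.finite_range _)
    have h1 := ρ.finrank_range_add_finrank_ker
    have h2 := Submodule.finrank_le (LinearMap.range ρ)
    have h3 : finrank F R ≤ l := (finrank_range_le_card _).trans (le_of_eq (Fintype.card_fin l))
    rw [finrank_pi_fintype, sum_const, card_univ, Fintype.card_fin, smul_eq_mul] at h2
    rw [finrank_fintype_fun_eq_card, Fintype.card_coe] at h1
    have h4 : finrank F ((LinearMap.ker ρ).map Φ) = finrank F (LinearMap.ker ρ) :=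
      e.symm.finrank_eq
    rw [h4]
    have := Nat.mul_le_mul_left g h3
    omega
  · have h1 := congrFun (LinearMap.mem_ker.1 (e.symm x).2) K
    have h2 : Φ (e.symm x : G → F) = (x : A) :=
      Submodule.map_equivMapOfInjective_symm_apply _ _ _ x
    have h3 := congrArg Subtype.val h1
    simp only [ρ, LinearMap.pi_apply, LinearMap.codRestrict_apply, LinearMap.sub_apply,
      LinearMap.comp_apply, LinearMap.mulLeft_apply, LinearMap.mulRight_apply, Pi.zero_apply,
      ZeroMemClass.coe_zero, sub_eq_zero, h2] at h3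
    exact h3
  -- injectivity
  let S : (G → F) →ₗ[F] A := ∑ K, ∑ n : Fin g,
    w K n • ((LinearMap.mulLeft F ((a K • (U : A) + b K • V) ^ (n : ℕ))) ∘ₗ Ξ K)
  suffices hS : ∀ c, S c = 0 → c = 0 by
    intro x y hxy
    have : ((e.symm x : _) : G → F) = (e.symm y : G → F) := by
      rw [← sub_eq_zero]
      refine hS _ ?_
      simp only [map_sub, sub_eq_zero]
      simpa [S] using hxy
    exact e.symm.injective (Subtype.ext this)
  intro c hc
  by_contra hne
  obtain ⟨q, hq⟩ := Function.ne_iff.1 hne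
  let supp := univ.filter fun p : G => c p ≠ 0
  have hsupp : supp.Nonempty := ⟨q, mem_filter.2 ⟨mem_univ _, hq⟩⟩
  obtain ⟨q₁, hq₁, hjmin⟩ := supp.exists_min_image (fun p => p.1.2) hsupp
  obtain ⟨q₀, hq₀, himax⟩ := (supp.filter fun p => p.1.2 = q₁.1.2).exists_max_image (fun p => p.1.1)
    ⟨q₁, mem_filter.2 ⟨hq₁, rfl⟩⟩
  obtain ⟨hq₀, hq₀j⟩ := mem_filter.1 hq₀
  replace hq₀ : c q₀ ≠ 0 := (mem_filter.1 hq₀).2
  let z₀ : ℤ := (q₀.1.1 : ℤ) - 1 + (n₀ : ℕ) - k₀
  let T : Fin l × Fin l := (fi z₀, fj (q₀.1.2 + k₀))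
  let term : G → Fin g → ℕ → F := fun p n t => c p * h n t * qc l ζ p.1.1 p.1.2 n t *
    L (E U V ((p.1.1 : ℤ) - 1 + (n : ℕ) - t) (p.1.2 + t)) T
  have hexp : L (S c) T = ∑ p : G, ∑ n : Fin g, ∑ t ∈ range (l - p.1.2 + n), term p n t := by
    simp only [S, Ξ, term, h, LinearMap.sum_apply, LinearMap.smul_apply, LinearMap.comp_apply,
      LinearMap.mulLeft_apply, Fintype.linearCombination_apply, mul_sum,
      pow_mul_xi hζ0 hVU (ha _), smul_sum, smul_smul, map_sum, map_smul, Finset.sum_apply,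
      Pi.smul_apply, smul_eq_mul, sum_mul]
    refine sum_comm.trans ?_
    refine (sum_congr rfl fun n _ => sum_comm).trans (sum_comm.trans ?_)
    refine sum_congr rfl fun p _ => sum_congr rfl fun n _ => sum_comm.trans ?_
    exact sum_congr rfl fun t _ => sum_congr rfl fun K _ => by ring
  have hzero : ∀ (p : G) (n : Fin g) t, t < l - p.1.2 + n → term p n t ≠ 0 → p = q₀ ∧ n = n₀ ∧ t = k₀ := by
    intro p n t ht hne
    simp only [term, mul_ne_zero_iff, hLE, Pi.smul_apply, smul_eq_mul, Pi.single_apply, T,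
      Prod.mk.injEq, ne_eq, ite_eq_right_iff, one_ne_zero, imp_false, not_not, fi, fj,
      Fin.mk.injEq] at hne
    obtain ⟨⟨⟨hcp, hh⟩, -⟩, -, hzi, htj⟩ := hne
    have hp := hin p
    have hp0 := hin q₀
    have hj : q₀.1.2 ≤ p.1.2 := hq₀j ▸ hjmin p (mem_filter.2 ⟨mem_univ _, hcp⟩)
    have hn := n.isLt
    rw [Nat.mod_eq_of_lt (show q₀.1.2 + k₀ < l by omega)] at htj
    have hlt : p.1.2 + t < l := by
      by_contra hge
      rw [Nat.mod_eq_sub_mod (by omega), Nat.mod_eq_of_lt (by omega)] at htj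
      omega
    rw [Nat.mod_eq_of_lt hlt] at htj
    have htk : t = k₀ := le_antisymm (by omega) (not_lt.1 fun hlt => hh (hmin n t hlt))
    subst htk
    have hpj : p.1.2 = q₁.1.2 := by omega
    have hi := himax p (mem_filter.2 ⟨mem_filter.2 ⟨mem_univ _, hcp⟩, hpj⟩)
    have hnn : n ≤ n₀ := hmax n (mem_filter.2 ⟨mem_univ _, hh⟩)
    have hz1 : ((p.1.1 : ℤ) - 1 + (n : ℕ) - t) % (l : ℤ) = z₀ % (l : ℤ) := by
      have h1 := Int.emod_nonneg ((p.1.1 : ℤ) - 1 + (n : ℕ) - t) (show (l : ℤ) ≠ 0 by omega)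
      have h2 := Int.emod_nonneg z₀ (show (l : ℤ) ≠ 0 by omega)
      omega
    have hdvd := Int.emod_eq_emod_iff_emod_sub_eq_zero.1 hz1.symm
    rw [Int.emod_eq_of_lt (by simp only [z₀]; omega) (by simp only [z₀]; omega)] at hdvd
    simp only [z₀] at hdvd
    have hn' : (n : ℕ) ≤ n₀ := hnn
    exact ⟨Subtype.ext (Prod.ext (by omega) (by omega)), Fin.ext (by omega), rfl⟩
  have hk : k₀ < l - q₀.1.2 := by have := hin q₀; omega
  have hval : L (S c) T = term q₀ n₀ k₀ := by
    rw [hexp, sum_eq_single q₀, sum_eq_single n₀, sum_eq_single k₀]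
    · exact fun t ht htne => not_not.1 fun h' => htne (hzero _ _ _ (mem_range.1 ht) h').2.2
    · exact fun h' => absurd (mem_range.2 (by omega)) h'
    · exact fun n _ hne => sum_eq_zero fun t ht =>
        not_not.1 fun h' => hne (hzero _ _ _ (mem_range.1 ht) h').2.1
    · exact fun h' => absurd (mem_univ _) h'
    · exact fun p _ hne => sum_eq_zero fun n _ => sum_eq_zero fun t ht =>
        not_not.1 fun h' => hne (hzero _ _ _ (mem_range.1 ht) h').1
    · exact fun h' => absurd (mem_univ _) h'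
  rw [hc, map_zero, Pi.zero_apply] at hval
  refine (ne_of_eq_of_ne rfl ?_ : term q₀ n₀ k₀ ≠ 0) hval.symm
  have hp0 := hin q₀
  have hdiv : (q₀.1.2 + k₀) / l = 0 := Nat.div_eq_of_lt (by omega)
  simp only [term, mul_ne_zero_iff, hLE, Pi.smul_apply, smul_eq_mul, T, z₀, Pi.single_eq_same,
    hdiv, pow_zero, mul_one, qc_eq_eval hζ0 l _ _ _ _ hk]
  exact ⟨⟨⟨hq₀, hn₀⟩, hp0.2.2.2⟩, zpow_ne_zero _ hu⟩

/-- The rank version: an injective map paired against a subspace of small codimension. -/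
theorem finrank_range_pairing {W X M : Type*} [AddCommGroup W] [Module F W] [AddCommGroup M]
    [Module F M] [FiniteDimensional F W] [FiniteDimensional F M] [AddCommGroup X] [Module F X]
    (τ : M →ₗ[F] Module.Dual F M) (hτ : Function.Injective τ) (S : W →ₗ[F] M)
    (hS : Function.Injective S) (i : X →ₗ[F] M) :
    finrank F W + finrank F (LinearMap.range i) ≤
      finrank F (LinearMap.range (i.dualMap ∘ₗ τ ∘ₗ S)) + finrank F M := by
  have h1 := (i.dualMap ∘ₗ τ ∘ₗ S).finrank_range_add_finrank_ker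
  have h2 : finrank F (LinearMap.ker (i.dualMap ∘ₗ τ ∘ₗ S)) ≤
      finrank F (LinearMap.ker i.dualMap) := by
    refine LinearMap.finrank_le_finrank_of_injective
      (f := (τ ∘ₗ S).restrict fun x hx => LinearMap.mem_ker.2 (LinearMap.mem_ker.1 hx)) ?_
    exact fun x y hxy => Subtype.ext ((hτ.comp hS) (congrArg Subtype.val hxy))
  rw [LinearMap.ker_dualMap_eq_dualAnnihilator_range] at h2
  have h3 := Subspace.finrank_add_finrank_dualAnnihilator_eq (LinearMap.range i)
  omega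

end Vale.P199.Rank
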