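import Vale.Agent.P199.QBinom
import Vale.Agent.P199.Rank

/-!
# P199: freeze and rank over the field of the classes

The classes of a new row are the embeddings of a field `F` over the centre `K`, so the `g = [F : K]`
symbol algebras become one symbol algebra over `F` with `θ = α • U + β • V`, `F = K(β / α)`, and the
sum over the classes becomes a nonzero functional `φ` on `F`. With `ψ` the coordinates followed by
`φ`: the `z` in the powers of `θ` killed by `ψ` span at most `g ^ 2` dimensions, and a nonzero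
`∑ w n • θ ^ n` pairs injectively with preimages under `ad θ` on a large space of real vectors.
-/

namespace Vale.P199.FreezeField

open Module Finset Polynomial Vale.P199.Rank

variable {K F A : Type*} [Field K] [Field F] [Algebra K F] [Ring A] [Algebra F A] [Algebra K A]
  [IsScalarTower K F A] {U : Aˣ} {V : A} {l : ℕ} {ζ : K}

lemma pc_map (ζ : K) (i : ℤ) (j : ℕ) :
    ∀ t, pc (algebraMap K F ζ) i j t = algebraMap K F (pc ζ i j t)
  | 0 => by simp [pc, map_inv₀]
  | t + 1 => by simp [pc, pc_map ζ i j t, map_div₀, map_zpow₀]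

lemma qc_map (ζ : K) (i : ℤ) (j : ℕ) :
    ∀ n t, qc l (algebraMap K F ζ) i j n t = algebraMap K F (qc l ζ i j n t)
  | 0, t => by
    simp only [qc, pc_map]
    split <;> simp
  | n + 1, 0 => by simp [qc, qc_map ζ i j n 0]
  | n + 1, t + 1 => by simp [qc, qc_map ζ i j n (t + 1), qc_map ζ i j n t, map_zpow₀]

lemma qb_map (ζ : K) :
    ∀ n i, QBinom.qb (algebraMap K F ζ) n i = algebraMap K F (QBinom.qb ζ n i)
  | _, 0 => by simp
  | 0, _ + 1 => by simp [QBinom.qb]
  | n + 1, i + 1 => by simp [QBinom.qb, qb_map ζ n i, qb_map ζ n (i + 1)]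

variable (bas : Basis (Fin l × Fin l) F A) (φ : F →ₗ[K] K)

/-- The coordinates followed by the functional. -/
noncomputable def psi : A →ₗ[K] Fin l × Fin l → K :=
  LinearMap.pi fun q => φ ∘ₗ ((bas.coord q).restrictScalars K)

lemma psi_apply (x : A) (q : Fin l × Fin l) : psi bas φ x q = φ (bas.repr x q) := rfl

/-- A nonzero functional does not vanish on all multiples of `c ≠ 0` by low powers of a generator. -/
lemma exists_phi_pow_ne_zero {φ : F →ₗ[K] K} (hφ : φ ≠ 0) {c ρ : F} (hc : c ≠ 0) {g : ℕ}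
    (hρ : Submodule.span K (Set.range fun t : Fin g => ρ ^ (t : ℕ)) = ⊤) :
    ∃ t : Fin g, φ (c * ρ ^ (t : ℕ)) ≠ 0 := by
  by_contra hcon
  push Not at hcon
  refine hφ (LinearMap.ext fun x => ?_)
  have h : φ ∘ₗ LinearMap.mulLeft K c = 0 := LinearMap.ext_on_range hρ fun t => by simpa using hcon t
  simpa [mul_div_cancel₀ x hc] using LinearMap.congr_fun h (x / c)

variable (hζ : IsPrimitiveRoot ζ l) (hVU : V * (U : A) = algebraMap K F ζ • ((U : A) * V))
  (hbas : ∀ p, bas p = (U : A) ^ (p.1 : ℕ) * V ^ (p.2 : ℕ))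
  {α β : F} (hα : α ≠ 0) {g : ℕ}
  (hρ : Submodule.span K (Set.range fun t : Fin g => (β / α) ^ (t : ℕ)) = ⊤)

include hζ hVU hbas hα hρ

/-- The new covectors vanish in degree `≥ g - 1`. -/
theorem coeff_eq_zero (hφ : φ ≠ 0) {f₀ : F} (hf₀ : f₀ ≠ 0) (z : Fin l → F)
    (hz : psi bas φ (f₀ • ∑ n : Fin l, z n • (α • (U : A) + β • V) ^ (n : ℕ)) = 0)
    (n : Fin l) (hn : g ≤ (n : ℕ) + 1) : z n = 0 := by
  classical
  by_contra hne
  obtain ⟨t, ht⟩ := exists_phi_pow_ne_zero hφ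
    (show f₀ * z n * α ^ (n : ℕ) ≠ 0 from mul_ne_zero (mul_ne_zero hf₀ hne) (pow_ne_zero _ hα)) hρ
  have ht' : (t : ℕ) ≤ n := by omega
  set i : ℕ := (n : ℕ) - t with hi
  have hil : i < l := by omega
  have key : bas.repr (f₀ • ∑ m : Fin l, z m • (α • (U : A) + β • V) ^ (m : ℕ))
      (⟨i, hil⟩, ⟨t, by omega⟩) =
      f₀ * (z n * (QBinom.qb (algebraMap K F ζ) n i * α ^ i * β ^ (t : ℕ))) := by
    have hterm : ∀ m : Fin l, ∀ k ∈ range ((m : ℕ) + 1),
        bas.repr ((U : A) ^ k * V ^ ((m : ℕ) - k)) (⟨i, hil⟩, ⟨t, by omega⟩) =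
          if m = n ∧ k = i then 1 else 0 := by
      intro m k hk
      have hk := mem_range.1 hk
      rw [← hbas (⟨k, by omega⟩, ⟨(m : ℕ) - k, by omega⟩), bas.repr_self, Finsupp.single_apply]
      refine if_congr ?_ rfl rfl
      simp only [Prod.mk.injEq, Fin.ext_iff]
      omega
    simp only [map_smul, map_sum, QBinom.add_pow_qb hVU, smul_sum, Finsupp.smul_apply,
      Finsupp.finsetSum_apply, smul_eq_mul]
    rw [sum_eq_single n, sum_eq_single i]
    · rw [hterm n i (mem_range.2 (by omega)), if_pos ⟨rfl, rfl⟩, mul_one,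
        show (n : ℕ) - i = t by omega]
    · intro k hk hki
      rw [hterm n k hk, if_neg fun h => hki h.2]
      simp
    · exact fun h => absurd (mem_range.2 (by omega)) h
    · intro m _ hmn
      refine sum_eq_zero fun k hk => ?_
      rw [hterm m k hk, if_neg fun h => hmn h.1]
      simp
    · exact fun h => absurd (mem_univ _) h
  have h := congrFun hz (⟨i, hil⟩, ⟨t, by omega⟩)
  rw [psi_apply, key, qb_map, Pi.zero_apply] at h
  have e : f₀ * (z n * (algebraMap K F (QBinom.qb ζ n i) * α ^ i * β ^ (t : ℕ))) =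
      QBinom.qb ζ n i • (f₀ * z n * α ^ (n : ℕ) * (β / α) ^ (t : ℕ)) := by
    rw [Algebra.smul_def, div_pow, show (n : ℕ) = i + t by omega, pow_add]
    field_simp
  rw [e, map_smul, smul_eq_mul] at h
  exact ht ((mul_eq_zero.1 h).resolve_left (QBinom.qb_ne_zero_of_primitive hζ n.2 (by omega)))

/-- At most `g ^ 2` dimensions of new covectors. -/
theorem finrank_relations_le [FiniteDimensional K F] (hg : finrank K F ≤ g) (hφ : φ ≠ 0) {f₀ : F}
    (hf₀ : f₀ ≠ 0) (N : Submodule K (Fin l → F))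
    (hN : ∀ z ∈ N, psi bas φ (f₀ • ∑ n : Fin l, z n • (α • (U : A) + β • V) ^ (n : ℕ)) = 0) :
    finrank K N ≤ g * g := by
  classical
  let f : N →ₗ[K] (Fin g → F) := LinearMap.pi fun m =>
    if h : (m : ℕ) < l then (LinearMap.proj (⟨m, h⟩ : Fin l) : (Fin l → F) →ₗ[K] F) ∘ₗ N.subtype
    else 0
  have hf : Function.Injective f := by
    refine (injective_iff_map_eq_zero f).2 fun z hz => Subtype.ext (funext fun n => ?_)
    by_cases hn : g ≤ (n : ℕ) + 1
    · exact coeff_eq_zero bas φ hζ hVU hbas hα hρ hφ hf₀ z (hN z z.2) n hn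
    · simpa [f, n.2] using congrFun hz ⟨n, by omega⟩
  refine (LinearMap.finrank_le_finrank_of_injective hf).trans ?_
  rw [finrank_pi_fintype, sum_const, card_univ, Fintype.card_fin, smul_eq_mul]
  exact Nat.mul_le_mul_left _ hg

/-- **The rank lemma over the field of the classes.** -/
theorem exists_injective [FiniteDimensional K F] (hg : finrank K F ≤ g) {u v : K}
    (hUl : (U : A) ^ l = algebraMap K A u) (hVl : V ^ l = algebraMap K A v) (hl : 5 * g ≤ l)
    (hφ : φ ≠ 0) (w : Fin g → F) (hw : ∃ n, w n ≠ 0) :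
    ∃ (W : Submodule K A) (ξ : W →ₗ[K] A),
      W ≤ Submodule.span K (Set.range bas) ∧
      (l - 3 * g) * (l - 2 * g) ≤ finrank K W + g * l ∧
      (∀ x : W, (α • (U : A) + β • V) * ξ x - ξ x * (α • (U : A) + β • V) = x) ∧
      Function.Injective fun x : W =>
        psi bas φ (∑ n : Fin g, w n • ((α • (U : A) + β • V) ^ (n : ℕ) * ξ x)) := by
  classical
  obtain ⟨n₁, hw⟩ := hw
  have hg0 : 0 < g := n₁.pos
  have hl0 : l ≠ 0 := by omega
  set ζ' : F := algebraMap K F ζ with hζ'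
  have hζF : IsPrimitiveRoot ζ' l := hζ.map_of_injective (algebraMap K F).injective
  have hζ0 : ζ' ≠ 0 := hζF.ne_zero hl0
  rw [IsScalarTower.algebraMap_apply K F A] at hUl hVl
  have : Nontrivial A := ⟨⟨bas (⟨0, by omega⟩, ⟨0, by omega⟩), 0, bas.ne_zero _⟩⟩
  have hu : algebraMap K F u ≠ 0 := fun h => by
    have := (U ^ l).ne_zero
    rw [Units.val_pow_eq_pow_val, hUl, h, map_zero] at this
    exact this rfl
  -- the lowest surviving coefficient
  let h : Fin g → ℕ → K := fun n t => φ (w n * (α ^ (n : ℕ) * α⁻¹) * (β / α) ^ t)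
  have hex : ∃ k, ∃ n, h n k ≠ 0 ∧ k < g := by
    obtain ⟨t, ht⟩ := exists_phi_pow_ne_zero hφ
      (mul_ne_zero hw (mul_ne_zero (pow_ne_zero (n₁ : ℕ) hα) (inv_ne_zero hα))) hρ
    exact ⟨t, n₁, ht, t.2⟩
  obtain ⟨n₂, hn₂, hk0⟩ := Nat.find_spec hex
  have hmin : ∀ n t, t < Nat.find hex → h n t = 0 := fun n t ht =>
    not_not.1 fun hne => Nat.find_min hex ht ⟨n, hne, by omega⟩
  generalize Nat.find hex = k₀ at hn₂ hk0 hmin
  obtain ⟨n₀, hn₀, hmax⟩ := (univ.filter fun n => h n k₀ ≠ 0).exists_max_image id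
    ⟨n₂, mem_filter.2 ⟨mem_univ _, hn₂⟩⟩
  replace hn₀ := (mem_filter.1 hn₀).2
  obtain ⟨G, hG, hGp⟩ := card_good hζ (n := (n₀ : ℕ)) hk0 hl
  -- coordinates
  let fi : ℤ → Fin l := fun z => ⟨(z % (l : ℤ)).toNat, by
    have h1 := Int.emod_lt_of_pos z (show (0 : ℤ) < l by omega)
    omega⟩
  let fj : ℕ → Fin l := fun t => ⟨t % l, Nat.mod_lt _ (by omega)⟩
  have hE : ∀ z t, E U V z t = (u ^ (z / (l : ℤ)) * v ^ (t / l)) • bas (fi z, fj t) := fun z t => by
    rw [E_red hu hUl hVl hl0, hbas, ← map_zpow₀, ← map_pow, ← map_mul, algebraMap_smul]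
  have hin : ∀ p : G, p.1.1 + g < l ∧ g ≤ p.1.2 ∧ p.1.2 + 2 * g ≤ l ∧
      (qp ζ p.1.2 n₀ k₀).eval (ζ ^ (p.1.1 : ℤ)) ≠ 0 := fun p => hGp p p.2
  let Φ : (G → K) →ₗ[K] A := Fintype.linearCombination K fun p : G => E U V p.1.1 p.1.2
  have hbE : ∀ p : G, E U V p.1.1 p.1.2 =
      bas (⟨p.1.1, by have := hin p; omega⟩, ⟨p.1.2, by have := hin p; omega⟩) := fun p => by
    rw [hbas, E, zpow_natCast, Units.val_pow_eq_pow_val]
  have hΦ : Function.Injective Φ := linearIndependent_iff_injective_fintypeLinearCombination.1 <| by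
    have h1 := (bas.linearIndependent.restrict_scalars
      (fun x y e => (algebraMap K F).injective (by simpa [Algebra.smul_def] using e))).comp
      (fun p : G => ((⟨p.1.1, by have := hin p; omega⟩,
      ⟨p.1.2, by have := hin p; omega⟩) : Fin l × Fin l)) fun p q e => by
        simp only [Prod.mk.injEq, Fin.mk.injEq] at e
        exact Subtype.ext (Prod.ext e.1 e.2)
    convert h1 using 1
    funext p
    exact hbE p
  let Ξ : (G → K) →ₗ[K] A :=
    Fintype.linearCombination K fun p : G => xi U V l ζ' α β p.1.1 p.1.2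
  let Rm : (Fin l → F) →ₗ[K] A :=
    (Fintype.linearCombination F fun i : Fin l => (U : A) ^ (i : ℕ)).restrictScalars K
  have hres : ∀ c, (α • (U : A) + β • V) * Ξ c - Ξ c * (α • (U : A) + β • V) - Φ c =
      ∑ p : G, c p • res l ζ' α β p.1.1 p.1.2 •
        E U V ((p.1.1 : ℤ) - 1 - ↑(l - 1 - p.1.2)) l := by
    intro c
    simp only [Ξ, Φ, Fintype.linearCombination_apply, mul_sum, sum_mul, mul_smul_comm,
      smul_mul_assoc, ← sum_sub_distrib, ← smul_sub]
    refine sum_congr rfl fun p _ => ?_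
    have := hin p
    rw [ad_xi hζF hVU hα _ _ (by omega) (by omega), add_sub_cancel_left]
  let ρ : (G → K) →ₗ[K] LinearMap.range Rm :=
    ((LinearMap.mulLeft K (α • (U : A) + β • V) - LinearMap.mulRight K (α • (U : A) + β • V)) ∘ₗ Ξ
      - Φ).codRestrict (LinearMap.range Rm) fun c => by
      simp only [LinearMap.sub_apply, LinearMap.comp_apply, LinearMap.mulLeft_apply,
        LinearMap.mulRight_apply, hres]
      refine sum_mem fun p _ => Submodule.smul_mem _ _ ?_
      rw [E_red hu hUl hVl hl0, Nat.mod_self, pow_zero, mul_one, smul_smul]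
      exact ⟨Pi.single (fi _) _, Fintype.linearCombination_apply_single _ _ _ _⟩
  let e := Submodule.equivMapOfInjective Φ hΦ (LinearMap.ker ρ)
  refine ⟨(LinearMap.ker ρ).map Φ, Ξ ∘ₗ (LinearMap.ker ρ).subtype ∘ₗ e.symm.toLinearMap,
    ?_, ?_, fun x => ?_, ?_⟩
  · rintro _ ⟨c, -, rfl⟩
    simp only [Φ, Fintype.linearCombination_apply, hbE]
    exact sum_mem fun p _ => Submodule.smul_mem _ _ (Submodule.subset_span ⟨_, rfl⟩)
  · have h1 := ρ.finrank_range_add_finrank_ker
    have h2 := Submodule.finrank_le (LinearMap.range ρ)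
    have h3 : finrank K (LinearMap.range Rm) ≤ l * g := by
      refine (LinearMap.finrank_range_le Rm).trans ?_
      rw [finrank_pi_fintype, sum_const, card_univ, Fintype.card_fin, smul_eq_mul]
      exact Nat.mul_le_mul_left _ hg
    rw [finrank_fintype_fun_eq_card, Fintype.card_coe] at h1
    rw [show finrank K ((LinearMap.ker ρ).map Φ) = finrank K (LinearMap.ker ρ) from e.symm.finrank_eq,
      mul_comm g l]
    omega
  · have h1 := congrArg Subtype.val (LinearMap.mem_ker.1 (e.symm x).2)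
    have h2 : Φ (e.symm x : G → K) = (x : A) :=
      Submodule.map_equivMapOfInjective_symm_apply _ _ _ x
    simp only [ρ, LinearMap.codRestrict_apply, LinearMap.sub_apply, LinearMap.comp_apply,
      LinearMap.mulLeft_apply, LinearMap.mulRight_apply, ZeroMemClass.coe_zero, sub_eq_zero, h2] at h1
    exact h1
  -- injectivity
  let S : (G → K) →ₗ[K] Fin l × Fin l → K := psi bas φ ∘ₗ ∑ n : Fin g,
    (DistribSMul.toLinearMap K A (w n)) ∘ₗ
      (LinearMap.mulLeft K ((α • (U : A) + β • V) ^ (n : ℕ))) ∘ₗ Ξ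
  suffices hS : ∀ c, S c = 0 → c = 0 by
    intro x y hxy
    have : ((e.symm x : _) : G → K) = (e.symm y : G → K) := by
      rw [← sub_eq_zero]
      refine hS _ ?_
      simp only [map_sub, sub_eq_zero]
      simpa [S, DistribSMul.toLinearMap_apply] using hxy
    exact e.symm.injective (Subtype.ext this)
  intro c hc
  by_contra hne
  obtain ⟨q, hq⟩ := Function.ne_iff.1 hne
  let supp := univ.filter fun p : G => c p ≠ 0
  obtain ⟨q₁, hq₁, hjmin⟩ := supp.exists_min_image (fun p => p.1.2)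
    ⟨q, mem_filter.2 ⟨mem_univ _, hq⟩⟩
  obtain ⟨q₀, hq₀, himax⟩ := (supp.filter fun p => p.1.2 = q₁.1.2).exists_max_image (fun p => p.1.1)
    ⟨q₁, mem_filter.2 ⟨hq₁, rfl⟩⟩
  obtain ⟨hq₀, hq₀j⟩ := mem_filter.1 hq₀
  replace hq₀ : c q₀ ≠ 0 := (mem_filter.1 hq₀).2
  let z₀ : ℤ := (q₀.1.1 : ℤ) - 1 + (n₀ : ℕ) - k₀
  let term : G → Fin g → ℕ → K := fun p n t => c p * h n t * qc l ζ p.1.1 p.1.2 n t *
    (u ^ (((p.1.1 : ℤ) - 1 + (n : ℕ) - t) / (l : ℤ)) * v ^ ((p.1.2 + t) / l)) *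
    if (fi ((p.1.1 : ℤ) - 1 + (n : ℕ) - t), fj (p.1.2 + t)) = (fi z₀, fj (q₀.1.2 + k₀)) then 1 else 0
  have hexp : S c (fi z₀, fj (q₀.1.2 + k₀)) =
      ∑ p : G, ∑ n : Fin g, ∑ t ∈ range (l - p.1.2 + n), term p n t := by
    simp only [S, Ξ, LinearMap.sum_apply, LinearMap.comp_apply, DistribSMul.toLinearMap_apply,
      LinearMap.mulLeft_apply, Fintype.linearCombination_apply, mul_smul_comm,
      psi_apply, map_sum, Finsupp.finsetSum_apply]
    rw [sum_comm]
    refine sum_congr rfl fun p _ => sum_congr rfl fun n _ => ?_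
    rw [pow_mul_xi hζ0 hVU hα]
    simp only [smul_sum, map_sum, Finsupp.finsetSum_apply, hζ', qc_map]
    refine sum_congr rfl fun t _ => ?_
    have e : φ (bas.repr (w n • c p • (α ^ (n : ℕ) * α⁻¹) •
        ((β / α) ^ t * algebraMap K F (qc l ζ p.1.1 p.1.2 n t)) •
          E U V ((p.1.1 : ℤ) - 1 + (n : ℕ) - t) (p.1.2 + t)) (fi z₀, fj (q₀.1.2 + k₀))) =
        term p n t := by
      rw [hE, ← algebraMap_smul F (c p), ← algebraMap_smul F (u ^ _ * v ^ _), smul_smul, smul_smul,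
        smul_smul, smul_smul, map_smul, Finsupp.smul_apply, bas.repr_self, Finsupp.single_apply,
        smul_eq_mul]
      simp only [term, h]
      split
      · rw [mul_one, mul_one, show w n * algebraMap K F (c p) * (α ^ (n : ℕ) * α⁻¹) *
            ((β / α) ^ t * algebraMap K F (qc l ζ p.1.1 p.1.2 n t)) *
            algebraMap K F (u ^ (((p.1.1 : ℤ) - 1 + (n : ℕ) - t) / (l : ℤ)) * v ^ ((p.1.2 + t) / l)) =
          (c p * qc l ζ p.1.1 p.1.2 n t *
            (u ^ (((p.1.1 : ℤ) - 1 + (n : ℕ) - t) / (l : ℤ)) * v ^ ((p.1.2 + t) / l))) •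
              (w n * (α ^ (n : ℕ) * α⁻¹) * (β / α) ^ t) by
            rw [Algebra.smul_def]; simp only [map_mul]; ring, map_smul, smul_eq_mul]
        ring
      · simp
    exact e
  have hzero : ∀ (p : G) (n : Fin g) t, t < l - p.1.2 + n → term p n t ≠ 0 →
      p = q₀ ∧ n = n₀ ∧ t = k₀ := by
    intro p n t ht hne
    simp only [term, mul_ne_zero_iff, ne_eq, ite_eq_right_iff, one_ne_zero, imp_false, not_not,
      Prod.mk.injEq, fi, fj, Fin.mk.injEq] at hne
    obtain ⟨⟨⟨⟨hcp, hh⟩, -⟩, -⟩, hzi, htj⟩ := hne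
    have hp := hin p
    have hp0 := hin q₀
    have hj : q₀.1.2 ≤ p.1.2 := hq₀j ▸ hjmin p (mem_filter.2 ⟨mem_univ _, hcp⟩)
    have hn := n.isLt
    rw [Nat.mod_eq_of_lt (show q₀.1.2 + k₀ < l by omega)] at htj
    have hlt : p.1.2 + t < l := by
      by_contra hge
      rw [Nat.mod_eq_sub_mod (by omega), Nat.mod_eq_of_lt (by omega)] at htj
      omega
    rw [Nat.mod_eq_of_lt hlt] at htj
    have htk : t = k₀ := le_antisymm (by omega) (not_lt.1 fun hlt => hh (hmin n t hlt))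
    subst htk
    have hpj : p.1.2 = q₁.1.2 := by omega
    have hi := himax p (mem_filter.2 ⟨mem_filter.2 ⟨mem_univ _, hcp⟩, hpj⟩)
    have hnn : (n : ℕ) ≤ n₀ := hmax n (mem_filter.2 ⟨mem_univ _, hh⟩)
    have hz1 : ((p.1.1 : ℤ) - 1 + (n : ℕ) - t) % (l : ℤ) = z₀ % (l : ℤ) := by
      have h1 := Int.emod_nonneg ((p.1.1 : ℤ) - 1 + (n : ℕ) - t) (show (l : ℤ) ≠ 0 by omega)
      have h2 := Int.emod_nonneg z₀ (show (l : ℤ) ≠ 0 by omega)
      omega
    have hdvd := Int.emod_eq_emod_iff_emod_sub_eq_zero.1 hz1.symm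
    rw [Int.emod_eq_of_lt (by simp only [z₀]; omega) (by simp only [z₀]; omega)] at hdvd
    simp only [z₀] at hdvd
    exact ⟨Subtype.ext (Prod.ext (by omega) (by omega)), Fin.ext (by omega), rfl⟩
  have hp0 := hin q₀
  have hk : k₀ < l - q₀.1.2 := by omega
  have hval : S c (fi z₀, fj (q₀.1.2 + k₀)) = term q₀ n₀ k₀ := by
    rw [hexp, sum_eq_single q₀, sum_eq_single n₀, sum_eq_single k₀]
    · exact fun t ht htne => not_not.1 fun h' => htne (hzero _ _ _ (mem_range.1 ht) h').2.2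
    · exact fun h' => absurd (mem_range.2 (by omega)) h'
    · exact fun n _ hne => sum_eq_zero fun t ht =>
        not_not.1 fun h' => hne (hzero _ _ _ (mem_range.1 ht) h').2.1
    · exact fun h' => absurd (mem_univ _) h'
    · exact fun p _ hne => sum_eq_zero fun n _ => sum_eq_zero fun t ht =>
        not_not.1 fun h' => hne (hzero _ _ _ (mem_range.1 ht) h').1
    · exact fun h' => absurd (mem_univ _) h'
  rw [hc, Pi.zero_apply] at hval
  refine (ne_of_eq_of_ne rfl ?_ : term q₀ n₀ k₀ ≠ 0) hval.symm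
  have hdiv : (q₀.1.2 + k₀) / l = 0 := Nat.div_eq_of_lt (by omega)
  simp only [term, z₀, hdiv, pow_zero, mul_one, if_true,
    qc_eq_eval (hζ.ne_zero hl0) l _ _ _ _ hk]
  exact mul_ne_zero (mul_ne_zero (mul_ne_zero hq₀ hn₀) hp0.2.2.2)
    (zpow_ne_zero _ fun h0 => hu (by rw [h0, map_zero]))

omit hα hρ in
/-- The coordinates are the pairings with the monomials by the coefficient of `1`. -/
theorem repr_mul_bas_eq {u v : K} (hl : l ≠ 0) (hu : u ≠ 0) (hv : v ≠ 0)
    (hUl : (U : A) ^ l = algebraMap K A u) (hVl : V ^ l = algebraMap K A v) (q : Fin l × Fin l) :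
    ∃ p : Fin l × Fin l, ∃ k : K, k ≠ 0 ∧ ∀ x : A,
      bas.repr (x * bas p) (⟨0, by omega⟩, ⟨0, by omega⟩) = algebraMap K F k * bas.repr x q := by
  classical
  set ζ' : F := algebraMap K F ζ with hζ'
  rw [IsScalarTower.algebraMap_apply K F A] at hUl hVl
  have huF : algebraMap K F u ≠ 0 := by simpa using hu
  let p : Fin l × Fin l := (⟨(l - (q.1 : ℕ)) % l, Nat.mod_lt _ (by omega)⟩,
    ⟨(l - (q.2 : ℕ)) % l, Nat.mod_lt _ (by omega)⟩)
  have hmul : ∀ r : Fin l × Fin l, bas r * bas p = (ζ' ^ ((r.2 : ℕ) * (p.1 : ℕ))) •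
      E U V (((r.1 : ℕ) + (p.1 : ℕ) : ℕ) : ℤ) ((r.2 : ℕ) + (p.2 : ℕ)) := by
    intro r
    have hs : V ^ (r.2 : ℕ) * (U : A) ^ (p.1 : ℕ) =
        ζ' ^ ((r.2 : ℕ) * (p.1 : ℕ)) • ((U : A) ^ (p.1 : ℕ) * V ^ (r.2 : ℕ)) := by
      induction (p.1 : ℕ) with
      | zero => simp
      | succ m ih =>
        rw [pow_succ, ← mul_assoc, ih, smul_mul_assoc, mul_assoc _ _ (U : A),
          QBinom.pow_mul_comm' hVU, mul_smul_comm, ← mul_assoc, smul_smul, ← pow_add]
        congr 2
    rw [hbas, hbas, E, zpow_natCast, Units.val_pow_eq_pow_val,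
      mul_assoc ((U : A) ^ (r.1 : ℕ)), ← mul_assoc (V ^ (r.2 : ℕ)), hs, smul_mul_assoc,
      mul_smul_comm, mul_assoc, ← mul_assoc ((U : A) ^ (r.1 : ℕ)), ← pow_add, ← pow_add]
  have hred : ∀ r : Fin l × Fin l, ∃ k : K, (r = q → k ≠ 0) ∧ (r ≠ q → k = 0) ∧
      bas.repr (bas r * bas p) (⟨0, by omega⟩, ⟨0, by omega⟩) = algebraMap K F k := by
    intro r
    rw [hmul, E_red huF hUl hVl hl, Int.ofNat_mod_ofNat, Int.toNat_natCast,
      ← hbas (⟨((r.1 : ℕ) + p.1) % l, Nat.mod_lt _ (by omega)⟩,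
        ⟨((r.2 : ℕ) + p.2) % l, Nat.mod_lt _ (by omega)⟩), map_smul, map_smul, Finsupp.smul_apply,
      Finsupp.smul_apply, bas.repr_self, Finsupp.single_apply]
    have hiff : ((⟨((r.1 : ℕ) + p.1) % l, Nat.mod_lt _ (by omega)⟩,
        ⟨((r.2 : ℕ) + p.2) % l, Nat.mod_lt _ (by omega)⟩) : Fin l × Fin l) =
        (⟨0, by omega⟩, ⟨0, by omega⟩) ↔ r = q := by
      have key : ∀ a b : ℕ, a < l → b < l → ((a + (l - b) % l) % l = 0 ↔ a = b) := by
        intro a b ha hb
        rw [Nat.add_mod_mod]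
        constructor
        · intro h
          obtain ⟨k, hk⟩ := Nat.dvd_of_mod_eq_zero h
          rcases lt_trichotomy k 1 with h1 | h1 | h1
          · have : k = 0 := by omega
            subst this
            omega
          · subst h1; omega
          · have : 2 * l ≤ l * k := by rw [mul_comm 2 l]; exact Nat.mul_le_mul_left _ h1
            omega
        · rintro rfl
          rw [Nat.add_sub_cancel' ha.le, Nat.mod_self]
      simp only [p, key _ _ r.1.2 q.1.2, key _ _ r.2.2 q.2.2,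
        Prod.ext_iff, Fin.ext_iff]
    rw [if_congr hiff rfl rfl]
    by_cases hr : r = q
    · refine ⟨ζ ^ ((r.2 : ℕ) * (p.1 : ℕ)) *
          (u ^ ((((r.1 : ℕ) + (p.1 : ℕ) : ℕ) : ℤ) / (l : ℤ)) * v ^ (((r.2 : ℕ) + (p.2 : ℕ)) / l)),
        fun _ => mul_ne_zero (pow_ne_zero _ (hζ.ne_zero hl))
          (mul_ne_zero (zpow_ne_zero _ hu) (pow_ne_zero _ hv)), fun h => absurd hr h, ?_⟩
      rw [if_pos hr, smul_eq_mul, smul_eq_mul, mul_one, hζ', map_mul, map_mul, map_pow, map_zpow₀,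
        map_pow]
    · exact ⟨0, fun h => absurd h hr, fun _ => rfl, by simp [hr]⟩
  choose k hk1 hk2 hk3 using hred
  refine ⟨p, k q, hk1 q rfl, fun x => ?_⟩
  conv_lhs => rw [← bas.sum_repr x, sum_mul]
  simp only [smul_mul_assoc, map_sum, map_smul, Finsupp.finsetSum_apply, Finsupp.smul_apply, hk3,
    smul_eq_mul]
  rw [sum_eq_single q (fun r _ hr => by rw [hk2 r hr, map_zero, mul_zero]) (by simp), mul_comm]

end Vale.P199.FreezeField
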