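import Vale.Agent.P199.Assembly
import Vale.Agent.P199.Stage.Word

/-!
P199, glue: an enumeration of the formal polynomials with fresh designated symbols, and the passage from a step
hypothesis (one more frozen element) to the Kurosh statement.
-/

namespace Vale.Agent.P199

namespace Glue

open Vale.Agent.P199.Poly (ev X)

/-- The variables `x`, `y` and the symbols below `M`. -/
def varsBelow (M : ℕ) : Set Var := {z | ∀ i, z = Sum.inr i → i < M}

/-- A polynomial in which only symbols below `M` occur. -/
def Below (M : ℕ) (q : Poly) : Prop := q ∈ Algebra.adjoin ℤ (X '' varsBelow M)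

theorem Below.mono {M M' : ℕ} (h : M ≤ M') {q : Poly} (hq : Below M q) : Below M' q :=
  Algebra.adjoin_mono (Set.image_mono fun _ (hz : ∀ i, _ = _ → i < M) i hi =>
    lt_of_lt_of_le (hz i hi) h) hq

theorem exists_below (q : Poly) : ∃ M, Below M q := by
  induction q using FreeAlgebra.induction with
  | grade0 n => exact ⟨0, Subalgebra.algebraMap_mem _ n⟩
  | grade1 z =>
    refine ⟨(Sum.elim (fun _ => 0) (fun i => i + 1) z : ℕ), Algebra.subset_adjoin ⟨z, ?_, rfl⟩⟩
    rintro i rfl
    simp
  | mul a b ha hb =>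
    obtain ⟨M, hM⟩ := ha
    obtain ⟨N, hN⟩ := hb
    exact ⟨max M N, mul_mem (hM.mono (le_max_left _ _)) (hN.mono (le_max_right _ _))⟩
  | add a b ha hb =>
    obtain ⟨M, hM⟩ := ha
    obtain ⟨N, hN⟩ := hb
    exact ⟨max M N, add_mem (hM.mono (le_max_left _ _)) (hN.mono (le_max_right _ _))⟩

/-- Evaluation only depends on the symbols that occur. -/
theorem ev_congr {R : Type*} [Ring R] {M : ℕ} {v w : Var → R} (h : ∀ z ∈ varsBelow M, v z = w z)
    {q : Poly} (hq : Below M q) : ev v q = ev w q := by
  induction hq using Algebra.adjoin_induction with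
  | mem x hx =>
    obtain ⟨z, hz, rfl⟩ := hx
    rw [Poly.ev_X, Poly.ev_X, h z hz]
  | algebraMap r => simp
  | add a b _ _ ha hb => rw [map_add, map_add, ha, hb]
  | mul a b _ _ ha hb => rw [map_mul, map_mul, ha, hb]

/-- Derivatives of first order only depend on the symbols that occur. -/
theorem d1_congr {R : Type*} [Ring R] {M : ℕ} {v w a b : Var → R}
    (h : ∀ z ∈ varsBelow M, v z = w z) (h' : ∀ z ∈ varsBelow M, a z = b z) {q : Poly}
    (hq : Below M q) : Poly.d1 v a q = Poly.d1 w b q := by
  unfold Poly.d1 Poly.jet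
  exact congrFun (congrFun (ev_congr (R := Matrix (Fin 3) (Fin 3) R)
    (fun z hz => by rw [h z hz, h' z hz]) hq) 0) 1

/-- Second derivatives only depend on the symbols that occur. -/
theorem d2_congr {R : Type*} [Ring R] {M : ℕ} {v w a b a' b' : Var → R}
    (h : ∀ z ∈ varsBelow M, v z = w z) (h' : ∀ z ∈ varsBelow M, a z = b z)
    (h'' : ∀ z ∈ varsBelow M, a' z = b' z) {q : Poly}
    (hq : Below M q) : Poly.d2 v a a' q = Poly.d2 w b b' q := by
  unfold Poly.d2 Poly.jet
  exact congrFun (congrFun (ev_congr (R := Matrix (Fin 3) (Fin 3) R)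
    (fun z hz => by rw [h z hz, h' z hz, h'' z hz]) hq) 0) 2

/-- An enumeration of all polynomials that starts with `x` and `y`, with a bound for the symbols occurring in its first
elements. -/
theorem exists_enum_poly : ∃ p : ℕ → Poly, Function.Surjective p ∧
    p 0 = X (Sum.inl true) ∧ p 1 = X (Sum.inl false) := by
  have : Countable (FreeMonoid Var) := inferInstanceAs (Countable (List Var))
  have : Countable Poly :=
    (FreeAlgebra.basisFreeMonoid ℤ Var).repr.toEquiv.countable_iff.2 inferInstance
  obtain ⟨p, hp⟩ := exists_surjective_nat Poly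
  refine ⟨fun n => match n with
    | 0 => X (Sum.inl true)
    | 1 => X (Sum.inl false)
    | n + 2 => p n, fun q => ?_, rfl, rfl⟩
  obtain ⟨n, rfl⟩ := hp q
  exact ⟨n + 2, rfl⟩

/-- The fixed enumeration. -/
noncomputable def enum : ℕ → Poly := exists_enum_poly.choose

theorem enum_surjective : Function.Surjective enum := exists_enum_poly.choose_spec.1

theorem enum_zero : enum 0 = X (Sum.inl true) := exists_enum_poly.choose_spec.2.1

theorem enum_one : enum 1 = X (Sum.inl false) := exists_enum_poly.choose_spec.2.2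

/-- A bound for the symbols in `enum 0`, …, `enum j`. -/
noncomputable def bound (j : ℕ) : ℕ :=
  (Finset.range (j + 1)).sup fun k => (exists_below (enum k)).choose

theorem below_bound {k j : ℕ} (h : k ≤ j) : Below (bound j) (enum k) :=
  (exists_below (enum k)).choose_spec.mono
    (Finset.le_sup (f := fun k => (exists_below (enum k)).choose)
      (Finset.mem_range.2 (Nat.lt_succ_of_le h)))

/-- The `i`th symbol designated to `enum j`. -/
noncomputable def sym (j i : ℕ) : ℕ := Nat.pair j (bound j + i)

theorem bound_le_sym (j i : ℕ) : bound j ≤ sym j i :=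
  (Nat.le_add_right _ _).trans (Nat.right_le_pair _ _)

theorem sym_injective {j i j' i' : ℕ} (h : sym j i = sym j' i') : j = j' ∧ i = i' := by
  obtain ⟨rfl, h2⟩ := Nat.pair_eq_pair.1 h
  exact ⟨rfl, Nat.add_left_cancel h2⟩

theorem sym_fresh {k j : ℕ} (h : k ≤ j) (i : ℕ) :
    ∃ M, Below M (enum k) ∧ M ≤ sym j i :=
  ⟨bound j, below_bound h, bound_le_sym j i⟩

/-- Changing designated symbols of `enum j` does not change the value of `enum k`, `k ≤ j`. -/
theorem ev_enum_congr {R : Type*} [Ring R] {v w : Var → R} {k j : ℕ} (hkj : k ≤ j)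
    (hx : ∀ b, v (Sum.inl b) = w (Sum.inl b))
    (hs : ∀ s, (∀ i, s ≠ sym j i) → v (Sum.inr s) = w (Sum.inr s)) :
    ev v (enum k) = ev w (enum k) := by
  refine ev_congr (M := bound j) (fun z hz => ?_) (below_bound hkj)
  rcases z with b | s
  · exact hx b
  · refine hs s fun i hi => ?_
    have h1 := hz s rfl
    have h2 := bound_le_sym j i
    omega

/-- An enumeration starting with `x`, `y` whose `j`th element only uses symbols below `j`: it is guarded for every
layout of consecutive symbol blocks of positive sizes. -/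
theorem exists_guarded_enum : ∃ p : ℕ → Poly, Function.Surjective p ∧
    p 0 = X (Sum.inl true) ∧ p 1 = X (Sum.inl false) ∧ ∀ j, Below j (p j) := by
  classical
  have hX : ∀ (j : ℕ) (b : Bool), Below j (X (Sum.inl b)) := fun j b =>
    Algebra.subset_adjoin ⟨Sum.inl b, fun i hi => by simp at hi, rfl⟩
  refine ⟨fun j => match j with
    | 0 => X (Sum.inl true)
    | 1 => X (Sum.inl false)
    | m + 2 => if Below (m + 2) (enum (Nat.unpair m).1) then enum (Nat.unpair m).1
        else X (Sum.inl true), fun q => ?_, rfl, rfl, fun j => ?_⟩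
  · obtain ⟨k, rfl⟩ := enum_surjective q
    obtain ⟨M, hM⟩ := exists_below (enum k)
    refine ⟨Nat.pair k M + 2, ?_⟩
    show (if Below _ _ then _ else _) = _
    rw [Nat.unpair_pair, if_pos (hM.mono ((Nat.right_le_pair k M).trans (Nat.le_add_right _ 2)))]
  · rcases j with _ | _ | m
    · exact hX 0 true
    · exact hX 1 false
    · show Below _ (if Below _ _ then _ else _)
      split
      · assumption
      · exact hX _ true

/-- The monic equation of degree `d` of `enum j` with its designated coefficients. -/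
noncomputable def eqn (j d : ℕ) : Poly :=
  enum j ^ d + ∑ i : Fin d, X (Sum.inr (sym j i)) * enum j ^ (i : ℕ)

/-- The point given by two elements and values of the symbols. -/
def point (K : Type) {D : Type} [Field K] [Ring D] [Algebra K D] (c : ℕ → K) (x y : D) : Var → D :=
  Sum.elim (fun b => if b then x else y) fun i => algebraMap K D (c i)

/-- The reordering of variables used by the assembly. -/
noncomputable def reorder : Poly →ₐ[ℤ] FreeAlgebra ℤ (ℕ ⊕ Bool) :=
  FreeAlgebra.lift ℤ fun z => FreeAlgebra.ι ℤ z.swap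

theorem reorder_surjective : Function.Surjective reorder := by
  intro q
  induction q using FreeAlgebra.induction with
  | grade0 n => exact ⟨algebraMap ℤ Poly n, reorder.commutes n⟩
  | grade1 z => exact ⟨X z.swap, by simp [reorder, Poly.X]⟩
  | mul a b ha hb =>
    obtain ⟨a', rfl⟩ := ha
    obtain ⟨b', rfl⟩ := hb
    exact ⟨a' * b', map_mul _ _ _⟩
  | add a b ha hb =>
    obtain ⟨a', rfl⟩ := ha
    obtain ⟨b', rfl⟩ := hb
    exact ⟨a' + b', map_add _ _ _⟩

theorem evalSym_reorder (K : Type) {D : Type} [Field K] [Ring D] [Algebra K D] (c : ℕ → K)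
    (x y : D) (q : Poly) : evalSym K c x y (reorder q) = ev (point K c x y) q := by
  induction q using FreeAlgebra.induction with
  | grade0 n =>
    rw [eq_intCast (algebraMap ℤ Poly)]
    simp
  | grade1 z =>
    rw [show FreeAlgebra.ι ℤ z = X z from rfl, Poly.ev_X, reorder, Poly.X, FreeAlgebra.lift_ι_apply,
      evalSym, FreeAlgebra.lift_ι_apply]
    rcases z with b | i <;> rfl
  | mul a b ha hb => rw [map_mul, map_mul, map_mul, ha, hb]
  | add a b ha hb => rw [map_add, map_add, map_add, ha, hb]

theorem ev_eqn (K : Type) {D : Type} [Field K] [Ring D] [Algebra K D] (c : ℕ → K) (x y : D)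
    (j d : ℕ) : ev (point K c x y) (eqn j d) = ev (point K c x y) (enum j) ^ d +
      ∑ i : Fin d, c (sym j i) • ev (point K c x y) (enum j) ^ (i : ℕ) := by
  simp only [eqn, map_add, map_pow, map_sum, map_mul, Poly.ev_X, Algebra.smul_def]
  rfl

/-- A stage for the first `n` elements with degrees `e`: their equations hold and the algebra generated is at least
`n`-dimensional. -/
def IsStage (n : ℕ) (e : ℕ → ℕ) : Prop :=
  ∃ (K D : Type) (_ : Field K) (_ : DivisionRing D) (_ : Algebra K D) (x y : D) (c : ℕ → K),
    (∀ j < n, ev (point K c x y) (eqn j (e j)) = 0) ∧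
    ∃ v : Fin n → D, (∀ i, v i ∈ Algebra.adjoin K ({x, y} : Set D)) ∧ LinearIndependent K v

/-- A large generated algebra supplies the independent elements. -/
theorem exists_indep_of_finrank {K D : Type} [Field K] [Ring D] [Algebra K D] (x y : D)
    (hgen : Algebra.adjoin K ({x, y} : Set D) = ⊤) {n : ℕ} (hn : n ≤ Module.finrank K D) :
    ∃ v : Fin n → D, (∀ i, v i ∈ Algebra.adjoin K ({x, y} : Set D)) ∧ LinearIndependent K v := by
  obtain ⟨v, hv⟩ := exists_linearIndependent_of_le_finrank hn
  exact ⟨v, fun i => hgen ▸ Algebra.mem_top, hv⟩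

/-- Iteration: an initial state, a step freezing one more element at some degree, and stages from states. -/
theorem stages_of_step {P : ℕ → (ℕ → ℕ) → Prop} {e₀ : ℕ → ℕ} (base : P 0 e₀)
    (step : ∀ n e, P n e → ∃ d, P (n + 1) (Function.update e n d))
    (out : ∀ n e, P n e → IsStage n e) : ∃ e : ℕ → ℕ, ∀ n, IsStage n e := by
  choose d hd using step
  let S : ∀ n, {e : ℕ → ℕ // P n e} := fun n =>
    Nat.rec ⟨e₀, base⟩ (fun n s => ⟨Function.update s.1 n (d n s.1 s.2), hd n s.1 s.2⟩) n
  have hstep : ∀ n j, j ≠ n → (S (n + 1)).1 j = (S n).1 j := fun n j h =>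
    Function.update_of_ne h _ _
  have hconst : ∀ n j, j < n → (S n).1 j = (S (j + 1)).1 j := by
    intro n j h
    induction n with
    | zero => omega
    | succ n ih =>
      rcases Nat.lt_succ_iff_lt_or_eq.1 h with h' | h'
      · rw [hstep n j (by omega), ih h']
      · rw [h']
  refine ⟨fun j => (S (j + 1)).1 j, fun n => ?_⟩
  obtain ⟨K, D, iK, iD, iA, x, y, c, heq, hv⟩ := out n (S n).1 (S n).2
  refine ⟨K, D, iK, iD, iA, x, y, c, fun j hj => ?_, hv⟩
  have := heq j hj
  rwa [hconst n j hj] at this

/-- The Kurosh statement from the step. -/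
theorem kurosh_of_step {P : ℕ → (ℕ → ℕ) → Prop} {e₀ : ℕ → ℕ} (base : P 0 e₀)
    (step : ∀ n e, P n e → ∃ d, P (n + 1) (Function.update e n d))
    (out : ∀ n e, P n e → IsStage n e) :
    ∃ (A : Type) (_ : DivisionRing A), (∀ a : A, IsAlgebraic (Subring.center A) a) ∧
      ∃ S : Finset A, ¬ FiniteDimensional (Subring.center A)
        (Algebra.adjoin (Subring.center A) (S : Set A)) := by
  obtain ⟨e, he⟩ := stages_of_step base step out
  refine kurosh_of_stages (fun j => reorder (enum j)) (reorder_surjective.comp enum_surjective)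
    e sym fun n => ?_
  obtain ⟨K, D, iK, iD, iA, x, y, c, heq, hv⟩ := he n
  refine ⟨K, D, iK, iD, iA, x, y, c, fun j hj => ?_, hv⟩
  have h := heq j hj
  rw [ev_eqn] at h
  simpa only [evalSym_reorder] using h

/-- The form with a central subfield, from the step. -/
theorem kurosh_k_of_step {P : ℕ → (ℕ → ℕ) → Prop} {e₀ : ℕ → ℕ} (base : P 0 e₀)
    (step : ∀ n e, P n e → ∃ d, P (n + 1) (Function.update e n d))
    (out : ∀ n e, P n e → IsStage n e) :
    ∃ (k A : Type) (_ : Field k) (_ : DivisionRing A) (_ : Algebra k A) (a b : A),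
      Algebra.IsAlgebraic k A ∧ Algebra.adjoin k ({a, b} : Set A) = ⊤ ∧
        ¬ FiniteDimensional k A := by
  obtain ⟨e, he⟩ := stages_of_step base step out
  refine kurosh_k_of_stages (fun j => reorder (enum j)) (reorder_surjective.comp enum_surjective)
    e sym fun n => ?_
  obtain ⟨K, D, iK, iD, iA, x, y, c, heq, hv⟩ := he n
  refine ⟨K, D, iK, iD, iA, x, y, c, fun j hj => ?_, hv⟩
  have h := heq j hj
  rw [ev_eqn] at h
  simpa only [evalSym_reorder] using h

end Glue

end Vale.Agent.P199
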