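import Vale.Agent.P199.AutRich

/-!
# Unbounded index of finite-dimensional subalgebras
-/

namespace Vale.Agent.P199

universe u

variable {F D : Type u} [Field F] [DivisionRing D] [Algebra F D]

/-- The centre of a subalgebra, inside `D`. -/
def zA (A : Subalgebra F D) : Subalgebra F D := A ⊓ Subalgebra.centralizer F (A : Set D)

theorem mem_zA {A : Subalgebra F D} {z : D} : z ∈ zA A ↔ z ∈ A ∧ ∀ y ∈ A, y * z = z * y :=
  Iff.rfl

theorem finrank_center (A : Subalgebra F D) :
    Module.finrank F (Subalgebra.center F A) = Module.finrank F (zA A) := by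
  have h : (Subalgebra.center F A).map A.val = zA A := by
    ext z
    simp only [Subalgebra.mem_map, Subalgebra.mem_center_iff]
    constructor
    · rintro ⟨y, hy, rfl⟩
      exact ⟨y.2, fun g hg => congrArg Subtype.val (hy ⟨g, hg⟩)⟩
    · rintro ⟨h1, h2⟩
      exact ⟨⟨z, h1⟩, fun g => Subtype.ext (h2 g g.2), rfl⟩
  rw [← h]
  exact (Subalgebra.equivMapOfInjective _ A.val Subtype.val_injective).toLinearEquiv.finrank_eq

variable [Algebra.IsAlgebraic F D]

omit [Algebra.IsAlgebraic F D] in
theorem fin_of_le {A B : Subalgebra F D} [FiniteDimensional F B] (h : A ≤ B) :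
    FiniteDimensional F A :=
  FiniteDimensional.of_injective (Subalgebra.inclusion h).toLinearMap
    (Subalgebra.inclusion_injective h)

/-- Uniqueness of coefficients in `A` for elements of the centraliser independent over the
centre of `A`. -/
theorem eq_zero_of_coeff (A : Subalgebra F D) {ι : Type*} [Fintype ι] (b : ι → D)
    (hb : ∀ j, b j ∈ Subalgebra.centralizer F (A : Set D))
    (hli : ∀ c : ι → D, (∀ j, c j ∈ zA A) → ∑ j, c j * b j = 0 → c = 0)
    (a : ι → D) (ha : ∀ j, a j ∈ A) (h : ∑ j, a j * b j = 0) : a = 0 := by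
  classical
  induction hs : (Finset.univ.filter fun i => a i ≠ 0).card using Nat.strong_induction_on
    generalizing a with | _ N ih
  by_contra hd
  obtain ⟨i0, hi0⟩ : ∃ i, a i ≠ 0 := Function.ne_iff.mp hd
  set a' : ι → D := fun i => (a i0)⁻¹ * a i with ha'
  have hmem : ∀ i, a' i ∈ A := fun i => mul_mem (inv_mem_sub A (ha i0)) (ha i)
  have h1 : ∑ j, a' j * b j = 0 := by
    simpa [ha', Finset.mul_sum, mul_assoc] using congrArg ((a i0)⁻¹ * ·) h
  have hz : ∀ i, a' i ∈ zA A := by
    intro i
    refine mem_zA.mpr ⟨hmem i, fun y hy => ?_⟩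
    have hz : ∑ j, (y * a' j - a' j * y) * b j = 0 := by
      have e1 := congrArg (y * ·) h1
      have e2 := congrArg (· * y) h1
      simp only [mul_zero, zero_mul, Finset.mul_sum, Finset.sum_mul] at e1 e2
      have hc : ∀ j, b j * y = y * b j := fun j =>
        ((Subalgebra.mem_centralizer_iff F).mp (hb j) y hy).symm
      simp only [sub_mul, Finset.sum_sub_distrib]
      simp only [mul_assoc, hc] at e1 e2 ⊢
      rw [e1, e2, sub_zero]
    have hlt : (Finset.univ.filter fun j => (y * a' j - a' j * y) ≠ 0).card < N := by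
      rw [← hs]
      refine Finset.card_lt_card (Finset.ssubset_iff_of_subset ?_ |>.mpr ⟨i0, ?_, ?_⟩)
      · intro j
        simp only [Finset.mem_filter, Finset.mem_univ, true_and]
        intro hj h0
        simp [ha', h0] at hj
      · simpa using hi0
      · simp [ha', inv_mul_cancel₀ hi0]
    exact sub_eq_zero.mp (congrFun (ih _ hlt _
      (fun j => sub_mem (mul_mem hy (hmem j)) (mul_mem (hmem j) hy)) hz rfl) i)
  have := congrFun (hli a' hz h1) i0
  simp [ha', inv_mul_cancel₀ hi0] at this

theorem two_mul_finrank_le (B : Subalgebra F D) [FiniteDimensional F B]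
    {u v : D} (hu : u ∈ B) (hv : v ∈ B) (huv : u * v ≠ v * u) :
    2 * Module.finrank F (zA B) ≤ Module.finrank F B := by
  have hle : zA B ≤ B := inf_le_left
  have hu' : u ∉ zA B := fun h => huv ((mem_zA.mp h).2 v hv).symm
  let φ : (zA B × zA B) →ₗ[F] B :=
    { toFun := fun p => ⟨p.1 + p.2 * u, add_mem (hle p.1.2) (mul_mem (hle p.2.2) hu)⟩
      map_add' := fun p q => by
        ext; simp [add_mul]; abel
      map_smul' := fun r p => by
        ext; simp [smul_add] }
  have := fin_of_le hle
  have hinj : Function.Injective φ := by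
    rw [← LinearMap.ker_eq_bot, Submodule.eq_bot_iff]
    rintro ⟨p, q⟩ h
    have h0 : (p : D) + q * u = 0 := congrArg Subtype.val (LinearMap.mem_ker.mp h)
    by_cases hq : (q : D) = 0
    · rw [hq, zero_mul, add_zero] at h0
      exact Prod.ext (Subtype.ext h0) (Subtype.ext hq)
    · refine absurd ?_ hu'
      have : u = -((q : D)⁻¹ * p) := by
        have := congrArg ((q : D)⁻¹ * ·) h0
        simp only [mul_add, mul_zero, ← mul_assoc, inv_mul_cancel₀ hq, one_mul] at this
        exact eq_neg_of_add_eq_zero_right this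
      rw [this]
      exact neg_mem (mul_mem (inv_mem_sub _ q.2) p.2)
  have := LinearMap.finrank_le_finrank_of_injective hinj
  rw [Module.finrank_prod] at this
  omega

/-- One step: the product with a noncommutative subalgebra of the centraliser. -/
theorem exists_bigger (A B : Subalgebra F D) [FiniteDimensional F A] [FiniteDimensional F B]
    (hBC : B ≤ Subalgebra.centralizer F (A : Set D)) (hkB : zA A ≤ B)
    {u v : D} (hu : u ∈ B) (hv : v ∈ B) (huv : u * v ≠ v * u) {N : ℕ}
    (hN : (N + 1) * Module.finrank F (zA A) ≤ Module.finrank F A) :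
    ∃ G : Subalgebra F D, FiniteDimensional F G ∧
      (N + 2) * Module.finrank F (zA G) ≤ Module.finrank F G := by
  set k := zA A with hk
  have hkA : k ≤ A := inf_le_left
  have hkfin := fin_of_le hkA
  let _ : Field k := fieldSub k fun x hx y hy => (mem_zA.mp hy).2 x (mem_zA.mp hx).1
  let W : Submodule k D :=
    { carrier := B
      add_mem' := B.add_mem
      zero_mem' := B.zero_mem
      smul_mem' := fun c x hx => mul_mem (hkB c.2) hx }
  have hWfin : Module.Finite F W := Module.Finite.of_injective
    ({ toFun := fun w => (⟨w.1, w.2⟩ : B)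
       map_add' := fun _ _ => rfl
       map_smul' := fun _ _ => rfl } : W →ₗ[F] B) (fun a b h => Subtype.ext (congrArg Subtype.val h :))
  have hWk : Module.Finite k W := Module.Finite.of_restrictScalars_finite F k W
  have hWB : Module.finrank F W = Module.finrank F B := LinearEquiv.finrank_eq
    { toFun := fun w => (⟨w.1, w.2⟩ : B)
      map_add' := fun _ _ => rfl
      map_smul' := fun _ _ => rfl
      invFun := fun w => ⟨w.1, w.2⟩
      left_inv := fun _ => rfl
      right_inv := fun _ => rfl }
  set s := Module.finrank k W with hs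
  set e := Module.finBasis k W
  have hmulrank : Module.finrank F k * s = Module.finrank F W :=
    Module.finrank_mul_finrank F k W
  let b : Fin s → D := fun j => (e j : D)
  have hb : ∀ j, b j ∈ Subalgebra.centralizer F (A : Set D) := fun j => hBC (e j).2
  have hcomm : ∀ a ∈ A, ∀ c ∈ B, a * c = c * a := fun a ha c hc =>
    (Subalgebra.mem_centralizer_iff F).mp (hBC hc) a ha
  have hli : ∀ c : Fin s → D, (∀ j, c j ∈ zA A) → ∑ j, c j * b j = 0 → c = 0 := by
    intro c hc h
    have hz : ∑ j, (⟨c j, hc j⟩ : k) • e j = 0 := by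
      apply Subtype.ext
      simpa [b, Subalgebra.smul_def] using h
    funext j
    exact congrArg Subtype.val (Fintype.linearIndependent_iff.mp e.linearIndependent _ hz j)
  set M := Subalgebra.toSubmodule A * Subalgebra.toSubmodule B with hM
  have hmul : ∀ x y, x ∈ M → y ∈ M → x * y ∈ M := by
    intro x y hx hy
    refine Submodule.mul_induction_on hx (fun a1 ha1 b1 hb1 => ?_) fun s1 t1 h1 h2 => ?_
    · refine Submodule.mul_induction_on hy (fun a2 ha2 b2 hb2 => ?_) fun s2 t2 h1 h2 => ?_
      · have e : a1 * b1 * (a2 * b2) = (a1 * a2) * (b1 * b2) := by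
          rw [mul_assoc, ← mul_assoc b1, ← hcomm a2 ha2 b1 hb1, mul_assoc, ← mul_assoc]
        rw [e]
        exact Submodule.mul_mem_mul (A.mul_mem ha1 ha2) (B.mul_mem hb1 hb2)
      · rw [mul_add]; exact add_mem h1 h2
    · rw [add_mul]; exact add_mem h1 h2
  have hone : (1 : D) ∈ M := by
    simpa using Submodule.mul_mem_mul (M := Subalgebra.toSubmodule A)
      (N := Subalgebra.toSubmodule B) A.one_mem B.one_mem
  set G := M.toSubalgebra hone hmul with hG
  have hAG : A ≤ G := fun x hx => by
    show x ∈ M
    simpa using Submodule.mul_mem_mul (M := Subalgebra.toSubmodule A)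
      (N := Subalgebra.toSubmodule B) hx B.one_mem
  have hBG : B ≤ G := fun x hx => by
    show x ∈ M
    simpa using Submodule.mul_mem_mul (M := Subalgebra.toSubmodule A)
      (N := Subalgebra.toSubmodule B) A.one_mem hx
  have hGfin : FiniteDimensional F G := Module.Finite.iff_fg.mpr <|
    (Module.Finite.iff_fg.mp (inferInstance : Module.Finite F A)).mul
      (Module.Finite.iff_fg.mp (inferInstance : Module.Finite F B))
  refine ⟨G, hGfin, ?_⟩
  let φ : (Fin s → A) →ₗ[F] G :=
    { toFun := fun a => ⟨∑ j, (a j : D) * b j,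
        sum_mem fun j _ => Submodule.mul_mem_mul (a j).2 (e j).2⟩
      map_add' := fun a a' => by
        ext; simp [add_mul, Finset.sum_add_distrib]
      map_smul' := fun r a => by
        ext; simp [Finset.smul_sum] }
  have hinj : Function.Injective φ := by
    rw [← LinearMap.ker_eq_bot, Submodule.eq_bot_iff]
    intro a h
    have h0 : ∑ j, (a j : D) * b j = 0 := congrArg Subtype.val (LinearMap.mem_ker.mp h)
    have := eq_zero_of_coeff A b hb hli (fun j => (a j : D)) (fun j => (a j).2) h0
    funext j
    exact Subtype.ext (congrFun this j)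
  have hsurj : ∀ x ∈ M, ∃ a : Fin s → D, (∀ j, a j ∈ A) ∧ ∑ j, a j * b j = x := by
    intro x hx
    refine Submodule.mul_induction_on hx (fun a ha c hc => ?_) fun x y h1 h2 => ?_
    · refine ⟨fun j => a * (e.repr ⟨c, hc⟩ j : D), fun j => mul_mem ha (hkA (SetLike.coe_mem _)), ?_⟩
      have := congrArg Subtype.val (e.sum_repr ⟨c, hc⟩)
      simp only [AddSubmonoidClass.coe_finsetSum, Submodule.coe_smul] at this
      simp only [mul_assoc, ← Finset.mul_sum]
      congr 1
    · obtain ⟨a, ha, rfl⟩ := h1
      obtain ⟨a', ha', rfl⟩ := h2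
      exact ⟨a + a', fun j => add_mem (ha j) (ha' j), by simp [add_mul, Finset.sum_add_distrib]⟩
  have hZG : zA G ≤ zA B := by
    intro z hz
    obtain ⟨hzG, hzc⟩ := mem_zA.mp hz
    obtain ⟨a, ha, rfl⟩ := hsurj z hzG
    have hak : ∀ j, a j ∈ zA A := fun j => mem_zA.mpr ⟨ha j, fun y hy => by
      have hc : ∀ i, b i * y = y * b i := fun i => (hcomm y hy (b i) (e i).2).symm
      have h0 : ∑ i, (y * a i - a i * y) * b i = 0 := by
        have := hzc y (hAG hy)
        simp only [Finset.mul_sum, Finset.sum_mul, mul_assoc, hc] at this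
        simp only [sub_mul, Finset.sum_sub_distrib, mul_assoc]
        rw [this, sub_self]
      exact sub_eq_zero.mp (congrFun (eq_zero_of_coeff A b hb hli _
        (fun i => sub_mem (mul_mem hy (ha i)) (mul_mem (ha i) hy)) h0) j)⟩
    exact mem_zA.mpr ⟨sum_mem fun j _ => mul_mem (hkB (hak j)) (e j).2,
      fun y hy => hzc y (hBG hy)⟩
  have hzBfin : FiniteDimensional F (zA B) := fin_of_le inf_le_left
  have h1 : s * Module.finrank F A ≤ Module.finrank F G := by
    have := LinearMap.finrank_le_finrank_of_injective hinj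
    simpa [Module.finrank_pi_fintype] using this
  have h2 := two_mul_finrank_le B hu hv huv
  have h3 : Module.finrank F (zA G) ≤ Module.finrank F (zA B) :=
    LinearMap.finrank_le_finrank_of_injective (f := (Subalgebra.inclusion hZG).toLinearMap)
      (Subalgebra.inclusion_injective hZG)
  calc (N + 2) * Module.finrank F (zA G) ≤ (N + 1) * (2 * Module.finrank F (zA B)) := by
        rw [← mul_assoc]
        exact Nat.mul_le_mul (by omega) h3
    _ ≤ (N + 1) * (Module.finrank F k * s) := by
        rw [hmulrank, hWB]
        exact Nat.mul_le_mul_left _ h2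
    _ = s * ((N + 1) * Module.finrank F k) := by ring
    _ ≤ s * Module.finrank F A := Nat.mul_le_mul_left _ hN
    _ ≤ Module.finrank F G := h1

/-- An infinite-dimensional algebraic division algebra with rich centre has subalgebras of
arbitrarily large index. -/
theorem unbounded_index (hF : AutRich F) (hZ : Central F D) (hD : ¬ FiniteDimensional F D)
    (N : ℕ) : ∃ A : Subalgebra F D, FiniteDimensional F A ∧
      (N + 1) * Module.finrank F (Subalgebra.center F A) ≤ Module.finrank F A := by
  simp only [finrank_center]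
  induction N with
  | zero =>
    refine ⟨⊥, inferInstance, ?_⟩
    rw [zero_add, one_mul]
    have h : zA (⊥ : Subalgebra F D) ≤ ⊥ := inf_le_left
    exact LinearMap.finrank_le_finrank_of_injective (f := (Subalgebra.inclusion h).toLinearMap)
      (Subalgebra.inclusion_injective h)
  | succ N ih =>
    obtain ⟨A, hA, hN⟩ := ih
    set C := Subalgebra.centralizer F (A : Set D) with hC
    let _ : DivisionRing C := divSub C
    have : Algebra.IsAlgebraic F C := ⟨fun x =>
      ((isIntegral_algHom_iff C.val Subtype.val_injective).mp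
        (Algebra.IsIntegral.isIntegral _)).isAlgebraic⟩
    have hk : zA A ≤ C := inf_le_right
    have hkfin : FiniteDimensional F (zA A) := fin_of_le inf_le_left
    let K : Subalgebra F C := (zA A).comap C.val
    have hKfin : FiniteDimensional F K := FiniteDimensional.of_injective
      ({ toFun := fun x => (⟨C.val x.1, x.2⟩ : zA A)
         map_add' := fun _ _ => rfl
         map_smul' := fun _ _ => rfl } : K →ₗ[F] zA A)
      fun x y h => Subtype.ext (Subtype.ext (congrArg Subtype.val h :))
    have hK : ∀ z : C, (∀ x : C, z * x = x * z) → z ∈ K := fun z hz =>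
      mem_zA.mpr ⟨mem_of_commute_centralizer hZ A fun c hc =>
          (congrArg Subtype.val (hz ⟨c, hc⟩)).symm,
        fun y hy => (Subalgebra.mem_centralizer_iff F).mp z.2 y hy⟩
    have hne : ∃ s t : C, s * t ≠ t * s := by
      by_contra hall
      simp only [not_exists, not_not] at hall
      exact hD (finite_of_centralizer_le A fun z hz => mem_of_commute_centralizer hZ A
        fun c hc => congrArg Subtype.val (hall ⟨c, hc⟩ ⟨z, hz⟩)).1
    obtain ⟨B, hB, hcB, u, hu, v, hv, huv⟩ :=
      exists_finite_noncomm_of_autRich hF ⟨K, hKfin, hK⟩ hne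
    have : FiniteDimensional F (B.map C.val) :=
      (Subalgebra.equivMapOfInjective B C.val Subtype.val_injective).toLinearEquiv.finiteDimensional
    refine exists_bigger A (B.map C.val) ?_ ?_ (u := u.1) (v := v.1) ⟨u, hu, rfl⟩ ⟨v, hv, rfl⟩
      (fun h => huv (Subtype.ext h)) hN
    · rintro _ ⟨y, -, rfl⟩
      exact y.2
    · intro z hz
      refine ⟨⟨z, hk hz⟩, hcB _ fun x => Subtype.ext ?_, rfl⟩
      exact (Subalgebra.mem_centralizer_iff F).mp x.2 z (mem_zA.mp hz).1

end Vale.Agent.P199
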