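import Vale.Agent.P199.LaurentField

/-!
P199: the symbol algebra over a `K`-division algebra `D` is a division algebra over `K((u))((v))` with basis the
products of a basis of `D` with `U ^ i V ^ j`, `i, j < l`; likewise `D((t))` over `K((t))`. Centres, the relation
`θ ^ l` and the trace.
-/

namespace Vale.Agent.P199

open Finset SkewLaurent

noncomputable section

theorem natCast_scalar_ne_zero {K : Type} [Field K] [CharZero K] {l : ℕ} (hl : l ≠ 0) :
    ((l : ℕ) : LaurentSeries (LaurentSeries K)) ≠ 0 := by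
  rw [← map_natCast (HahnSeries.C (Γ := ℤ) (R := LaurentSeries K)),
    ← map_natCast (HahnSeries.C (Γ := ℤ) (R := K))]
  exact fun h => (Nat.cast_ne_zero (R := K)).2 hl
    (HahnSeries.C_injective (HahnSeries.C_injective (h.trans (by simp))))

section Sym

variable {K D : Type} [Field K] [DivisionRing D] [Algebra K D] (ζ : Dˣ)
  (hc : ∀ a : D, (ζ : D) * a = a * ζ) {l : ℕ} (hl : 0 < l) (hζ : orderOf ζ = l) (ζ₀ : K)
  (hζ₀ : (ζ : D) = algebraMap K D ζ₀)

include hζ hζ₀ in
theorem primitive_root : IsPrimitiveRoot ζ₀ l := by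
  refine IsPrimitiveRoot.iff_orderOf.2 ?_
  rw [← orderOf_injective (algebraMap K D).toMonoidHom (algebraMap K D).injective]
  show orderOf (algebraMap K D ζ₀) = l
  rw [← hζ₀, orderOf_units, hζ]

theorem cf2_symC (a : D) (n m : ℤ) :
    cf2 ζ hc (symC ζ hc a) n m = if n = 0 ∧ m = 0 then a else 0 := by
  show cf (cf (C _ (C 1 a)) n) m = _
  rw [cf_C]
  by_cases hn : n = 0
  · simp [hn, cf_C]
  · simp [hn, cf_zero]

theorem symScalarHom_C (r : K) :
    symScalarHom ζ hc hl hζ (HahnSeries.C (HahnSeries.C r)) = symC ζ hc (algebraMap K D r) := by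
  refine ext_cf2 ζ hc fun n m => ?_
  rw [cf2_symScalarHom, cf2_symC]
  have hl' : (0 : ℤ) < l := by omega
  by_cases h : n = 0 ∧ m = 0
  · simp [h.1, h.2]
  · rw [if_neg h]
    split
    · rename_i hd
      obtain ⟨⟨i, rfl⟩, ⟨j, rfl⟩⟩ := hd
      rw [Int.mul_ediv_cancel_left _ hl'.ne', Int.mul_ediv_cancel_left _ hl'.ne',
        HahnSeries.C_apply, HahnSeries.C_apply, HahnSeries.coeff_single]
      split
      · subst_vars
        rw [HahnSeries.coeff_single, if_neg]
        · exact map_zero _
        · rintro rfl; exact h ⟨mul_zero _, mul_zero _⟩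
      · simp
    · rfl

variable [Algebra (LaurentSeries (LaurentSeries K)) (Sym ζ hc)]
  (halg : ∀ z, algebraMap (LaurentSeries (LaurentSeries K)) (Sym ζ hc) z = symScalarHom ζ hc hl hζ z)

include hl hζ hζ₀ halg

theorem sym_relation :
    (symVu ζ hc : Sym ζ hc) * symUu ζ hc =
      (HahnSeries.C (HahnSeries.C ζ₀) : LaurentSeries (LaurentSeries K)) •
        ((symUu ζ hc : Sym ζ hc) * symVu ζ hc) := by
  rw [Algebra.smul_def, halg, symScalarHom_C, ← hζ₀, ← mul_assoc]
  exact symV_mul_symU ζ hc

omit hl halg in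
theorem sym_primitive :
    IsPrimitiveRoot (HahnSeries.C (HahnSeries.C ζ₀) : LaurentSeries (LaurentSeries K)) l :=
  ((primitive_root ζ hζ ζ₀ hζ₀).map_of_injective (f := HahnSeries.C) HahnSeries.C_injective).map_of_injective
    HahnSeries.C_injective

variable [CharZero K]

omit [CharZero K] hζ₀ halg [Algebra (LaurentSeries (LaurentSeries K)) (Sym ζ hc)] in
theorem commute_scalar (w : LaurentSeries (LaurentSeries K)) (z : Sym ζ hc) :
    Commute z (symScalarHom ζ hc hl hζ w) :=
  (symScalarHom_commutes ζ hc hl hζ w z).symm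

/-- Monomials on independent elements of `D` are independent over `K((u))((v))`. -/
theorem linearIndependent_sym {ι : Type*} [Fintype ι] {bs : ι → D} (hb : LinearIndependent K bs) :
    LinearIndependent (LaurentSeries (LaurentSeries K)) (symMonomial ζ hc (l := l) bs) := by
  rw [Fintype.linearIndependent_iff]
  intro g hg p
  let c : Fin l × Fin l → Sym ζ hc := fun q =>
    ∑ i, symC ζ hc (bs i) * symScalarHom ζ hc hl hζ (g (i, q))
  have hc' : ∀ q, Commute (symU ζ hc) (c q) ∧ Commute (symV ζ hc) (c q) := fun q =>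
    ⟨Commute.sum_right _ _ _ fun i _ => (symC_commute ζ hc _).1.mul_right
        (commute_scalar ζ hc hl hζ _ _),
      Commute.sum_right _ _ _ fun i _ => (symC_commute ζ hc _).2.mul_right
        (commute_scalar ζ hc hl hζ _ _)⟩
  have h0 : ∑ q, c q * (symU ζ hc ^ (q.1 : ℕ) * symV ζ hc ^ (q.2 : ℕ)) = 0 := by
    rw [← hg, Fintype.sum_prod_type (f := fun j => g j • symMonomial ζ hc bs j), sum_comm]
    refine sum_congr rfl fun q _ => ?_
    rw [sum_mul]
    refine sum_congr rfl fun i _ => ?_
    rw [Algebra.smul_def, halg, symMonomial, ← mul_assoc, ← mul_assoc, ← mul_assoc]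
    congr 2
    exact (commute_scalar ζ hc hl hζ _ _).eq
  have h1 := congrFun (monomials_eq_zero (K := LaurentSeries (LaurentSeries K)) (U := symUu ζ hc)
    (V := symVu ζ hc) (natCast_scalar_ne_zero hl.ne')
    (sym_primitive ζ hζ ζ₀ hζ₀) (sym_relation ζ hc hl hζ ζ₀ hζ₀ halg) hc' h0) p.2
  obtain ⟨i, q⟩ := p
  refine HahnSeries.ext (funext fun n => HahnSeries.ext (funext fun m => ?_))
  have h2 := congrArg (fun z => cf2 ζ hc z ((l : ℤ) * n) ((l : ℤ) * m)) h1
  have hl' : (0 : ℤ) < l := by omega
  change cf (cf (∑ i, symC ζ hc (bs i) * symScalarHom ζ hc hl hζ (g (i, q))) _) _ = cf (cf 0 _) _ at h2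
  simp only [cf_finsetSum, cf_zero] at h2
  change ∑ i, cf2 ζ hc (symC ζ hc (bs i) * symScalarHom ζ hc hl hζ (g (i, q))) _ _ = 0 at h2
  simp only [cf2_symC_mul, cf2_symScalarHom, dvd_mul_right, and_self, if_true,
    Int.mul_ediv_cancel_left _ hl'.ne', ← Algebra.commutes, ← Algebra.smul_def] at h2
  rw [Fintype.linearIndependent_iff.1 hb _ h2 i, HahnSeries.coeff_zero, HahnSeries.coeff_zero]

/-- Monomials on a basis of `D` span. -/
theorem span_sym {ι : Type} [Fintype ι] (b : Module.Basis ι K D) :
    ⊤ ≤ Submodule.span (LaurentSeries (LaurentSeries K))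
      (Set.range (symMonomial ζ hc (l := l) b)) := by
  intro z _
  have hlu : ζ ^ l = 1 := hζ ▸ pow_orderOf_eq_one ζ
  obtain ⟨c, hc', rfl⟩ := exists_eq_sum_monomials (K := LaurentSeries (LaurentSeries K))
    (U := symUu ζ hc) (V := symVu ζ hc) (natCast_scalar_ne_zero hl.ne')
    (sym_primitive ζ hζ ζ₀ hζ₀) (sym_relation ζ hc hl hζ ζ₀ hζ₀ halg)
    (fun z => by rw [Units.val_pow_eq_pow_val]; exact symU_pow_central ζ hc hlu z)
    (fun z => by rw [Units.val_pow_eq_pow_val]; exact symV_pow_central ζ hc hlu z) z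
  refine sum_mem fun q _ => ?_
  rw [← sum_symC_symCoord ζ hc b (c q), sum_mul]
  refine sum_mem fun i _ => ?_
  have hd : ∀ n m, cf2 ζ hc (symCoord ζ hc b i (c q)) n m ≠ 0 → (l : ℤ) ∣ n ∧ (l : ℤ) ∣ m :=
    fun n m h => dvd_of_commute ζ hc hζ (hc' q).1 (hc' q).2 fun h0 => h (by
      rw [cf2_symCoord, h0, map_zero, map_zero])
  obtain ⟨w, hw⟩ := exists_symScalar ζ hc hl hζ hd fun n m => ⟨_, cf2_symCoord ζ hc b i _ n m⟩
  have h : symC ζ hc (b i) * symCoord ζ hc b i (c q) *
      ((symUu ζ hc : Sym ζ hc) ^ (q.1 : ℕ) * (symVu ζ hc : Sym ζ hc) ^ (q.2 : ℕ)) =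
        w • symMonomial ζ hc b (i, q) := by
    rw [Algebra.smul_def, halg, ← hw, symMonomial, ← mul_assoc _ (symC ζ hc (b i))]
    congr 1
    exact (commute_scalar ζ hc hl hζ _ _).eq
  rw [h]
  exact Submodule.smul_mem _ _ (Submodule.subset_span ⟨(i, q), rfl⟩)

/-- **The monomial basis** of the symbol algebra over `K((u))((v))`. -/
def symBasis {ι : Type} [Fintype ι] (b : Module.Basis ι K D) :
    Module.Basis (ι × Fin l × Fin l) (LaurentSeries (LaurentSeries K)) (Sym ζ hc) :=
  Module.Basis.mk (linearIndependent_sym ζ hc hl hζ ζ₀ hζ₀ halg b.linearIndependent)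
    (span_sym ζ hc hl hζ ζ₀ hζ₀ halg b)

theorem finiteDimensional_sym [FiniteDimensional K D] :
    FiniteDimensional (LaurentSeries (LaurentSeries K)) (Sym ζ hc) :=
  Module.Finite.of_basis (symBasis ζ hc hl hζ ζ₀ hζ₀ halg (Module.finBasis K D))

theorem finrank_sym [FiniteDimensional K D] :
    Module.finrank (LaurentSeries (LaurentSeries K)) (Sym ζ hc) = Module.finrank K D * (l * l) := by
  rw [Module.finrank_eq_card_basis (symBasis ζ hc hl hζ ζ₀ hζ₀ halg (Module.finBasis K D)),
    Fintype.card_prod, Fintype.card_prod, Fintype.card_fin, Fintype.card_fin]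

/-- Generators of `D` together with `U` and `V` generate. -/
theorem adjoin_sym_eq_top [FiniteDimensional K D] {S : Set D} (hS : Algebra.adjoin K S = ⊤) :
    Algebra.adjoin (LaurentSeries (LaurentSeries K))
      (symC ζ hc '' S ∪ {symU ζ hc, symV ζ hc}) = ⊤ := by
  let A := Algebra.adjoin (LaurentSeries (LaurentSeries K))
    (symC ζ hc '' S ∪ {symU ζ hc, symV ζ hc})
  have hD : ∀ d : D, symC ζ hc d ∈ A := fun d => by
    have hd : d ∈ Algebra.adjoin K S := hS ▸ Algebra.mem_top
    induction hd using Algebra.adjoin_induction with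
    | mem d hd => exact Algebra.subset_adjoin (Or.inl ⟨d, hd, rfl⟩)
    | algebraMap r =>
      rw [← symScalarHom_C ζ hc hl hζ r, ← halg]
      exact A.algebraMap_mem _
    | add x y _ _ hx hy => rw [(symC ζ hc).map_add]; exact A.add_mem hx hy
    | mul x y _ _ hx hy => rw [(symC ζ hc).map_mul]; exact A.mul_mem hx hy
  refine eq_top_iff.2 fun z _ => ?_
  rw [← (symBasis ζ hc hl hζ ζ₀ hζ₀ halg (Module.finBasis K D)).sum_repr z]
  refine sum_mem fun p _ => A.smul_mem ?_ _
  rw [symBasis, Module.Basis.mk_apply]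
  exact A.mul_mem (hD _) (A.mul_mem (A.pow_mem (Algebra.subset_adjoin (Or.inr (Or.inl rfl))) _)
    (A.pow_mem (Algebra.subset_adjoin (Or.inr (Or.inr rfl))) _))

omit [CharZero K] hζ₀ in
/-- A central algebra stays central. -/
theorem isCentral_sym [Algebra.IsCentral K D] :
    Algebra.IsCentral (LaurentSeries (LaurentSeries K)) (Sym ζ hc) := by
  refine ⟨fun z hz => Algebra.mem_bot.2 ?_⟩
  rw [Subalgebra.mem_center_iff] at hz
  obtain ⟨w, hw⟩ := exists_symScalar ζ hc hl hζ
    (fun n m h => dvd_of_commute ζ hc hζ (hz (symU ζ hc)) (hz (symV ζ hc)) h) fun n m => by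
      have h2 : cf2 ζ hc z n m ∈ Subalgebra.center K D :=
        Subalgebra.mem_center_iff.2 fun a => by
          have h1 := congrArg (fun z => cf2 ζ hc z n m) (hz (symC ζ hc a))
          simpa only [cf2_symC_mul, cf2_mul_symC] using h1
      rw [Algebra.IsCentral.center_eq_bot, Algebra.mem_bot] at h2
      obtain ⟨r, hr⟩ := h2
      exact ⟨r, hr.symm⟩
  exact ⟨w, (halg w).trans hw⟩

end Sym

section Laurent

variable {K D : Type} [Field K] [DivisionRing D] [Algebra K D]

/-- `K((t)) → D((t))`. -/
def laurentScalarHom : LaurentSeries K →+* SkewLaurent (1 : RingAut D) :=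
  laurentHom (algebraMap K D) (fun _ => RingAut.one_apply _) one_pos

theorem laurentScalarHom_commutes (z : LaurentSeries K) (f : SkewLaurent (1 : RingAut D)) :
    laurentScalarHom z * f = f * laurentScalarHom z :=
  inner_commutes one_pos z f

theorem cf_laurentScalarHom (z : LaurentSeries K) (n : ℤ) :
    cf (laurentScalarHom (D := D) z) n = algebraMap K D (z.coeff n) := by
  unfold laurentScalarHom
  rw [cf_laurentHom]
  simp [laurentCoeff]

/-- `D((t))` over `K((t))`. -/
abbrev laurentAlgebra : Algebra (LaurentSeries K) (SkewLaurent (1 : RingAut D)) :=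
  RingHom.toAlgebra' (R := LaurentSeries K) (S := SkewLaurent (1 : RingAut D)) laurentScalarHom
    fun z f => laurentScalarHom_commutes z f

variable [Algebra (LaurentSeries K) (SkewLaurent (1 : RingAut D))]
  (halg : ∀ z, algebraMap (LaurentSeries K) (SkewLaurent (1 : RingAut D)) z = laurentScalarHom z)

include halg

theorem linearIndependent_laurent {ι : Type*} [Fintype ι] {bs : ι → D}
    (hb : LinearIndependent K bs) :
    LinearIndependent (LaurentSeries K) fun i => C (1 : RingAut D) (bs i) := by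
  rw [Fintype.linearIndependent_iff]
  intro g hg i
  refine HahnSeries.ext (funext fun n => ?_)
  have h3 : ∑ j, (g j).coeff n • bs j = 0 := by
    have h4 := congrArg (fun z => cf z n) hg
    simp only [cf_finsetSum, cf_zero] at h4
    rw [← h4]
    refine sum_congr rfl fun j _ => ?_
    rw [Algebra.smul_def, Algebra.smul_def, halg, cf_mul_C, cf_laurentScalarHom, one_zpow_apply]
  rw [Fintype.linearIndependent_iff.1 hb _ h3 i, HahnSeries.coeff_zero]

theorem span_laurent {ι : Type} [Fintype ι] (b : Module.Basis ι K D) :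
    ⊤ ≤ Submodule.span (LaurentSeries K) (Set.range fun i => C (1 : RingAut D) (b i)) := by
  intro f _
  have hco : ∀ i, ∃ w : LaurentSeries K, ∀ n, w.coeff n = b.coord i (cf f n) := fun i => by
    refine exists_series _ (b := f.1.order) fun n hn => ?_
    have h0 : cf f n = 0 := (congrArg evalOne (HahnSeries.coeff_eq_zero_of_lt_order hn)).trans
      (map_zero _)
    rw [h0, map_zero]
  choose w hw using hco
  have h : f = ∑ i, w i • C (1 : RingAut D) (b i) := by
    refine ext_cf fun n => ?_
    rw [cf_finsetSum]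
    conv_lhs => rw [← b.sum_repr (cf f n)]
    refine sum_congr rfl fun i _ => ?_
    rw [Algebra.smul_def, Algebra.smul_def, halg, cf_mul_C, cf_laurentScalarHom, one_zpow_apply,
      hw, Module.Basis.coord_apply]
  rw [h]
  exact sum_mem fun i _ => Submodule.smul_mem _ _ (Submodule.subset_span ⟨i, rfl⟩)

/-- The basis of `D((t))` over `K((t))`. -/
def laurentBasis {ι : Type} [Fintype ι] (b : Module.Basis ι K D) :
    Module.Basis ι (LaurentSeries K) (SkewLaurent (1 : RingAut D)) :=
  Module.Basis.mk (linearIndependent_laurent halg b.linearIndependent) (span_laurent halg b)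

theorem finrank_laurent [FiniteDimensional K D] :
    Module.finrank (LaurentSeries K) (SkewLaurent (1 : RingAut D)) = Module.finrank K D := by
  rw [Module.finrank_eq_card_basis (laurentBasis halg (Module.finBasis K D)), Fintype.card_fin]

theorem finiteDimensional_laurent [FiniteDimensional K D] :
    FiniteDimensional (LaurentSeries K) (SkewLaurent (1 : RingAut D)) :=
  Module.Finite.of_basis (laurentBasis halg (Module.finBasis K D))

theorem isCentral_laurent [Algebra.IsCentral K D] :
    Algebra.IsCentral (LaurentSeries K) (SkewLaurent (1 : RingAut D)) := by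
  refine ⟨fun z hz => Algebra.mem_bot.2 ?_⟩
  rw [Subalgebra.mem_center_iff] at hz
  have hK : ∀ n, ∃ r : K, algebraMap K D r = cf z n := fun n => by
    have h2 : cf z n ∈ Subalgebra.center K D :=
      Subalgebra.mem_center_iff.2 fun a => by
        have h1 := congrArg (fun z => cf z n) (hz (C 1 a))
        simpa only [cf_C_mul, cf_mul_C, one_zpow_apply] using h1
    rw [Algebra.IsCentral.center_eq_bot, Algebra.mem_bot] at h2
    exact h2
  choose r hr using hK
  obtain ⟨w, hw⟩ := exists_series r (b := z.1.order) fun n hn => by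
    refine (algebraMap K D).injective ?_
    rw [hr, map_zero]
    exact (congrArg evalOne (HahnSeries.coeff_eq_zero_of_lt_order hn)).trans (map_zero _)
  refine ⟨w, ext_cf fun n => ?_⟩
  rw [halg, cf_laurentScalarHom, hw, hr]

end Laurent

end

end Vale.Agent.P199
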