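import Vale.Agent.P199.SymbolBasis

/-!
P199: the fields of scalars `K((u))((v))` and `K((t))` inside the symbol algebra and inside `D((t))`.
-/

namespace Vale.Agent.P199

open Finset SkewLaurent

noncomputable section

section LaurentHom

variable {L D : Type} [Field L] [DivisionRing D] {σ : RingAut D} (φ : L →+* D)
  {m : ℕ}

/-- The coefficient function of the image of a series. -/
def laurentCoeff (z : LaurentSeries L) (n : ℤ) : D :=
  if (m : ℤ) ∣ n then φ (z.coeff (n / m)) else 0

theorem laurentCoeff_mul (z : LaurentSeries L) {i : ℤ} (hi : 0 < m) :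
    laurentCoeff φ (m := m) z (m * i) = φ (z.coeff i) := by
  rw [laurentCoeff, if_pos (dvd_mul_right _ _), Int.mul_ediv_cancel_left _ (by omega)]

/-- The underlying map of `laurentHom`. -/
def laurentFun (z : LaurentSeries L) : SkewLaurent σ :=
  ⟨HahnSeries.ofSuppBddBelow (fun n => wShift σ (laurentCoeff φ (m := m) z n) n) (by
      obtain ⟨b, hb⟩ : ∃ b, ∀ i < b, z.coeff i = 0 :=
        ⟨z.order, fun i hi => HahnSeries.coeff_eq_zero_of_lt_order hi⟩
      refine ⟨(m : ℤ) * b, fun n hn => ?_⟩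
      by_contra h
      refine hn ?_
      show wShift σ (laurentCoeff φ (m := m) z n) n = 0
      rw [laurentCoeff]
      split
      · rename_i hd
        obtain ⟨i, rfl⟩ := hd
        rcases Nat.eq_zero_or_pos m with h0 | h0
        · simp [h0] at h
        · have h0' : (0 : ℤ) < m := by omega
          rw [Int.mul_ediv_cancel_left _ h0'.ne', hb i (lt_of_mul_lt_mul_left (not_le.1 h) h0'.le),
            map_zero, wShift_zero]
      · exact wShift_zero σ n),
    fun n => by
      rw [HahnSeries.coeff_ofSuppBddBelow]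
      exact ⟨_, rfl⟩⟩

theorem cf_laurentFun (z : LaurentSeries L) (n : ℤ) :
    cf (laurentFun φ (σ := σ) (m := m) z) n = laurentCoeff φ (m := m) z n :=
  evalOne_wShift σ _ _

variable (hφc : ∀ a d, φ a * d = d * φ a) (hφσ : ∀ a, σ (φ a) = φ a) (hm : 0 < m)

include hφσ hm in
theorem laurentFun_mul (y z : LaurentSeries L) :
    laurentFun φ (σ := σ) (m := m) (y * z) =
      laurentFun φ (m := m) y * laurentFun φ (m := m) z := by
  have hm' : (m : ℤ) ≠ 0 := by omega
  refine ext_cf fun n => ?_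
  rw [cf_laurentFun, cf_mul]
  simp only [cf_laurentFun]
  by_cases hn : (m : ℤ) ∣ n
  · obtain ⟨i, rfl⟩ := hn
    rw [laurentCoeff_mul φ _ hm, HahnSeries.coeff_mul, map_sum]
    refine sum_bij_ne_zero (fun p _ _ => ((m : ℤ) * p.1, (m : ℤ) * p.2)) ?_ ?_ ?_ ?_
    · intro p hp h0
      obtain ⟨h1, h2, h3⟩ := Finset.mem_antidiagonal.1 hp
      rw [map_mul] at h0
      refine Finset.mem_antidiagonal.2 ⟨?_, ?_, by rw [← mul_add, h3]⟩
      · show (laurentFun φ (σ := σ) (m := m) y).1.coeff _ ≠ 0
        intro h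
        have h' := congrArg evalOne h
        rw [map_zero] at h'
        change cf (laurentFun φ (σ := σ) (m := m) y) _ = 0 at h'
        rw [cf_laurentFun, laurentCoeff_mul φ _ hm] at h'
        exact h0 (by rw [h', zero_mul])
      · show (laurentFun φ (σ := σ) (m := m) z).1.coeff _ ≠ 0
        intro h
        have h' := congrArg evalOne h
        rw [map_zero] at h'
        change cf (laurentFun φ (σ := σ) (m := m) z) _ = 0 at h'
        rw [cf_laurentFun, laurentCoeff_mul φ _ hm] at h'
        exact h0 (by rw [h', mul_zero])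
    · intro p _ _ q _ _ h
      simp only [Prod.mk.injEq, mul_eq_mul_left_iff, hm', or_false] at h
      exact Prod.ext h.1 h.2
    · intro q hq h0
      obtain ⟨h1, h2, h3⟩ := Finset.mem_antidiagonal.1 hq
      have hd1 : (m : ℤ) ∣ q.1 := by
        by_contra hd
        exact h0 (by rw [laurentCoeff, if_neg hd, zero_mul])
      have hd2 : (m : ℤ) ∣ q.2 := by
        by_contra hd
        exact h0 (by rw [laurentCoeff, laurentCoeff, if_neg hd, map_zero, mul_zero])
      obtain ⟨a, ha⟩ := hd1
      obtain ⟨b, hb⟩ := hd2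
      rw [ha, hb, laurentCoeff_mul φ _ hm, laurentCoeff_mul φ _ hm, zpow_fix (hφσ _)] at h0
      refine ⟨(a, b), Finset.mem_antidiagonal.2 ⟨?_, ?_, ?_⟩, ?_, Prod.ext ha.symm hb.symm⟩
      · exact fun h => h0 (by rw [h, map_zero, zero_mul])
      · exact fun h => h0 (by rw [h, map_zero, mul_zero])
      · rw [ha, hb, ← mul_add] at h3
        exact mul_left_cancel₀ hm' h3
      · rwa [map_mul]
    · intro p _ _
      rw [map_mul, laurentCoeff_mul φ _ hm, laurentCoeff_mul φ _ hm, zpow_fix (hφσ _)]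
  · rw [laurentCoeff, if_neg hn]
    refine (sum_eq_zero fun q hq => ?_).symm
    obtain ⟨h1, h2, h3⟩ := Finset.mem_antidiagonal.1 hq
    by_cases hd1 : (m : ℤ) ∣ q.1
    · by_cases hd2 : (m : ℤ) ∣ q.2
      · exact absurd (h3 ▸ dvd_add hd1 hd2) hn
      · simp [laurentCoeff, hd2]
    · simp [laurentCoeff, hd1]

/-- `Σ a_i t^i ↦ Σ φ(a_i) T^(m i)`. -/
def laurentHom : LaurentSeries L →+* SkewLaurent σ where
  toFun := laurentFun φ (m := m)
  map_one' := ext_cf fun n => by
    rw [cf_laurentFun, ← map_one (C σ), cf_C]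
    by_cases hn : (m : ℤ) ∣ n
    · obtain ⟨i, rfl⟩ := hn
      rw [laurentCoeff_mul φ _ hm, HahnSeries.coeff_one]
      rcases eq_or_ne i 0 with rfl | hi
      · simp
      · simp [hi, hm.ne']
    · rw [laurentCoeff, if_neg hn, if_neg]
      rintro rfl
      exact hn (dvd_zero _)
  map_mul' := laurentFun_mul φ hφσ hm
  map_zero' := ext_cf fun n => by
    rw [cf_laurentFun, cf_zero, laurentCoeff]
    simp
  map_add' y z := ext_cf fun n => by
    rw [cf_add, cf_laurentFun, cf_laurentFun, cf_laurentFun, laurentCoeff, laurentCoeff,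
      laurentCoeff]
    split <;> simp

theorem cf_laurentHom (z : LaurentSeries L) (n : ℤ) :
    cf (laurentHom φ hφσ hm z) n = laurentCoeff φ (m := m) z n :=
  cf_laurentFun φ z n

include hφc in
theorem laurentHom_central (hσm : ∀ a, (σ ^ (m : ℤ)) a = a) (z : LaurentSeries L)
    (f : SkewLaurent σ) : laurentHom φ hφσ hm z * f = f * laurentHom φ hφσ hm z := by
  refine central_of_cf (fun n hn => ?_) f
  rw [cf_laurentHom, laurentCoeff] at hn ⊢
  split at hn
  · rename_i hd
    rw [if_pos hd]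
    refine ⟨hφc _, hφσ _, fun a => ?_⟩
    obtain ⟨i, rfl⟩ := hd
    rw [zpow_mul]
    exact zpow_fix (σ := σ ^ (m : ℤ)) (hσm a) i
  · exact absurd rfl hn

end LaurentHom

/-- A series of `L` from a function with a bound below. -/
theorem exists_series {L : Type} [Field L] (g : ℤ → L) {b : ℤ} (hb : ∀ i < b, g i = 0) :
    ∃ z : LaurentSeries L, ∀ i, z.coeff i = g i :=
  ⟨HahnSeries.ofSuppBddBelow g ⟨b, fun i hi => not_lt.1 fun h => hi (hb i h)⟩, fun _ => rfl⟩

section SymScalars

variable {K D : Type} [Field K] [DivisionRing D] [Algebra K D] (ζ : Dˣ)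
  (hc : ∀ a : D, (ζ : D) * a = a * ζ) {l : ℕ} (hl : 0 < l) (hζ : orderOf ζ = l)

theorem inner_commutes (a : LaurentSeries K) (f : SkewLaurent (1 : RingAut D)) :
    laurentHom (algebraMap K D) (fun _ => RingAut.one_apply _) hl a * f =
      f * laurentHom (algebraMap K D) (fun _ => RingAut.one_apply _) hl a :=
  laurentHom_central (algebraMap K D) Algebra.commutes _ hl (fun _ => one_zpow_apply _ _) a f

include hζ in
theorem inner_fixed (a : LaurentSeries K) :
    symTwist ζ hc (laurentHom (algebraMap K D) (fun _ => RingAut.one_apply _) hl a) =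
      laurentHom (algebraMap K D) (fun _ => RingAut.one_apply _) hl a := by
  refine ext_cf fun n => ?_
  rw [cf_symTwist, cf_laurentHom, laurentCoeff]
  split
  · rename_i hd
    rw [orderOf_dvd_iff_zpow_eq_one.1 (hζ ▸ hd), Units.val_one, one_mul]
  · rw [mul_zero]

/-- `K((u))((v)) → Sym ζ hc`, `u ↦ U ^ l`, `v ↦ V ^ l`. -/
def symScalarHom : LaurentSeries (LaurentSeries K) →+* Sym ζ hc :=
  laurentHom (laurentHom (algebraMap K D) (fun _ => RingAut.one_apply _) hl)
    (inner_fixed ζ hc hl hζ) hl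

theorem symScalarHom_commutes (z : LaurentSeries (LaurentSeries K)) (f : Sym ζ hc) :
    symScalarHom ζ hc hl hζ z * f = f * symScalarHom ζ hc hl hζ z := by
  refine laurentHom_central _ (inner_commutes hl) _ hl (fun a => ext_cf fun n => ?_) z f
  rw [cf_symTwist_zpow, orderOf_dvd_iff_zpow_eq_one.1 (hζ ▸ dvd_mul_right (l : ℤ) n),
    Units.val_one, one_mul]

/-- The symbol algebra over `K((u))((v))`. -/
abbrev symAlgebra : Algebra (LaurentSeries (LaurentSeries K)) (Sym ζ hc) :=
  RingHom.toAlgebra' (R := LaurentSeries (LaurentSeries K)) (S := Sym ζ hc)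
    (symScalarHom ζ hc hl hζ) fun c x => symScalarHom_commutes ζ hc hl hζ c x

theorem cf2_symScalarHom (z : LaurentSeries (LaurentSeries K)) (n m : ℤ) :
    cf2 ζ hc (symScalarHom ζ hc hl hζ z) n m =
      if (l : ℤ) ∣ n ∧ (l : ℤ) ∣ m then algebraMap K D ((z.coeff (n / l)).coeff (m / l)) else 0 := by
  have h1 : cf (symScalarHom ζ hc hl hζ z) n =
      laurentCoeff (laurentHom (algebraMap K D) (fun _ => RingAut.one_apply _) hl) (m := l) z n :=
    cf_laurentHom _ _ hl z n
  show cf (cf (symScalarHom ζ hc hl hζ z) n) m = _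
  rw [h1, laurentCoeff]
  by_cases hn : (l : ℤ) ∣ n
  · rw [if_pos hn, cf_laurentHom]
    unfold laurentCoeff
    by_cases hm : (l : ℤ) ∣ m
    · rw [if_pos hm, if_pos ⟨hn, hm⟩]
    · rw [if_neg hm, if_neg fun h => hm h.2]
  · rw [if_neg hn, if_neg fun h => hn h.1, cf_zero]

/-- A series with coefficients in `K` at multiples of `l` is a scalar. -/
theorem exists_symScalar {z : Sym ζ hc}
    (h : ∀ n m, cf2 ζ hc z n m ≠ 0 → (l : ℤ) ∣ n ∧ (l : ℤ) ∣ m)
    (hK : ∀ n m, ∃ r : K, cf2 ζ hc z n m = algebraMap K D r) :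
    ∃ w : LaurentSeries (LaurentSeries K), symScalarHom ζ hc hl hζ w = z := by
  choose r hr using hK
  have hl' : (0 : ℤ) < l := by omega
  have hlow : ∀ i : ℤ, ∃ f : LaurentSeries K, ∀ j, f.coeff j = r (l * i) (l * j) := fun i => by
    refine exists_series _ (b := min 0 (cf z ((l : ℤ) * i)).1.order) fun j hj => ?_
    refine (algebraMap K D).injective ?_
    rw [map_zero, ← hr]
    refine (congrArg evalOne (HahnSeries.coeff_eq_zero_of_lt_order ?_)).trans (map_zero _)
    have h1 : j < 0 := by omega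
    nlinarith [min_le_right 0 (cf z ((l : ℤ) * i)).1.order]
  choose f hf using hlow
  obtain ⟨w, hw⟩ := exists_series f (b := min 0 z.1.order) fun i hi => HahnSeries.ext (funext fun j => by
    rw [hf i j, HahnSeries.coeff_zero]
    refine (algebraMap K D).injective ?_
    rw [map_zero, ← hr]
    have h0 : cf z ((l : ℤ) * i) = 0 :=
      (congrArg evalOne (HahnSeries.coeff_eq_zero_of_lt_order (by
        have h1 : i < 0 := by omega
        nlinarith [min_le_right 0 z.1.order]))).trans (map_zero _)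
    rw [cf2, h0, cf_zero])
  refine ⟨w, ext_cf2 ζ hc fun n m => ?_⟩
  rw [cf2_symScalarHom]
  split
  · rename_i hd
    obtain ⟨⟨i, rfl⟩, ⟨j, rfl⟩⟩ := hd
    rw [Int.mul_ediv_cancel_left _ hl'.ne', Int.mul_ediv_cancel_left _ hl'.ne', hw, hf, ← hr]
  · rename_i hd
    by_contra h0
    exact hd (h n m (Ne.symm h0))

end SymScalars

end

end Vale.Agent.P199
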