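import Mathlib

/-!
# P199: deleted components (leaf lemmas)

A perturbation `e + s • G` whose powers up to the `N`-th are dependent for every `s`, where `G` has the
`N` distinct eigenvalues `g`, has scalar compressions to the eigenprojectors of `G`. With `G = x ⊗ H`,
`H` running over split elements of a matrix algebra, every matrix entry of `e` then has scalar
compressions to the eigenprojectors of `x`.
-/

namespace Vale.P199.Leaf

open Polynomial Matrix

section Eval

variable {F A : Type*} [Field F] [Ring A] [Algebra F A]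

/-- Evaluation at a scalar of a polynomial with coefficients in an algebra. -/
noncomputable def evS (h : F) : A[X] →+* A :=
  eval₂RingHom' (RingHom.id A) (algebraMap F A h) fun a => (Algebra.commute_algebraMap_right h a)

lemma evS_apply (h : F) (p : A[X]) : evS h p = p.sum fun n a => a * algebraMap F A h ^ n := by
  rw [evS, eval₂RingHom', RingHom.coe_mk]
  simp [eval₂_eq_sum]

@[simp] lemma evS_C (h : F) (a : A) : evS h (C a) = a := eval₂_C _ _

@[simp] lemma evS_X (h : F) : evS (A := A) h X = algebraMap F A h := eval₂_X _ _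

lemma evS_zero (p : A[X]) : evS (0 : F) p = p.coeff 0 := by
  show eval₂ (RingHom.id A) (algebraMap F A 0) p = _
  rw [map_zero, eval₂_at_zero, RingHom.id_apply]

/-- Independent values at `0` stay independent off a finite set of scalars. -/
lemma finite_dependent {ι : Type*} [Fintype ι] [DecidableEq ι] (q : ι → A[X])
    (h0 : LinearIndependent F fun i => (q i).coeff 0) :
    {h : F | ¬LinearIndependent F fun i => evS h (q i)}.Finite := by
  obtain ⟨L, hL⟩ := (Fintype.linearCombination F fun i => (q i).coeff 0).exists_leftInverse_of_injective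
    (LinearMap.ker_eq_bot.2 h0.fintypeLinearCombination_injective)
  have hL' : ∀ i j, L ((q j).coeff 0) i = (1 : Matrix ι ι F) i j := fun i j => by
    have h := congrFun (LinearMap.congr_fun hL (Pi.single j 1)) i
    simpa [Fintype.linearCombination_apply_single, Matrix.one_apply, Pi.single_apply] using h
  let M : Matrix ι ι F[X] := .of fun i j => (q j).sum fun n a => monomial n (L a i)
  have hM : ∀ h : F, (evalRingHom h).mapMatrix M = .of fun i j => L (evS h (q j)) i := fun h => by
    ext i j
    simp [M, Polynomial.sum, evS_apply, eval_finsetSum, ← map_pow, ← Algebra.commutes,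
      ← Algebra.smul_def, Finset.sum_apply, mul_comm]
  have hd : M.det ≠ 0 := fun hd => by
    have h := congrArg (evalRingHom (0 : F)) hd
    rw [map_zero, RingHom.map_det, hM] at h
    have h1 : (Matrix.of fun i j => L (evS (0 : F) (q j)) i) = 1 := by
      ext i j
      simp [evS_zero, hL']
    rw [h1, det_one] at h
    exact one_ne_zero h
  refine ((finite_setOfPred_isRoot hd)).subset fun h hh => ?_
  obtain ⟨c, hc, hne⟩ := Fintype.not_linearIndependent_iff.1 hh
  have h0' : (evalRingHom h).mapMatrix M *ᵥ c = 0 := by
    rw [hM]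
    ext i
    have h2 := congrFun (congrArg L hc) i
    simpa [Matrix.mulVec, dotProduct, Finset.sum_apply, mul_comm] using h2
  have h3 : Matrix.det ((evalRingHom h).mapMatrix M) = 0 := by
    by_contra h4
    obtain ⟨i, hi⟩ := hne
    exact hi (congrFun (eq_zero_of_mulVec_eq_zero h4 h0') i)
  rw [← RingHom.map_det] at h3
  exact h3

end Eval

section Leaf

variable {F A : Type*} [Field F] [Infinite F] [Ring A] [Algebra F A] {N : ℕ}

/-- The product of `G - g i` over a list. -/
private noncomputable def lprod (G : A) (g : List F) : A := (g.map fun c => G - algebraMap F A c).prod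

/-- The first order term of the product of `G + h e - g i`. -/
private noncomputable def lder (G e : A) : List F → A
  | [] => 0
  | c :: l => e * lprod G l + (G - algebraMap F A c) * lder G e l

private noncomputable def pprod (G e : A) (g : List F) : A[X] :=
  (g.map fun c => C (G - algebraMap F A c) + X * C e).prod

omit [Infinite F] in
private lemma coeff_pprod (G e : A) (l : List F) :
    (pprod G e l).coeff 0 = lprod G l ∧ (pprod G e l).coeff 1 = lder G e l := by
  induction l with
  | nil => simp [pprod, lprod, lder, coeff_one]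
  | cons c l ih =>
    have h : pprod G e (c :: l) = (C (G - algebraMap F A c) + X * C e) * pprod G e l := by simp [pprod]
    have h' : lprod G (c :: l) = (G - algebraMap F A c) * lprod G l := by simp [lprod]
    have h1 : (X * (C e * pprod G e l)).coeff 1 = e * lprod G l := by
      rw [coeff_X_mul (C e * pprod G e l) 0, coeff_C_mul, ih.1]
    have h0 : (X * (C e * pprod G e l)).coeff 0 = 0 := coeff_X_mul_zero _
    rw [h, h', add_mul, coeff_add, coeff_add, coeff_C_mul, coeff_C_mul, mul_assoc X, lder, ih.1, ih.2, h0, h1]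
    simp [add_comm]

omit [Infinite F] in
private lemma sandwich_lder (G e P : A) (a : F) (hl : P * G = a • P) (hr : G * P = a • P) (l : List F)
    (hnd : l.Nodup) [DecidableEq F] (ha : a ∈ l) :
    P * lder G e l * P = ((l.erase a).map fun c => a - c).prod • (P * e * P) := by
  have hlm : ∀ c : F, P * (G - algebraMap F A c) = (a - c) • P := fun c => by
    rw [mul_sub, hl, ← Algebra.commutes, ← Algebra.smul_def, sub_smul]
  have hrm : ∀ m : List F, lprod G m * P = (m.map fun c => a - c).prod • P := fun m => by
    induction m with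
    | nil => simp [lprod]
    | cons c m ih =>
      have h' : lprod G (c :: m) = (G - algebraMap F A c) * lprod G m := by simp [lprod]
      rw [h', mul_assoc, ih, mul_smul_comm, sub_mul, hr, ← Algebra.smul_def, ← sub_smul, smul_smul,
        List.map_cons, List.prod_cons, mul_comm]
  induction l with
  | nil => simp at ha
  | cons c m ih =>
    rw [lder, mul_add, add_mul, mul_assoc P (e * lprod G m), mul_assoc e, hrm, mul_smul_comm,
      mul_smul_comm, ← mul_assoc P (G - algebraMap F A c), hlm, smul_mul_assoc, smul_mul_assoc,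
      ← mul_assoc]
    obtain ⟨hc, hm⟩ := List.nodup_cons.1 hnd
    by_cases hac : a = c
    · subst hac
      simp
    · have ham : a ∈ m := (List.mem_cons.1 ha).resolve_left hac
      have h0 : (m.map fun c => a - c).prod = 0 :=
        List.prod_eq_zero (List.mem_map.2 ⟨a, ham, sub_self a⟩)
      rw [h0, zero_smul, zero_add, ih hm ham, smul_smul,
        List.erase_cons_tail (by simpa using Ne.symm hac), List.map_cons, List.prod_cons]

/-- The leaf lemma. -/
theorem compress_scalar {G e : A} {g : Fin N → F} (hg : Function.Injective g)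
    (hG : LinearIndependent F fun k : Fin N => G ^ (k : ℕ))
    (hkill : (List.ofFn fun i => G - algebraMap F A (g i)).prod = 0)
    (hdep : ∀ s : F, ¬LinearIndependent F fun k : Fin (N + 1) => (e + s • G) ^ (k : ℕ))
    {P : A} (hP : P * P = P) {i : Fin N} (hl : P * G = g i • P) (hr : G * P = g i • P) :
    ∃ ν : F, P * e * P = ν • P := by
  let l := List.ofFn g
  have hkill' : lprod G l = 0 := by rw [lprod, List.map_ofFn]; exact hkill
  let Q : A[X] := (pprod G e l).divX
  have hQ : X * Q = pprod G e l := by
    have h := X_mul_divX_add (pprod G e l)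
    rwa [(coeff_pprod G e l).1, hkill', C_0, add_zero] at h
  have hQ0 : Q.coeff 0 = lder G e l := by
    rw [show Q.coeff 0 = (pprod G e l).coeff 1 from coeff_divX, (coeff_pprod G e l).2]
  let Z : A[X] := C G + X * C e
  let S : Submodule F A := Submodule.span F (Set.range fun k : Fin N => G ^ (k : ℕ))
  have hS : lder G e l ∈ S := by
    by_contra hno
    let q : Fin (N + 1) → A[X] := Fin.snoc (fun k => Z ^ (k : ℕ)) Q
    have hq0 : LinearIndependent F fun k => (q k).coeff 0 := by
      have : (fun k => (q k).coeff 0) = Fin.snoc (fun k : Fin N => G ^ (k : ℕ)) (lder G e l) := by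
        funext k
        refine Fin.lastCases ?_ (fun j => ?_) k
        · simp [q, hQ0]
        · have h : (Z ^ (j : ℕ)).coeff 0 = G ^ (j : ℕ) := by
            rw [← evS_zero (F := F), map_pow]
            simp [Z]
          simp [q, h]
      rw [this, linearIndependent_finSnoc]
      exact ⟨hG, hno⟩
    obtain ⟨h, hh⟩ := ((finite_dependent q hq0).insert 0).exists_notMem
    simp only [Set.mem_insert_iff, Set.mem_ofPred_eq, not_or, not_not] at hh
    obtain ⟨hne, hind⟩ := hh
    -- the values at `h` lie in the span of the powers of `e + h⁻¹ • G`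
    let Xs := e + h⁻¹ • G
    let T : Submodule F A := Submodule.span F (Set.range fun k : Fin (N + 1) => Xs ^ (k : ℕ))
    have hpow : ∀ m, m ≤ N → Xs ^ m ∈ T := fun m hm =>
      Submodule.subset_span ⟨⟨m, Nat.lt_succ_of_le hm⟩, rfl⟩
    have hZ : evS h Z = h • Xs := by
      have h2 : h • Xs = h • e + G := by rw [show Xs = e + h⁻¹ • G from rfl, smul_add, smul_inv_smul₀ hne]
      rw [h2, Algebra.smul_def, add_comm]
      simp [Z, Algebra.commutes]
    have hprod : ∀ m : List F, m.length ≤ N →
        evS h (pprod G e m) ∈ Submodule.span F (Set.range fun k : Fin (m.length + 1) => Xs ^ (k : ℕ)) := by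
      intro m
      induction m with
      | nil => intro _; exact Submodule.subset_span ⟨0, by simp [pprod]⟩
      | cons c m ih =>
        intro hm
        have hh := ih (le_trans (Nat.le_succ _) hm)
        have hev : evS h (pprod G e (c :: m)) = (h • Xs - algebraMap F A c) * evS h (pprod G e m) := by
          rw [pprod, List.map_cons, List.prod_cons, map_mul, ← hZ]
          simp [Z, pprod, add_sub_right_comm]
        rw [hev, sub_mul, smul_mul_assoc, ← Algebra.smul_def]
        refine Submodule.sub_mem _ (Submodule.smul_mem _ _ ?_) (Submodule.smul_mem _ _ ?_)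
        · have hmap := Submodule.mem_map_of_mem (f := LinearMap.mulLeft F Xs) hh
          rw [Submodule.map_span] at hmap
          refine Submodule.span_mono ?_ hmap
          rintro _ ⟨_, ⟨k, rfl⟩, rfl⟩
          exact ⟨k.succ, by simp [pow_succ']⟩
        · refine Submodule.span_mono ?_ hh
          rintro _ ⟨k, rfl⟩
          exact ⟨k.castSucc, by simp⟩
    have hmem : ∀ k, evS h (q k) ∈ T := by
      intro k
      refine Fin.lastCases ?_ (fun j => ?_) k
      · have h1 := hprod l (by simp [l])
        have hlen : l.length = N := by simp [l]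
        rw [hlen, ← hQ, map_mul, evS_X, ← Algebra.smul_def] at h1
        have h2 := T.smul_mem h⁻¹ h1
        rw [inv_smul_smul₀ hne] at h2
        simpa [q] using h2
      · simp only [q, Fin.snoc_castSucc, map_pow, hZ]
        rw [_root_.smul_pow]
        exact T.smul_mem _ (hpow _ j.2.le)
    have hT : Module.finrank F T ≤ N := by
      by_contra hlt
      refine hdep h⁻¹ (linearIndependent_iff_card_le_finrank_span.2 ?_)
      simpa [Set.finrank, T, Xs] using Nat.lt_of_not_le hlt
    have : FiniteDimensional F T := FiniteDimensional.span_of_finite F (Set.finite_range _)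
    have hcard := (LinearIndependent.of_comp T.subtype (v := fun k => (⟨_, hmem k⟩ : T)) hind).fintype_card_le_finrank
    simp only [Fintype.card_fin] at hcard
    omega
  have hGP : ∀ m : ℕ, P * G ^ m = g i ^ m • P := fun m => by
    induction m with
    | zero => simp
    | succ m ih => rw [pow_succ, ← mul_assoc, ih, smul_mul_assoc, hl, smul_smul, pow_succ]
  have hPS : ∀ x ∈ S, ∃ ν : F, P * x * P = ν • P := by
    intro x hx
    induction hx using Submodule.span_induction with
    | mem x hx =>
      obtain ⟨k, rfl⟩ := hx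
      exact ⟨g i ^ (k : ℕ), by rw [hGP, smul_mul_assoc, hP]⟩
    | zero => exact ⟨0, by simp⟩
    | add x y _ _ hx hy =>
      obtain ⟨a, ha⟩ := hx
      obtain ⟨b, hb⟩ := hy
      exact ⟨a + b, by rw [mul_add, add_mul, ha, hb, add_smul]⟩
    | smul c x _ hx =>
      obtain ⟨a, ha⟩ := hx
      exact ⟨c * a, by rw [mul_smul_comm, smul_mul_assoc, ha, smul_smul]⟩
  obtain ⟨ν, hν⟩ := hPS _ hS
  have hnd : l.Nodup := List.nodup_ofFn.2 hg
  classical
  rw [sandwich_lder G e P (g i) hl hr l hnd (List.mem_ofFn.2 ⟨i, rfl⟩)] at hν
  have hpr : ((l.erase (g i)).map fun c => g i - c).prod ≠ 0 := by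
    refine List.prod_ne_zero fun h0 => ?_
    obtain ⟨c, hc, hc0⟩ := List.mem_map.1 h0
    exact (hnd.mem_erase_iff.1 hc).1 (sub_eq_zero.1 hc0).symm
  exact ⟨_, by rw [← inv_smul_smul₀ hpr (P * e * P), hν, smul_smul]⟩

end Leaf

section Frame

variable {F A : Type*} [Field F] [Infinite F] [Ring A] [Algebra F A]

omit [Infinite F] in
/-- A diagonalisable element with simple eigenvalues: independent powers, killed by its product. -/
lemma powers_of_frame {M : ℕ} {G : A} {lam : Fin M → F} (hlam : Function.Injective lam) {Q : Fin M → A}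
    (hQ0 : ∀ i, Q i ≠ 0) (hQ1 : ∑ i, Q i = 1) (hr : ∀ i, G * Q i = lam i • Q i) :
    LinearIndependent F (fun k : Fin M => G ^ (k : ℕ)) ∧
      (List.ofFn fun i => G - algebraMap F A (lam i)).prod = 0 := by
  refine ⟨?_, ?_⟩
  · have hpow : ∀ (m : ℕ) i, G ^ m * Q i = lam i ^ m • Q i := fun m i => by
      induction m with
      | zero => simp
      | succ m ih => rw [pow_succ, mul_assoc, hr, mul_smul_comm, ih, smul_smul, pow_succ, mul_comm]
    refine Fintype.linearIndependent_iff.2 fun c hc => congrFun ?_
    refine Matrix.eq_zero_of_forall_index_sum_mul_pow_eq_zero (R := F) (f := lam) hlam fun i => ?_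
    have h := congrArg (fun z => z * Q i) hc
    simp only [Finset.sum_mul, smul_mul_assoc, hpow, smul_smul, ← Finset.sum_smul, zero_mul] at h
    simpa [mul_comm] using (smul_eq_zero.1 h).resolve_right (hQ0 i)
  · have hkey : ∀ (m : List F) i,
        (m.map fun c => G - algebraMap F A c).prod * Q i = (m.map fun c => lam i - c).prod • Q i :=
      fun m i => by
      induction m with
      | nil => simp
      | cons c m ih =>
        rw [List.map_cons, List.prod_cons, mul_assoc, ih, mul_smul_comm, sub_mul, hr,
          ← Algebra.smul_def, ← sub_smul, smul_smul, List.map_cons, List.prod_cons, mul_comm]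
    rw [← mul_one (List.prod _), ← hQ1, Finset.mul_sum]
    refine Finset.sum_eq_zero fun i _ => ?_
    have h := hkey (List.ofFn lam) i
    rw [List.map_ofFn] at h
    rw [show (fun i => G - algebraMap F A (lam i)) = (fun c => G - algebraMap F A c) ∘ lam from rfl, h,
      List.prod_eq_zero (List.mem_map.2 ⟨lam i, List.mem_ofFn.2 ⟨i, rfl⟩, sub_self _⟩), zero_smul]

omit [Infinite F] in
/-- A basis change taking a coordinate idempotent to a prescribed rank one idempotent. -/
lemma exists_frame {ι : Type*} [Fintype ι] [DecidableEq ι] {v w : ι → F} (hwv : w ⬝ᵥ v = 1) :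
    ∃ (k : ι) (S T : Matrix ι ι F), T * S = 1 ∧ S * T = 1 ∧ (∀ a, S a k = v a) ∧ ∀ b, T k b = w b := by
  obtain ⟨k, hk⟩ : ∃ k, w k ≠ 0 := by
    by_contra! h
    simp [dotProduct, h] at hwv
  let T : Matrix ι ι F := .of fun b a => if b = k then w a else (if a = b then 1 else 0) - v b * w a
  let S : Matrix ι ι F := .of fun a c => if c = k then v a else
    (if a = c then 1 else 0) - (if a = k then w c / w k else 0)
  have hTS : T * S = 1 := by
    ext b c
    simp only [Matrix.mul_apply, T, S, Matrix.of_apply, Matrix.one_apply]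
    by_cases hb : b = k <;> by_cases hc : c = k
    · simpa [hb, hc, dotProduct] using hwv
    · have hkc : ¬k = c := Ne.symm hc
      simp [hb, hc, hkc, mul_sub, Finset.sum_sub_distrib, mul_div_cancel₀ _ hk]
    · have h : ∑ a, w a * v a = 1 := by simpa [dotProduct] using hwv
      simp [hb, hc, sub_mul, mul_assoc, Finset.sum_sub_distrib, ← Finset.mul_sum, h]
    ·       simp [hb, hc, mul_sub, sub_mul, Finset.sum_sub_distrib, mul_assoc, mul_div_cancel₀ _ hk, eq_comm]
  exact ⟨k, S, T, hTS, mul_eq_one_comm.1 hTS, fun a => by simp [S], fun b => by simp [T]⟩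

/-- The frame lemma (`Z(W ⊗ D') = W ⊗ D'`). -/
theorem entries_scalar {N : ℕ} {ι : Type*} [Fintype ι] [DecidableEq ι] {g : Fin N → F}
    (hg : Function.Injective g) (hg0 : ∀ i, g i ≠ 0) {P : Fin N → A} {x : A} (hP : ∀ i, P i * P i = P i)
    (hP0 : ∀ i, P i ≠ 0) (hP1 : ∑ i, P i = 1) (hl : ∀ i, P i * x = g i • P i)
    (hr : ∀ i, x * P i = g i • P i) (e : Matrix ι ι A)
    (hdep : ∀ (H : Matrix ι ι F) (s : F), ¬LinearIndependent F fun m : Fin (N * Fintype.card ι + 1) =>
      (e + s • Matrix.of fun a b => H a b • x) ^ (m : ℕ))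
    (i : Fin N) (a b : ι) : ∃ ν : F, P i * e a b * P i = ν • P i := by
  have key : ∀ v w : ι → F, w ⬝ᵥ v = 1 →
      ∃ ν : F, P i * (∑ c, ∑ d, (w c * v d) • e c d) * P i = ν • P i := by
    intro v w hwv
    obtain ⟨k, S, T, hTS, hST, hSk, hTk⟩ := exists_frame hwv
    let σ := (finProdFinEquiv.symm.trans ((Equiv.refl (Fin N)).prodCongr (Fintype.equivFin ι).symm) :
      Fin (N * Fintype.card ι) ≃ Fin N × ι)
    -- eigenvalues with distinct products
    have ht : ∃ t : F, Function.Injective fun p : Fin N × ι => g p.1 * t ^ (Fintype.equivFin ι p.2 : ℕ) := by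
      have hfin : ∀ p q : Fin N × ι, {t : F | p ≠ q ∧ g p.1 * t ^ (Fintype.equivFin ι p.2 : ℕ) =
          g q.1 * t ^ (Fintype.equivFin ι q.2 : ℕ)}.Finite := by
        intro p q
        by_cases hpq : p = q
        · simp [hpq]
        by_cases he : (Fintype.equivFin ι p.2 : ℕ) = (Fintype.equivFin ι q.2 : ℕ)
        · have h2 : p.1 ≠ q.1 := fun h1 =>
            hpq (Prod.ext h1 ((Fintype.equivFin ι).injective (Fin.ext he)))
          refine (Set.finite_singleton 0).subset fun t ht => ?_
          by_contra h0
          rw [he] at ht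
          exact h2 (hg (mul_right_cancel₀ (pow_ne_zero _ h0) ht.2))
        · have hne : C (g p.1) * X ^ (Fintype.equivFin ι p.2 : ℕ) -
              C (g q.1) * X ^ (Fintype.equivFin ι q.2 : ℕ) ≠ 0 := by
            intro h
            have := congrArg (coeff · (Fintype.equivFin ι p.2 : ℕ)) h
            simp [coeff_X_pow, he, hg0] at this
          refine (finite_setOfPred_isRoot hne).subset fun t ht => ?_
          simp [ht.2, IsRoot]
      obtain ⟨t, ht⟩ :=
        ((Set.finite_iUnion fun p => Set.finite_iUnion fun q => hfin p q).insert 0).exists_notMem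
      simp only [Set.mem_insert_iff, Set.mem_iUnion, Set.mem_ofPred_eq, not_or, not_exists, not_and] at ht
      exact ⟨t, fun p q h => by_contra fun hne => ht.2 p q hne h⟩
    obtain ⟨t, ht⟩ := ht
    let d : ι → F := fun r => t ^ (Fintype.equivFin ι r : ℕ)
    let φ := (algebraMap F A).mapMatrix (m := ι)
    let ψ := Matrix.scalar (α := A) ι
    have hcomm : ∀ (y : A) (H : Matrix ι ι F), ψ y * φ H = φ H * ψ y := fun y H => by
      ext c c'
      simp [ψ, φ, Algebra.commutes]
    let H := S * diagonal d * T
    let R : ι → Matrix ι ι F := fun r => S * Matrix.single r r 1 * T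
    have hG : (Matrix.of fun a b => H a b • x) = ψ x * φ H := by
      ext c c'
      simp [ψ, φ, Algebra.smul_def, Algebra.commutes]
    have hRm : ∀ r, R r * R r = R r := fun r => by
      simp only [R, Matrix.mul_assoc]
      rw [← Matrix.mul_assoc T S, hTS, Matrix.one_mul, ← Matrix.mul_assoc (Matrix.single r r 1),
        Matrix.single_mul_single_same, one_mul]
    have hHR : ∀ r, H * R r = d r • R r ∧ R r * H = d r • R r := fun r => by
      have h1 : diagonal d * Matrix.single r r 1 = d r • Matrix.single r r (1 : F) := by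
        ext c c'
        by_cases hc : r = c <;> simp [Matrix.single, hc]
      have h2 : Matrix.single r r 1 * diagonal d = d r • Matrix.single r r (1 : F) := by
        ext c c'
        by_cases hc : r = c' <;> simp [Matrix.single, hc]
      simp only [H, R, Matrix.mul_assoc]
      rw [← Matrix.mul_assoc T S, hTS, Matrix.one_mul, ← Matrix.mul_assoc (diagonal d), h1,
        ← Matrix.mul_assoc T S, hTS, Matrix.one_mul, ← Matrix.mul_assoc (Matrix.single r r 1), h2]
      simp only [Matrix.smul_mul, Matrix.mul_smul, and_self]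
    have hR1 : ∑ r, R r = 1 := by
      rw [← Finset.sum_mul, ← Finset.mul_sum,
        show (∑ r, Matrix.single r r (1 : F)) = 1 by
          ext c c'; simp [Matrix.sum_apply, Matrix.single, Matrix.one_apply, ite_and], Matrix.mul_one, hST]
    have hsm : ∀ (μ : F) (H' : Matrix ι ι F), φ (μ • H') = μ • φ H' := fun μ H' => by
      ext c c'
      show algebraMap F A ((μ • H') c c') = μ • algebraMap F A (H' c c')
      rw [Matrix.smul_apply, smul_eq_mul, map_mul, Algebra.smul_def]
    have hψs : ∀ (μ : F) (y : A), ψ (μ • y) = μ • ψ y := fun μ y => by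
      show diagonal (fun _ => μ • y) = μ • diagonal fun _ => y
      exact (Matrix.diagonal_smul μ _)
    let Qf : Fin (N * Fintype.card ι) → Matrix ι ι A := fun m => ψ (P (σ m).1) * φ (R (σ m).2)
    let lam : Fin (N * Fintype.card ι) → F := fun m => g (σ m).1 * d (σ m).2
    have hQl : ∀ m, Qf m * (ψ x * φ H) = lam m • Qf m := fun m => by
      simp only [Qf, lam, mul_assoc]
      rw [← mul_assoc (φ _) (ψ x), ← hcomm, mul_assoc (ψ x), ← map_mul φ, (hHR _).2, ← mul_assoc, ← map_mul ψ,
        hl, hψs, hsm, smul_mul_smul_comm]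
    have hQr : ∀ m, ψ x * φ H * Qf m = lam m • Qf m := fun m => by
      simp only [Qf, lam, mul_assoc]
      rw [← mul_assoc (φ _) (ψ _), ← hcomm, mul_assoc (ψ _) (φ _), ← map_mul φ, (hHR _).1, ← mul_assoc,
        ← map_mul ψ, hr, hψs, hsm, smul_mul_smul_comm]
    have hQQ : ∀ m, Qf m * Qf m = Qf m := fun m => by
      simp only [Qf, mul_assoc]
      rw [← mul_assoc (φ _) (ψ _), ← hcomm, mul_assoc (ψ _) (φ _), ← map_mul φ, hRm, ← mul_assoc, ← map_mul ψ, hP]
    have hsand : ∀ y : A, ∀ r c c', (ψ y * φ (R r)) c c' = (S c r * T r c') • y := fun y r c c' => by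
      have hR : R r c c' = S c r * T r c' := by
        simp [R, Matrix.mul_apply, Matrix.single, ite_and]
      show (diagonal (fun _ => y) * (R r).map (algebraMap F A) : Matrix ι ι A) c c' = _
      rw [Matrix.diagonal_mul, Matrix.map_apply, hR, ← Algebra.commutes, ← Algebra.smul_def]
    have hQ0 : ∀ m, Qf m ≠ 0 := fun m h0 => by
      have h1 : ∃ c c', S c (σ m).2 * T (σ m).2 c' ≠ 0 := by
        have h1 : ∑ c, T (σ m).2 c * S c (σ m).2 = 1 := by
          simpa [Matrix.mul_apply] using congrFun (congrFun hTS (σ m).2) (σ m).2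
        obtain ⟨c, -, hc⟩ := Finset.exists_ne_zero_of_sum_ne_zero (h1.trans_ne one_ne_zero)
        exact ⟨c, c, by rwa [mul_comm]⟩
      obtain ⟨c, c', hc⟩ := h1
      have h2 := congrFun (congrFun h0 c) c'
      rw [show Qf m = ψ (P (σ m).1) * φ (R (σ m).2) from rfl, hsand] at h2
      exact hP0 _ ((smul_eq_zero.1 h2).resolve_left hc)
    have hQ1 : ∑ m, Qf m = 1 := by
      rw [σ.sum_comp (fun p : Fin N × ι => ψ (P p.1) * φ (R p.2)), Fintype.sum_prod_type]
      simp only [← Finset.mul_sum, ← map_sum, hR1, map_one, mul_one, hP1]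
    have hlam : Function.Injective lam := fun m m' h => σ.injective (ht h)
    obtain ⟨hLI, hkill⟩ := powers_of_frame hlam hQ0 hQ1 hQr
    have hd := hdep H
    rw [hG] at hd
    obtain ⟨ν, hν⟩ := compress_scalar hlam hLI hkill hd (hQQ (σ.symm (i, k))) (hQl _) (hQr _)
    refine ⟨ν, ?_⟩
    -- contract with `w` on the left and `v` on the right
    have hQe : ∀ c c', Qf (σ.symm (i, k)) c c' = (v c * w c') • P i := fun c c' => by
      simp only [Qf, Equiv.apply_symm_apply]
      rw [hsand, hSk, hTk]
    obtain ⟨c, -, hc⟩ := Finset.exists_ne_zero_of_sum_ne_zero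
      (show ∑ c, w c * v c ≠ 0 from hwv.trans_ne one_ne_zero)
    have h := congrFun (congrFun hν c) c
    simp only [Matrix.mul_apply, Matrix.smul_apply, hQe, Finset.sum_mul, smul_mul_assoc, mul_smul_comm,
      smul_smul] at h
    have hc' : v c * w c ≠ 0 := by rwa [mul_comm]
    apply smul_right_injective A hc'
    show (v c * w c) • _ = (v c * w c) • ν • P i
    rw [smul_smul, mul_comm (v c * w c) ν, ← h]
    simp only [Finset.mul_sum, Finset.sum_mul, Finset.smul_sum, mul_smul_comm, smul_mul_assoc, smul_smul]
    rw [Finset.sum_comm]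
    refine Finset.sum_congr rfl fun q _ => Finset.sum_congr rfl fun p _ => ?_
    congr 1
    ring
  let S := Submodule.span F {P i}
  have hmem : ∀ c d : ι, P i * e c d * P i ∈ S := by
    intro c d
    have hsingle : ∀ c d : ι, ∑ c', ∑ d', ((Pi.single c (1 : F) : ι → F) c' * (Pi.single d 1 : ι → F) d') • e c' d' = e c d :=
      fun c d => by simp [Pi.single_apply, ite_smul]
    have hdiag : ∀ d : ι, P i * e d d * P i ∈ S := fun d => by
      obtain ⟨ν, h⟩ := key (Pi.single d 1) (Pi.single d 1) (by simp)
      rw [hsingle] at h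
      exact h ▸ Submodule.smul_mem _ _ (Submodule.mem_span_singleton_self _)
    by_cases hcd : c = d
    · exact hcd ▸ hdiag c
    obtain ⟨ν, h⟩ := key (Pi.single d 1) (Pi.single c 1 + Pi.single d 1) (by simp [hcd])
    simp only [Pi.add_apply, add_mul, add_smul, Finset.sum_add_distrib, hsingle, mul_add] at h
    rw [eq_sub_of_add_eq h]
    exact S.sub_mem (S.smul_mem _ (Submodule.mem_span_singleton_self _)) (hdiag d)
  obtain ⟨ν, h⟩ := Submodule.mem_span_singleton.1 (hmem a b)
  exact ⟨ν, h.symm⟩

end Frame

end Vale.P199.Leaf
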