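import Vale.Agent.P199.SeriesPoint

/-!
P199, the series of a lift. Over a base change `Ext P P₁` with two elements `U`, `V` of the span `M` of the monomials,
every monomial other than `1` being a commutator with `U` or `V`, the series `x + ε (a U + b V) + ...` can be continued
so that all projected equations vanish: at the monomial `1` the linked and partner parts are reached by the symbols, at
the others the obstruction of order `m + 1` is an identity and is killed by a tangent at order `m`.
-/

namespace Vale.Agent.P199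

open Module

noncomputable section

namespace Poly

variable {A R : Type*} [CommRing A] [Ring R] [Algebra A R]

theorem d1_add_dir (x u u' : Var → R) (p : Poly) : d1 x (u + u') p = d1 x u p + d1 x u' p := by
  induction p using FreeAlgebra.induction with
  | grade0 n => simp [d1, jet, ev, Matrix.intCast_apply]
  | grade1 z => simp [show FreeAlgebra.ι ℤ z = X z from rfl]
  | mul a b ha hb => simp only [d1_mul, ha, hb, mul_add, add_mul]; abel
  | add a b ha hb => simp only [d1_add, ha, hb]; abel

theorem d1_smul_dir (x u : Var → R) (s : A) (p : Poly) : d1 x (s • u) p = s • d1 x u p := by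
  induction p using FreeAlgebra.induction with
  | grade0 n => simp [d1, jet, ev, Matrix.intCast_apply]
  | grade1 z => simp [show FreeAlgebra.ι ℤ z = X z from rfl]
  | mul a b ha hb => simp only [d1_mul, ha, hb, mul_smul_comm, smul_mul_assoc, smul_add]
  | add a b ha hb => simp only [d1_add, ha, hb, smul_add]

theorem d2_add_left (x u u' v : Var → R) (p : Poly) :
    d2 x (u + u') v p = d2 x u v p + d2 x u' v p := by
  induction p using FreeAlgebra.induction with
  | grade0 n => simp [d2, jet, ev, Matrix.intCast_apply]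
  | grade1 z => simp [show FreeAlgebra.ι ℤ z = X z from rfl]
  | mul a b ha hb => simp only [d2_mul, d1_add_dir, ha, hb, mul_add, add_mul]; abel
  | add a b ha hb => simp only [d2_add, ha, hb]; abel

theorem d2_add_right (x u v v' : Var → R) (p : Poly) :
    d2 x u (v + v') p = d2 x u v p + d2 x u v' p := by
  induction p using FreeAlgebra.induction with
  | grade0 n => simp [d2, jet, ev, Matrix.intCast_apply]
  | grade1 z => simp [show FreeAlgebra.ι ℤ z = X z from rfl]
  | mul a b ha hb => simp only [d2_mul, d1_add_dir, ha, hb, mul_add, add_mul]; abel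
  | add a b ha hb => simp only [d2_add, ha, hb]; abel

theorem d2_smul_left (x u v : Var → R) (s : A) (p : Poly) :
    d2 x (s • u) v p = s • d2 x u v p := by
  induction p using FreeAlgebra.induction with
  | grade0 n => simp [d2, jet, ev, Matrix.intCast_apply]
  | grade1 z => simp [show FreeAlgebra.ι ℤ z = X z from rfl]
  | mul a b ha hb => simp only [d2_mul, d1_smul_dir, ha, hb, mul_smul_comm, smul_mul_assoc, smul_add]
  | add a b ha hb => simp only [d2_add, ha, hb, smul_add]

theorem d2_smul_right (x u v : Var → R) (s : A) (p : Poly) :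
    d2 x u (s • v) p = s • d2 x u v p := by
  induction p using FreeAlgebra.induction with
  | grade0 n => simp [d2, jet, ev, Matrix.intCast_apply]
  | grade1 z => simp [show FreeAlgebra.ι ℤ z = X z from rfl]
  | mul a b ha hb => simp only [d2_mul, d1_smul_dir, ha, hb, mul_smul_comm, smul_mul_assoc, smul_add]
  | add a b ha hb => simp only [d2_add, ha, hb, smul_add]

end Poly

namespace LiftSeries

variable {P P₁ : Pt} (E : Ext P P₁)

/-- The span of the monomials. -/
def monSpan : Submodule P₁.K P₁.D := Submodule.span P₁.K (Set.range E.mon)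

theorem mon_mem (k : Fin E.m) : E.mon k ∈ monSpan E := Submodule.subset_span ⟨k, rfl⟩

theorem comm_mem {x : P₁.D} (hx : x ∈ monSpan E) (a : P.D) : E.iD a * x = x * E.iD a := by
  induction hx using Submodule.span_induction with
  | mem x h => obtain ⟨k, rfl⟩ := h; exact E.comm a k
  | zero => simp
  | add x y _ _ hx hy => rw [mul_add, add_mul, hx, hy]
  | smul c x _ hx => rw [mul_smul_comm, smul_mul_assoc, hx]

theorem mul_mem_monSpan (hM : ∀ i k, E.mon i * E.mon k ∈ monSpan E) {x y : P₁.D}
    (hx : x ∈ monSpan E) (hy : y ∈ monSpan E) : x * y ∈ monSpan E := by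
  induction hx using Submodule.span_induction with
  | mem x h =>
    obtain ⟨i, rfl⟩ := h
    induction hy using Submodule.span_induction with
    | mem y h => obtain ⟨k, rfl⟩ := h; exact hM i k
    | zero => simp
    | add a b _ _ ha hb => rw [mul_add]; exact add_mem ha hb
    | smul c a _ ha => rw [mul_smul_comm]; exact Submodule.smul_mem _ _ ha
  | zero => simp
  | add a b _ _ ha hb => rw [add_mul]; exact add_mem ha hb
  | smul c a _ ha => rw [smul_mul_assoc]; exact Submodule.smul_mem _ _ ha

theorem iD_smul (c : P.K) (a : P.D) : E.iD (c • a) = E.iK c • E.iD a := by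
  rw [Algebra.smul_def, map_mul, E.map_algebraMap, ← Algebra.smul_def]

/-- The index of the monomial `1`. -/
def one : Fin E.m := E.mon_one.choose

theorem mon_one_eq : E.mon (one E) = 1 := E.mon_one.choose_spec

/-- A basis of the old algebra. -/
def oldBasis (P : Pt) : Basis (Fin (finrank P.K P.D)) P.K P.D := finBasis P.K P.D

/-- The basis of the new algebra. -/
def basis : Basis (Fin (finrank P.K P.D) × Fin E.m) P₁.K P₁.D :=
  haveI : Nonempty (Fin E.m) := ⟨one E⟩
  haveI : Nonempty (Fin (finrank P.K P.D)) := ⟨⟨0, finrank_pos⟩⟩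
  basisOfLinearIndependentOfCardEqFinrank (E.indep (oldBasis P) (oldBasis P).linearIndependent)
    (by rw [Fintype.card_prod, Fintype.card_fin, Fintype.card_fin, E.finrank_eq])

theorem basis_apply (z : Fin (finrank P.K P.D) × Fin E.m) :
    basis E z = E.iD (oldBasis P z.1) * E.mon z.2 := by
  simp [basis]

theorem iD_mul_mon (a : P.D) (k : Fin E.m) :
    E.iD a * E.mon k = ∑ i, E.iK ((oldBasis P).repr a i) • basis E (i, k) := by
  conv_lhs => rw [← (oldBasis P).sum_repr a]
  rw [map_sum, Finset.sum_mul]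
  exact Finset.sum_congr rfl fun i _ => by rw [iD_smul, smul_mul_assoc, basis_apply]

/-- A map given on the basis, evaluated on a product. -/
theorem constr_iD_mul {X : Type*} [AddCommGroup X] [Module P₁.K X]
    (g : Fin (finrank P.K P.D) × Fin E.m → X) (a : P.D) (k : Fin E.m) :
    (basis E).constr P₁.K g (E.iD a * E.mon k) =
      ∑ i, E.iK ((oldBasis P).repr a i) • g (i, k) := by
  rw [iD_mul_mon, map_sum]
  simp

variable {L : Listing} {n : ℕ} (r : Rows L n P)

/-- The old projection at a monomial: partners only at `1`. -/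
def projAt (k : Fin E.m) (j : Fin n) : P.D →ₗ[P.K] P.D :=
  if k = one E then r.projF j else r.proj j

/-- The projections on the new algebra. -/
def PF (j : Fin n) : P₁.D →ₗ[P₁.K] P₁.D :=
  (basis E).constr P₁.K fun z => E.iD (projAt E r z.2 j (oldBasis P z.1)) * E.mon z.2

theorem PF_iD_mon (j : Fin n) (a : P.D) (k : Fin E.m) :
    PF E r j (E.iD a * E.mon k) = E.iD (projAt E r k j a) * E.mon k := by
  rw [PF, constr_iD_mul]
  conv_rhs => rw [← (oldBasis P).sum_repr a]
  rw [map_sum, map_sum, Finset.sum_mul]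
  exact Finset.sum_congr rfl fun i _ => by rw [map_smul, iD_smul, smul_mul_assoc]

/-- The value of a covector on the linked parts of a tuple. -/
def yv (y : Dual P.K ((j : Fin n) → r.W j)) : (Fin n → P.D) →ₗ[P.K] P.K :=
  y ∘ₗ LinearMap.pi fun j =>
    ((r.proj j).codRestrict (r.W j) fun a => r.proj_mem j a) ∘ₗ LinearMap.proj j

theorem yv_apply (y : Dual P.K ((j : Fin n) → r.W j)) (d : Fin n → P.D) :
    yv r y d = y fun j => ⟨r.proj j (d j), r.proj_mem j _⟩ := rfl

/-- The obstruction at a monomial. -/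
def obs (y : Dual P.K ((j : Fin n) → r.W j)) (k : Fin E.m) : (Fin n → P₁.D) →ₗ[P₁.K] P₁.K :=
  ∑ j : Fin n, ((basis E).constr P₁.K fun z =>
    if z.2 = k then E.iK (yv r y (Pi.single j (oldBasis P z.1))) else 0) ∘ₗ LinearMap.proj j

theorem single_sum {j : Fin n} {f : Fin (finrank P.K P.D) → P.D} :
    (Pi.single j (∑ i, f i) : Fin n → P.D) = ∑ i, Pi.single j (f i) :=
  map_sum (AddMonoidHom.single (fun _ : Fin n => P.D) j) f _

theorem obs_iD_mon (y : Dual P.K ((j : Fin n) → r.W j)) (k k' : Fin E.m) (d : Fin n → P.D) :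
    obs E r y k (fun j => E.iD (d j) * E.mon k') =
      if k' = k then E.iK (yv r y d) else 0 := by
  simp only [obs, LinearMap.sum_apply, LinearMap.comp_apply, LinearMap.proj_apply, constr_iD_mul]
  by_cases h : k' = k
  · subst h
    simp only [if_true, smul_eq_mul, ← map_mul, ← map_sum]
    congr 1
    conv_rhs => rw [show d = ∑ j, Pi.single j (d j) from (Finset.univ_sum_single d).symm]
    rw [map_sum]
    refine Finset.sum_congr rfl fun j _ => ?_
    have hd : Pi.single j (d j) =
        ∑ i, (oldBasis P).repr (d j) i • (Pi.single j (oldBasis P i) : Fin n → P.D) := by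
      simp only [← Pi.single_smul]
      rw [← single_sum, (oldBasis P).sum_repr]
    rw [hd, map_sum]
    simp [map_smul]
  · simp [h]

theorem obs_eq_zero {y : Dual P.K ((j : Fin n) → r.W j)} {d : Fin n → P.D} (hd : yv r y d = 0)
    {x : P₁.D} (hx : x ∈ monSpan E) (k : Fin E.m) :
    obs E r y k (fun j => E.iD (d j) * x) = 0 := by
  induction hx using Submodule.span_induction with
  | mem x h =>
    obtain ⟨k', rfl⟩ := h
    rw [obs_iD_mon, hd, map_zero, ite_self]
  | zero =>
    rw [show (fun j => E.iD (d j) * (0 : P₁.D)) = 0 from funext fun j => mul_zero _, map_zero]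
  | add a b _ _ ha hb =>
    rw [show (fun j => E.iD (d j) * (a + b)) = (fun j => E.iD (d j) * a) + fun j => E.iD (d j) * b
      from funext fun j => mul_add _ _ _, map_add, ha, hb, add_zero]
  | smul c a _ ha =>
    rw [show (fun j => E.iD (d j) * (c • a)) = c • fun j => E.iD (d j) * a
      from funext fun j => mul_smul_comm _ _ _, map_smul, ha, smul_zero]

theorem obs_PF (y : Dual P.K ((j : Fin n) → r.W j)) {k : Fin E.m} (hk : k ≠ one E)
    (Z : Fin n → P₁.D) : obs E r y k (fun j => PF E r j (Z j)) = obs E r y k Z := by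
  classical
  suffices h : (obs E r y k) ∘ₗ LinearMap.pi (fun j => PF E r j ∘ₗ LinearMap.proj j) =
      obs E r y k from LinearMap.congr_fun h Z
  refine LinearMap.pi_ext' fun j => (basis E).ext fun z => ?_
  simp only [LinearMap.comp_apply, LinearMap.single_apply]
  have hz : (LinearMap.pi fun j' => PF E r j' ∘ₗ LinearMap.proj j') (Pi.single j (basis E z)) =
      fun j' => E.iD (Pi.single (M := fun _ => P.D) j (projAt E r z.2 j (oldBasis P z.1)) j') *
        E.mon z.2 := by
    funext j'
    rcases eq_or_ne j' j with rfl | hj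
    · simp [basis_apply, PF_iD_mon]
    · simp [Pi.single_eq_of_ne hj]
  have hz' : (Pi.single j (basis E z) : Fin n → P₁.D) =
      fun j' => E.iD (Pi.single (M := fun _ => P.D) j (oldBasis P z.1) j') * E.mon z.2 := by
    funext j'
    rcases eq_or_ne j' j with rfl | hj
    · simp [basis_apply]
    · simp [Pi.single_eq_of_ne hj]
  rw [hz, hz', obs_iD_mon, obs_iD_mon]
  refine if_congr Iff.rfl ?_ rfl
  congr 1
  rw [yv_apply, yv_apply]
  congr 1
  funext j'
  refine Subtype.ext ?_
  rcases eq_or_ne j' j with rfl | hj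
  · by_cases h1 : z.2 = one E
    · simp only [Pi.single_eq_same, projAt, if_pos h1, r.proj_projF]
    · simp only [Pi.single_eq_same, projAt, if_neg h1, r.proj_self _ _ (r.proj_mem _ _)]
  · simp [Pi.single_eq_of_ne hj]

/-- A tuple without obstruction. -/
def Good (Z : Fin n → P₁.D) : Prop := ∀ y ∈ r.Y, ∀ k, k ≠ one E → obs E r y k Z = 0

/-- A map killing the kernel of another factors through it. -/
theorem exists_factor {F A B C : Type*} [Field F] [AddCommGroup A] [Module F A] [AddCommGroup B]
    [Module F B] [AddCommGroup C] [Module F C] (f : A →ₗ[F] B) (g : A →ₗ[F] C)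
    (h : LinearMap.ker f ≤ LinearMap.ker g) : ∃ φ : B →ₗ[F] C, φ ∘ₗ f = g := by
  obtain ⟨li, hli⟩ := ((LinearMap.ker f).liftQ f le_rfl).exists_leftInverse_of_injective
    (Submodule.ker_liftQ_eq_bot _ _ _ le_rfl)
  refine ⟨((LinearMap.ker f).liftQ g h) ∘ₗ li, LinearMap.ext fun a => ?_⟩
  have h1 := LinearMap.congr_fun hli (Submodule.Quotient.mk a)
  simp only [LinearMap.comp_apply, Submodule.liftQ_apply, LinearMap.id_apply] at h1
  simp [h1]

/-- Preimages modulo identities, linearly in the tuple. -/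
theorem exists_section : ∃ (σ : (Fin n → P.D) →ₗ[P.K] Rows.Amb P)
    (φ : Dual P.K r.Y →ₗ[P.K] ((j : Fin n) → r.W j)), ∀ d j,
      r.proj j (P.dEq L (L.b n) j (σ d, 0)) =
        r.proj j (d j) - (φ ((Dual.eval P.K _ (fun i => ⟨r.proj i (d i), r.proj_mem i _⟩)).comp
          r.Y.subtype) j : P.D) := by
  have : Module.Free P.K (LinearMap.range r.J) :=
    Module.Free.of_divisionRing P.K (LinearMap.range r.J)
  obtain ⟨C, hC⟩ := exists_isCompl (LinearMap.range r.J)
  obtain ⟨s, hs⟩ := r.J.rangeRestrict.exists_rightInverse_of_surjective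
    (LinearMap.range_rangeRestrict r.J)
  set q : ((j : Fin n) → r.W j) →ₗ[P.K] Rows.Amb P :=
    s ∘ₗ Submodule.projectionOnto (LinearMap.range r.J) C hC
  set evY : ((j : Fin n) → r.W j) →ₗ[P.K] Dual P.K r.Y :=
    r.Y.subtype.dualMap ∘ₗ Dual.eval P.K _
  have hq : ∀ w ∈ LinearMap.range r.J, r.J (q w) = w := fun w hw => by
    simp only [q, LinearMap.comp_apply]
    rw [Submodule.projectionOnto_apply_left hC ⟨w, hw⟩]
    exact congrArg Subtype.val (LinearMap.congr_fun hs ⟨w, hw⟩)
  obtain ⟨φ, hφ⟩ := exists_factor evY (LinearMap.id - r.J ∘ₗ q) (fun w hw => by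
    have hw' : w ∈ LinearMap.range r.J := by
      rw [← Subspace.dualAnnihilator_dualCoannihilator_eq (W := LinearMap.range r.J),
        Submodule.mem_dualCoannihilator]
      exact fun y hy => LinearMap.congr_fun hw ⟨y, hy⟩
    simp [hq w hw'])
  set G : (Fin n → P.D) →ₗ[P.K] ((j : Fin n) → r.W j) := LinearMap.pi fun j =>
    ((r.proj j).codRestrict (r.W j) fun a => r.proj_mem j a) ∘ₗ LinearMap.proj j
  refine ⟨q ∘ₗ G, φ, fun d j => ?_⟩
  have h1 := congrArg (fun w : ((j : Fin n) → r.W j) => (w j : P.D))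
    (LinearMap.congr_fun hφ (G d))
  simp only [LinearMap.comp_apply, LinearMap.sub_apply, LinearMap.id_apply, Pi.sub_apply,
    Submodule.coe_sub] at h1
  show ((r.J (q (G d)) j : r.W j) : P.D) = (G d j : P.D) - (φ (evY (G d)) j : P.D)
  rw [h1, sub_sub_cancel]

theorem val_eq : P₁.val = fun z => E.iD (P.val z) := by
  funext z
  cases z with
  | inl a => exact E.xy_eq a
  | inr i => simp [Pt.val, E.c_eq, E.map_algebraMap]

variable (a b : Rows.Amb P) (U V : P₁.D)

/-- The first order of the lift. -/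
def X1 : Bool → P₁.D := fun c => E.iD (a c) * U + E.iD (b c) * V

theorem dirVal_mul (s : Rows.Amb P) (x : P₁.D) (N : ℕ) :
    P₁.dirVal (N := N) (fun c => E.iD (s c) * x, 0) =
      fun z => E.iD (P.dirVal (N := N) (s, 0) z) * x := by
  funext z
  cases z with
  | inl c => rfl
  | inr i => by_cases h : i < N <;> simp [Pt.dirVal, h]

theorem dEq_mul (s : Rows.Amb P) {x : P₁.D} (hx : x ∈ monSpan E) (j : ℕ) :
    P₁.dEq L (L.b n) j (fun c => E.iD (s c) * x, 0) =
      E.iD (P.dEq L (L.b n) j (s, 0)) * x := by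
  show Poly.d1 _ _ _ = _
  rw [dirVal_mul, val_eq E]
  exact (Poly.map_d1 _ _ E.iD x (comm_mem E hx) _).symm

theorem dEq_base (w : P.Dir (L.b n)) (j : ℕ) :
    P₁.dEq L (L.b n) j (fun c => E.iD (w.1 c), fun i => E.iK (w.2 i)) =
      E.iD (P.dEq L (L.b n) j w) := by
  have h : P₁.dirVal (fun c => E.iD (w.1 c), fun i => E.iK (w.2 i)) =
      fun z => E.iD (P.dirVal w z) * 1 := by
    funext z
    cases z with
    | inl c => simp [Pt.dirVal]
    | inr i => by_cases h : i < L.b n <;> simp [Pt.dirVal, h, E.map_algebraMap]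
  show Poly.d1 _ _ _ = _
  rw [h, val_eq E, ← Poly.map_d1 _ _ E.iD 1 (fun _ => by simp), mul_one]
  rfl

/-- A tuple without obstruction is reached by the differential. -/
theorem exists_preimage (hT : r.Tight) {Z : Fin n → P₁.D} (hZ : Good E r Z) :
    ∃ x : P₁.Dir (L.b n), ∀ j : Fin n,
      PF E r j (P₁.dEq L (L.b n) j x) = PF E r j (Z j) := by
  classical
  obtain ⟨σ, φ, hσ⟩ := exists_section r
  obtain ⟨τ, hτ⟩ := r.Jf.exists_rightInverse_of_surjective (LinearMap.range_eq_top.2 hT.surj)
  set eb := oldBasis P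
  set dir : Fin n → Fin (finrank P.K P.D) × Fin E.m → P₁.Dir (L.b n) := fun j z =>
    if z.2 = one E then
      (fun c => E.iD ((τ fun j' => ⟨r.projF j' (Pi.single (M := fun _ => P.D) j (eb z.1) j'),
          r.projF_mem j' _⟩).1 c),
        fun i => E.iK ((τ fun j' => ⟨r.projF j' (Pi.single (M := fun _ => P.D) j (eb z.1) j'),
          r.projF_mem j' _⟩).2 i))
    else (fun c => E.iD (σ (Pi.single j (eb z.1)) c) * E.mon z.2, 0) with hdir
  refine ⟨∑ j, ∑ z, (basis E).repr (Z j) z • dir j z, fun j' => ?_⟩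
  simp only [map_sum, map_smul]
  set Φ : Fin n → Fin (finrank P.K P.D) → P.D := fun j i =>
    (φ ((Dual.eval P.K _ (fun i' => ⟨r.proj i' (Pi.single (M := fun _ => P.D) j (eb i) i'),
      r.proj_mem i' _⟩)).comp r.Y.subtype) j' : P.D) with hΦ
  have hkey : ∀ j z, PF E r j' (P₁.dEq L (L.b n) j' (dir j z)) =
      E.iD (projAt E r z.2 j' (Pi.single (M := fun _ => P.D) j (eb z.1) j')) * E.mon z.2 -
        if z.2 = one E then 0 else E.iD (Φ j z.1) * E.mon z.2 := by
    intro j z
    by_cases h : z.2 = one E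
    · simp only [hdir, if_pos h, dEq_base, sub_zero, projAt]
      rw [← mul_one (E.iD (P.dEq L (L.b n) j' _)), ← mon_one_eq E, PF_iD_mon, h, projAt, if_pos rfl]
      congr 2
      exact congrArg Subtype.val (congrFun (LinearMap.congr_fun hτ _) j')
    · simp only [hdir, if_neg h]
      rw [dEq_mul E _ (mon_mem E z.2), PF_iD_mon, ← sub_mul, ← map_sub, projAt, if_neg h]
      congr 2
      exact hσ _ _
  simp only [hkey, smul_sub, Finset.sum_sub_distrib]
  have hsecond : ∑ j, ∑ z, (basis E).repr (Z j) z •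
      (if z.2 = one E then (0 : P₁.D) else E.iD (Φ j z.1) * E.mon z.2) = 0 := by
    have : Module.Free P.K r.Y := Module.Free.of_divisionRing P.K r.Y
    obtain ⟨e⟩ : Nonempty (Basis (Fin (finrank P.K r.Y)) P.K r.Y) := ⟨finBasis P.K r.Y⟩
    have hexp : ∀ j i, Φ j i = ∑ t, yv r (e t : Dual P.K ((j : Fin n) → r.W j)) (Pi.single j (eb i)) •
        (φ (e.dualBasis t) j' : P.D) := by
      intro j i
      rw [hΦ]
      simp only
      conv_lhs => rw [← e.dualBasis.sum_repr
        ((Dual.eval P.K _ fun i' => ⟨r.proj i' (Pi.single (M := fun _ => P.D) j (eb i) i'),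
          r.proj_mem i' _⟩).comp r.Y.subtype)]
      simp [map_sum, map_smul, Basis.dualBasis_repr, yv_apply]
    have hk : ∀ k, k ≠ one E → ∀ t, ∑ j, ∑ i, (basis E).repr (Z j) (i, k) *
        E.iK (yv r (e t : Dual P.K ((j : Fin n) → r.W j)) (Pi.single j (eb i))) = 0 := by
      intro k hk t
      have h := hZ (e t) (e t).2 k hk
      simp only [obs, LinearMap.sum_apply, LinearMap.comp_apply, LinearMap.proj_apply,
        Basis.constr_apply_fintype, Basis.equivFun_apply, smul_eq_mul] at h
      rw [← h]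
      refine Finset.sum_congr rfl fun j _ => ?_
      rw [Fintype.sum_prod_type]
      simp [mul_ite, Finset.sum_ite_eq']
      rfl
    calc _ = ∑ j, ∑ i, ∑ k, (basis E).repr (Z j) (i, k) •
          (if k = one E then (0 : P₁.D) else E.iD (Φ j i) * E.mon k) := by
            simp only [Fintype.sum_prod_type]
      _ = ∑ k, ∑ j, ∑ i, (basis E).repr (Z j) (i, k) •
          (if k = one E then (0 : P₁.D) else E.iD (Φ j i) * E.mon k) := by
            rw [Finset.sum_congr rfl fun j _ => Finset.sum_comm]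
            exact Finset.sum_comm
      _ = 0 := by
        refine Finset.sum_eq_zero fun k _ => ?_
        by_cases h : k = one E
        · simp [h]
        · simp only [if_neg h, hexp, map_sum, iD_smul, Finset.sum_mul, smul_mul_assoc,
            Finset.smul_sum, smul_smul]
          rw [Finset.sum_congr rfl fun j _ => Finset.sum_comm, Finset.sum_comm]
          refine Finset.sum_eq_zero fun t _ => ?_
          rw [← Finset.sum_congr rfl fun j _ => Finset.sum_smul, ← Finset.sum_smul, hk k h t,
            zero_smul]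
  rw [hsecond, sub_zero, Finset.sum_eq_single j' (fun j _ hj => Finset.sum_eq_zero fun z _ => by
      simp [Pi.single_eq_of_ne (Ne.symm hj)]) (fun h => absurd (Finset.mem_univ j') h),
    PF, Basis.constr_apply_fintype]
  simp [Basis.equivFun_apply, eb]

/-- The second order part against the first order. -/
def Lin (j : ℕ) : P₁.Dir (L.b n) →ₗ[P₁.K] P₁.D where
  toFun w :=
    Poly.d2 P₁.val (P₁.dirVal (N := L.b n) (X1 E a b U V, 0)) (P₁.dirVal w) (L.eqn j) +
      Poly.d2 P₁.val (P₁.dirVal w) (P₁.dirVal (N := L.b n) (X1 E a b U V, 0)) (L.eqn j)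
  map_add' w w' := by
    rw [show P₁.dirVal (w + w') = P₁.dirVal w + P₁.dirVal w' from funext (P₁.dirVal_add w w'),
      Poly.d2_add_right, Poly.d2_add_left]
    abel
  map_smul' s w := by
    rw [show P₁.dirVal (s • w) = s • P₁.dirVal w from funext (P₁.dirVal_smul s w),
      Poly.d2_smul_right, Poly.d2_smul_left, RingHom.id_apply, smul_add]

theorem dirVal_X1 (N : ℕ) :
    P₁.dirVal (N := N) (X1 E a b U V, 0) =
      (fun z => E.iD (P.dirVal (N := N) (a, 0) z) * U) +
        fun z => E.iD (P.dirVal (N := N) (b, 0) z) * V := by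
  rw [← dirVal_mul, ← dirVal_mul]
  funext z
  rw [Pi.add_apply, ← P₁.dirVal_add]
  simp [Prod.mk_add_mk]
  rfl

theorem d2_iD (u v : Var → P.D) {x y : P₁.D} (hx : x ∈ monSpan E) (hy : y ∈ monSpan E)
    (p : Poly) : Poly.d2 P₁.val (fun z => E.iD (u z) * x) (fun z => E.iD (v z) * y) p =
      E.iD (Poly.d2 P.val u v p) * (x * y) := by
  rw [val_eq E]
  exact (Poly.map_d2 _ _ _ E.iD x y (comm_mem E hx) (comm_mem E hy) p).symm

/-- The second derivative at a pair of ambient directions, on all rows. -/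
def D2 (r : Rows L n P) (u v : Rows.Amb P) : Fin n → P.D := fun j =>
  Poly.d2 P.val (P.dirVal (N := L.b n) (u, 0)) (P.dirVal (N := L.b n) (v, 0)) (L.eqn j)

theorem yv_D2 (y : Dual P.K ((j : Fin n) → r.W j)) (u v : Rows.Amb P) :
    yv r y (D2 r u v) = r.form y u v := rfl

/-- Alternating forms are antisymmetric. -/
theorem form_swap (hAlt : r.Alternating) {y : Dual P.K ((j : Fin n) → r.W j)} (hy : y ∈ r.Y)
    {u v : Rows.Amb P} (hu : u ∈ r.T) (hv : v ∈ r.T) : r.form y u v = -r.form y v u := by
  have hadd : ∀ u u' : Rows.Amb P, P.dirVal (N := L.b n) (u + u', 0) =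
      P.dirVal (N := L.b n) (u, 0) + P.dirVal (N := L.b n) (u', 0) := fun u u' => by
    funext z
    rw [Pi.add_apply, ← P.dirVal_add, Prod.mk_add_mk, add_zero]
  have h := hAlt y hy (u + v) (add_mem hu hv)
  rw [← yv_D2] at h
  have hD : D2 r (u + v) (u + v) = (D2 r u u + D2 r u v) + (D2 r v u + D2 r v v) := by
    funext j
    simp only [D2, Pi.add_apply, hadd, Poly.d2_add_left, Poly.d2_add_right]
    abel
  rw [hD, map_add, map_add, map_add, yv_D2, yv_D2, yv_D2, yv_D2, hAlt y hy u hu,
    hAlt y hy v hv] at h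
  linear_combination h

variable {a b U V}

theorem Lin_mul (s : Rows.Amb P) {ν : P₁.D} (hU : U ∈ monSpan E) (hV : V ∈ monSpan E)
    (hν : ν ∈ monSpan E) (j : Fin n) :
    Lin (L := L) (n := n) E a b U V j (fun c => E.iD (s c) * ν, 0) =
      E.iD (D2 r a s j) * (U * ν) + E.iD (D2 r b s j) * (V * ν) +
        (E.iD (D2 r s a j) * (ν * U) + E.iD (D2 r s b j) * (ν * V)) := by
  simp only [Lin, LinearMap.coe_mk, AddHom.coe_mk]
  rw [dirVal_mul, dirVal_X1, Poly.d2_add_left, Poly.d2_add_right, d2_iD E _ _ hU hν,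
    d2_iD E _ _ hV hν, d2_iD E _ _ hν hU, d2_iD E _ _ hν hV]
  rfl

/-- A tangent at one monomial moves exactly one obstruction. -/
theorem obs_Lin (hAlt : r.Alternating) (hM : ∀ i k, E.mon i * E.mon k ∈ monSpan E)
    (hU : U ∈ monSpan E) (hV : V ∈ monSpan E) (ha : a ∈ r.T) (hb : b ∈ r.T) {k : Fin E.m}
    {ν : P₁.D} (hν : ν ∈ monSpan E) {s : Rows.Amb P} (hs : s ∈ r.T) (f : r.Y → P.K)
    (h : (U * ν - ν * U = E.mon k ∧ ∀ y : r.Y, r.form y a s = f y ∧ r.form y b s = 0) ∨
      (V * ν - ν * V = E.mon k ∧ ∀ y : r.Y, r.form y b s = f y ∧ r.form y a s = 0))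
    (y : r.Y) (k' : Fin E.m) :
    obs E r y k' (fun j => Lin (L := L) (n := n) E a b U V j (fun c => E.iD (s c) * ν, 0)) =
      if k = k' then E.iK (f y) else 0 := by
  have hsum : (fun j : Fin n => Lin (L := L) (n := n) E a b U V j (fun c => E.iD (s c) * ν, 0)) =
      ((fun j : Fin n => E.iD (D2 r a s j) * (U * ν - ν * U)) +
        fun j : Fin n => E.iD ((D2 r a s + D2 r s a) j) * (ν * U)) +
      ((fun j : Fin n => E.iD (D2 r b s j) * (V * ν - ν * V)) +
        fun j : Fin n => E.iD ((D2 r b s + D2 r s b) j) * (ν * V)) := by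
    funext j
    rw [Lin_mul E r s hU hV hν j]
    simp only [Pi.add_apply, map_add, mul_sub, add_mul]
    abel
  have hz : ∀ u : Rows.Amb P, u ∈ r.T → yv r y (D2 r u s + D2 r s u) = 0 := fun u hu => by
    rw [map_add, yv_D2, yv_D2, form_swap r hAlt y.2 hu hs, neg_add_cancel]
  rw [hsum, map_add, map_add, map_add, obs_eq_zero E r (hz a ha) (mul_mem_monSpan E hM hν hU),
    obs_eq_zero E r (hz b hb) (mul_mem_monSpan E hM hν hV), add_zero, add_zero]
  rcases h with ⟨hk, hf⟩ | ⟨hk, hf⟩
  · rw [hk, obs_iD_mon, yv_D2, (hf y).1,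
      obs_eq_zero E r (d := D2 r b s) (by rw [yv_D2, (hf y).2]) (sub_mem
        (mul_mem_monSpan E hM hV hν) (mul_mem_monSpan E hM hν hV)), add_zero]
  · rw [hk, obs_iD_mon, yv_D2, (hf y).1,
      obs_eq_zero E r (d := D2 r a s) (by rw [yv_D2, (hf y).2]) (sub_mem
        (mul_mem_monSpan E hM hU hν) (mul_mem_monSpan E hM hν hU)), zero_add]

/-- The hypotheses of a lift. -/
structure LiftData (a b : Rows.Amb P) (U V : P₁.D) : Prop where
  tight : r.Tight
  alt : r.Alternating
  mul : ∀ i k, E.mon i * E.mon k ∈ monSpan E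
  memU : U ∈ monSpan E
  memV : V ∈ monSpan E
  comm : ∀ k, k ≠ one E → ∃ ν ∈ monSpan E,
    U * ν - ν * U = E.mon k ∨ V * ν - ν * V = E.mon k
  memA : a ∈ r.T
  memB : b ∈ r.T
  ab : ∀ y ∈ r.Y, r.form y a b = 0
  solA : ∀ f : Dual P.K r.Y, ∃ s ∈ r.T, ∀ y : r.Y, r.form y a s = f y ∧ r.form y b s = 0
  solB : ∀ f : Dual P.K r.Y, ∃ s ∈ r.T, ∀ y : r.Y, r.form y b s = f y ∧ r.form y a s = 0

/-- Every obstruction is moved by a tangent. -/
theorem exists_correction (h : LiftData E r a b U V) (Z : Fin n → P₁.D) :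
    ∃ u : P₁.Dir (L.b n), (∀ j : Fin n, P₁.dEq L (L.b n) j u = 0) ∧
      Good E r (fun j => Lin (L := L) (n := n) E a b U V j u + Z j) := by
  classical
  have : Module.Free P.K r.Y := Module.Free.of_divisionRing P.K r.Y
  let e := finBasis P.K r.Y
  have hex : ∀ t k, ∃ u : P₁.Dir (L.b n), (∀ j : Fin n, P₁.dEq L (L.b n) j u = 0) ∧
      (k ≠ one E → ∀ t' k', obs E r (e t' : Dual P.K ((j : Fin n) → r.W j)) k'
        (fun j : Fin n => Lin (L := L) (n := n) E a b U V j u) = if k = k' then
          E.iK (if t = t' then 1 else 0) else 0) := by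
    intro t k
    by_cases hk : k = one E
    · exact ⟨0, fun j => map_zero _, fun hk' => absurd hk hk'⟩
    obtain ⟨ν, hν, hbr⟩ := h.comm k hk
    have hf : ∀ t', (e.coord t : r.Y →ₗ[P.K] P.K) (e t') = if t = t' then 1 else 0 := fun t' => by
      simp [Basis.coord_apply, Finsupp.single_apply, eq_comm]
    obtain ⟨s, hs, hsf⟩ : ∃ s ∈ r.T, (U * ν - ν * U = E.mon k ∧
          ∀ y : r.Y, r.form y a s = e.coord t y ∧ r.form y b s = 0) ∨
        (V * ν - ν * V = E.mon k ∧
          ∀ y : r.Y, r.form y b s = e.coord t y ∧ r.form y a s = 0) := by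
      rcases hbr with hbr | hbr
      · obtain ⟨s, hs, hs'⟩ := h.solA (e.coord t); exact ⟨s, hs, Or.inl ⟨hbr, hs'⟩⟩
      · obtain ⟨s, hs, hs'⟩ := h.solB (e.coord t); exact ⟨s, hs, Or.inr ⟨hbr, hs'⟩⟩
    refine ⟨(fun c => E.iD (s c) * ν, 0), fun j => ?_, fun _ t' k' => ?_⟩
    · rw [dEq_mul E s hν, h.tight.fixed s hs j, map_zero, zero_mul]
    · rw [obs_Lin E r h.alt h.mul h.memU h.memV h.memA h.memB hν hs (fun y => e.coord t y) hsf,
        hf t']
  choose u hu hobs using hex
  refine ⟨∑ t, ∑ k ∈ Finset.univ.erase (one E),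
    (-obs E r (e t : Dual P.K ((j : Fin n) → r.W j)) k Z) • u t k, fun j => by simp [map_sum, hu], ?_⟩
  have hbasis : ∀ t' k', k' ≠ one E → obs E r (e t' : Dual P.K ((j : Fin n) → r.W j)) k' (fun j =>
      Lin (L := L) (n := n) E a b U V j (∑ t, ∑ k ∈ Finset.univ.erase (one E),
        (-obs E r (e t : Dual P.K ((j : Fin n) → r.W j)) k Z) • u t k) + Z j) = 0 := by
    intro t' k' hk'
    have hfun : (fun j : Fin n => Lin (L := L) (n := n) E a b U V j
        (∑ t, ∑ k ∈ Finset.univ.erase (one E), (-obs E r (e t : Dual P.K ((j : Fin n) → r.W j)) k Z) • u t k) + Z j) =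
        (∑ t, ∑ k ∈ Finset.univ.erase (one E), (-obs E r (e t : Dual P.K ((j : Fin n) → r.W j)) k Z) •
          fun j : Fin n => Lin (L := L) (n := n) E a b U V j (u t k)) + Z := by
      funext j
      simp [map_sum, Finset.sum_apply]
    rw [hfun, map_add, map_sum, Finset.sum_eq_single t', map_sum, Finset.sum_eq_single k']
    · rw [map_smul, hobs t' k' hk']
      simp
    · intro k hk hne
      rw [map_smul, hobs t' k (Finset.ne_of_mem_erase hk), if_neg hne, smul_zero]
    · exact fun hne => absurd (Finset.mem_erase.2 ⟨hk', Finset.mem_univ _⟩) hne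
    · intro t _ hne
      rw [map_sum]
      refine Finset.sum_eq_zero fun k hk => ?_
      rw [map_smul, hobs t k (Finset.ne_of_mem_erase hk), if_neg hne, map_zero, ite_self,
        smul_zero]
    · exact fun hne => absurd (Finset.mem_univ _) hne
  intro y hy k hk
  exact obs_of_basis e _ (fun t => hbasis t k hk) ⟨y, hy⟩
where
  obs_of_basis (e : Basis (Fin (finrank P.K r.Y)) P.K r.Y) (W : Fin n → P₁.D) {k : Fin E.m}
      (hW : ∀ t, obs E r (e t : Dual P.K ((j : Fin n) → r.W j)) k W = 0) (y : r.Y) : obs E r y k W = 0 := by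
    have hy : (y : Dual P.K ((j : Fin n) → r.W j)) = ∑ t, e.repr y t • (e t : Dual P.K ((j : Fin n) → r.W j)) := by
      have h' := congrArg r.Y.subtype (e.sum_repr y)
      simp only [map_sum, map_smul] at h'
      exact h'.symm
    rw [obs, hy]
    simp only [LinearMap.sum_apply, LinearMap.comp_apply, LinearMap.proj_apply,
      Basis.constr_apply_fintype, Basis.equivFun_apply, smul_eq_mul]
    have h2 : ∀ j z, (if (z : Fin (finrank P.K P.D) × Fin E.m).2 = k then
        E.iK (yv r (∑ t, e.repr y t • (e t : Dual P.K ((j : Fin n) → r.W j))) (Pi.single j (oldBasis P z.1))) else 0) =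
        ∑ t, E.iK (e.repr y t) * (if z.2 = k then
          E.iK (yv r (e t : Dual P.K ((j : Fin n) → r.W j)) (Pi.single j (oldBasis P z.1))) else 0) := by
      intro j z
      by_cases hz : z.2 = k
      · simp [hz, yv_apply, map_sum, map_mul, LinearMap.sum_apply]
      · simp [hz]
    simp only [h2, Finset.mul_sum]
    rw [Finset.sum_congr rfl fun j _ => Finset.sum_comm, Finset.sum_comm]
    refine Finset.sum_eq_zero fun t _ => ?_
    have ht := hW t
    simp only [obs, LinearMap.sum_apply, LinearMap.comp_apply, LinearMap.proj_apply,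
      Basis.constr_apply_fintype, Basis.equivFun_apply, smul_eq_mul] at ht
    simp only [mul_left_comm _ (E.iK _), ← Finset.mul_sum, ht, mul_zero]

/-- The generators of the series with coefficients `w` from order two on. -/
def XW (a b : Rows.Amb P) (U V : P₁.D) (w : ℕ → P₁.Dir (L.b n)) : ℕ → Bool → P₁.D
  | 0 => P₁.xy
  | 1 => X1 E a b U V
  | m + 2 => (w m).1

/-- The symbols of the series with coefficients `w` from order two on. -/
def CW (w : ℕ → P₁.Dir (L.b n)) : ℕ → ℕ → P₁.K
  | 0 => P₁.c
  | 1 => 0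
  | m + 2 => fun i => if h : i < L.b n then (w m).2 ⟨i, h⟩ else 0

variable (a b U V)

/-- The series point. -/
def serW (w : ℕ → P₁.Dir (L.b n)) : Var → PowerSeries P₁.D :=
  SeriesPoint.ser (XW E a b U V w) (CW w)

theorem cf_serW_zero (w : ℕ → P₁.Dir (L.b n)) : Poly.cf 0 (serW E a b U V w) = P₁.val :=
  SeriesPoint.cf_ser_zero _ _ rfl rfl

theorem cf_serW_one (w : ℕ → P₁.Dir (L.b n)) :
    Poly.cf 1 (serW E a b U V w) = P₁.dirVal (N := L.b n) (X1 E a b U V, 0) := by
  rw [serW, SeriesPoint.cf_ser]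
  funext z
  cases z with
  | inl c => rfl
  | inr i => by_cases h : i < L.b n <;> simp [Pt.dirVal, CW, h]

theorem cf_serW_two (w : ℕ → P₁.Dir (L.b n)) (m : ℕ) :
    Poly.cf (m + 2) (serW E a b U V w) = P₁.dirVal (w m) := by
  rw [serW, SeriesPoint.cf_ser]
  funext z
  cases z with
  | inl c => rfl
  | inr i => by_cases h : i < L.b n <;> simp [Pt.dirVal, CW, h]

/-- The coefficients of the equations of the series point. -/
def err (w : ℕ → P₁.Dir (L.b n)) (m : ℕ) (j : ℕ) : P₁.D :=
  PowerSeries.coeff m (Poly.ev (serW E a b U V w) (L.eqn j))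

theorem cut_serW {w w' : ℕ → P₁.Dir (L.b n)} {k : ℕ} (h : ∀ i < k, w i = w' i) :
    Poly.cut (k + 2) (serW E a b U V w) = Poly.cut (k + 2) (serW E a b U V w') := by
  refine Poly.cut_congr fun i hi => ?_
  match i with
  | 0 => rw [cf_serW_zero, cf_serW_zero]
  | 1 => rw [cf_serW_one, cf_serW_one]
  | i + 2 => rw [cf_serW_two, cf_serW_two, h i (by omega)]

theorem err_congr {w w' : ℕ → P₁.Dir (L.b n)} {k m : ℕ} (h : ∀ i < k, w i = w' i)
    (hm : m < k + 2) (j : ℕ) : err E a b U V w m j = err E a b U V w' m j := by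
  rw [err, err, (Poly.ev_sub_ev_cut _ (by omega : 2 ≤ k + 2) _).1 m hm, cut_serW E a b U V h,
    ← (Poly.ev_sub_ev_cut _ (by omega : 2 ≤ k + 2) _).1 m hm]

/-- The prefix followed by one value. -/
def trunc {m : ℕ} (prev : Fin m → P₁.Dir (L.b n)) (x : P₁.Dir (L.b n)) : ℕ → P₁.Dir (L.b n) :=
  fun i => if h : i < m then prev ⟨i, h⟩ else if i = m then x else 0

theorem err_trunc_low {m : ℕ} (prev : Fin m → P₁.Dir (L.b n)) (x : P₁.Dir (L.b n)) (j : ℕ) :
    err E a b U V (trunc prev x) (m + 2) j =
      P₁.dEq L (L.b n) j x + err E a b U V (trunc prev 0) (m + 2) j := by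
  have h := fun y => (Poly.ev_sub_ev_cut (serW E a b U V (trunc prev y))
    (by omega : 2 ≤ m + 2) (L.eqn j)).2.1
  rw [err, err, h x, h 0, cut_serW E a b U V (w' := trunc prev (0 : P₁.Dir (L.b n)))
    (fun i hi => by simp [trunc, hi]), cf_serW_zero, cf_serW_zero, cf_serW_two, cf_serW_two]
  simp only [trunc, lt_irrefl, dite_false, if_true]
  show P₁.dEq L (L.b n) j x + _ = P₁.dEq L (L.b n) j x + (P₁.dEq L (L.b n) j 0 + _)
  rw [map_zero, zero_add]

theorem err_trunc_high {m : ℕ} (prev : Fin m → P₁.Dir (L.b n)) (x : P₁.Dir (L.b n)) (j : ℕ) :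
    err E a b U V (trunc prev x) (m + 3) j =
      Lin (L := L) (n := n) E a b U V j x + err E a b U V (trunc prev 0) (m + 3) j := by
  have h := fun y => (Poly.ev_sub_ev_cut (serW E a b U V (trunc prev y))
    (by omega : 2 ≤ m + 2) (L.eqn j)).2.2
  rw [err, err, h x, h 0, cut_serW E a b U V (w' := trunc prev (0 : P₁.Dir (L.b n)))
    (fun i hi => by simp [trunc, hi]), cf_serW_zero, cf_serW_zero, cf_serW_one, cf_serW_one,
    cf_serW_two, cf_serW_two, show m + 2 + 1 = (m + 1) + 2 from rfl, cf_serW_two, cf_serW_two]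
  simp only [trunc, lt_irrefl, dite_false, if_true, add_lt_iff_neg_left, not_lt_zero,
    Nat.succ_ne_self, if_false]
  show P₁.dEq L (L.b n) j 0 + Lin (L := L) (n := n) E a b U V j x + _ =
    Lin (L := L) (n := n) E a b U V j x +
      (P₁.dEq L (L.b n) j 0 + Lin (L := L) (n := n) E a b U V j 0 + _)
  simp

theorem Good_congr {Z Z' : Fin n → P₁.D} (h : ∀ j, PF E r j (Z j) = PF E r j (Z' j))
    (hZ : Good E r Z) : Good E r Z' := fun y hy k hk => by
  rw [← obs_PF E r y hk, ← funext h, obs_PF E r y hk]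
  exact hZ y hy k hk

/-- The start: no obstruction at order two. -/
theorem good_two (h : LiftData E r a b U V) :
    Good E r (fun j => err (L := L) (n := n) E a b U V
      (trunc (m := 0) (Fin.elim0 : Fin 0 → P₁.Dir (L.b n)) 0) 2 j) := by
  intro y hy k _
  have hval : (fun j : Fin n => err (L := L) (n := n) E a b U V
      (trunc (m := 0) (Fin.elim0 : Fin 0 → P₁.Dir (L.b n)) 0) 2 j) =
      (((fun j => E.iD (D2 r a a j) * (U * U)) + fun j => E.iD (D2 r a b j) * (U * V)) +
        ((fun j => E.iD (D2 r b a j) * (V * U)) + fun j => E.iD (D2 r b b j) * (V * V))) := by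
    funext j
    rw [err, Poly.coeff_two_ev, cf_serW_zero, cf_serW_one, show (2 : ℕ) = 0 + 2 from rfl,
      cf_serW_two, dirVal_X1, Poly.d2_add_left, Poly.d2_add_right, Poly.d2_add_right,
      d2_iD E _ _ h.memU h.memU, d2_iD E _ _ h.memU h.memV, d2_iD E _ _ h.memV h.memU,
      d2_iD E _ _ h.memV h.memV]
    show P₁.dEq L (L.b n) j (trunc (m := 0) Fin.elim0 0 0) + _ = _
    simp [trunc]
    rfl
  have hba : r.form y b a = 0 := by
    rw [form_swap r h.alt hy h.memB h.memA, h.ab y hy, neg_zero]
  rw [hval, map_add, map_add, map_add,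
    obs_eq_zero E r (by rw [yv_D2, h.alt y hy a h.memA]) (mul_mem_monSpan E h.mul h.memU h.memU),
    obs_eq_zero E r (by rw [yv_D2, h.ab y hy]) (mul_mem_monSpan E h.mul h.memU h.memV),
    obs_eq_zero E r (by rw [yv_D2, hba]) (mul_mem_monSpan E h.mul h.memV h.memU),
    obs_eq_zero E r (by rw [yv_D2, h.alt y hy b h.memB]) (mul_mem_monSpan E h.mul h.memV h.memV)]
  simp

/-- **LIFT, series part**: all projected equations of the continued series vanish. -/
theorem exists_series (hS : P.Solves L n) (h : LiftData E r a b U V) :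
    ∃ w : ℕ → P₁.Dir (L.b n), ∀ (j : Fin n) m, PF E r j (err E a b U V w m j) = 0 := by
  obtain ⟨w, hw⟩ := Vale.P199.Valued.exists_seq (V := P₁.Dir (L.b n))
    (fun m prev x => (∀ j : Fin n, PF E r j (err E a b U V (trunc prev x) (m + 2) j) = 0) ∧
      Good E r (fun j => err E a b U V (trunc prev x) (m + 3) j)) fun m prev hprev => by
    have hgood : Good E r (fun j => err E a b U V (trunc prev 0) (m + 2) j) := by
      match m, prev, hprev with
      | 0, prev, _ => rw [Subsingleton.elim prev Fin.elim0]; exact good_two E r a b U V h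
      | k + 1, prev, hprev =>
        have h2 := (hprev ⟨k, by omega⟩).2
        have he : trunc (fun i : Fin k => prev ⟨i, by omega⟩) (prev ⟨k, by omega⟩) =
            trunc prev 0 := by
          funext i
          simp only [trunc]
          by_cases h1 : i < k
          · rw [dif_pos h1, dif_pos (by omega)]
          · by_cases h2 : i = k
            · subst h2; rw [dif_neg h1, if_pos rfl, dif_pos (by omega)]
            · rw [dif_neg h1, if_neg h2, dif_neg (by omega), ite_self]
        rw [← he]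
        exact h2
    obtain ⟨x₀, hx₀⟩ := exists_preimage E r h.tight
      (Z := fun j => -err E a b U V (trunc prev 0) (m + 2) j) (fun y hy k hk => by
        rw [show (fun j : Fin n => -err E a b U V (trunc prev 0) (m + 2) j) =
          -(fun j : Fin n => err E a b U V (trunc prev 0) (m + 2) j) from rfl, map_neg,
          hgood y hy k hk, neg_zero])
    obtain ⟨u, hu, hu'⟩ := exists_correction E r h
      (fun j => Lin (L := L) (n := n) E a b U V j x₀ + err E a b U V (trunc prev 0) (m + 3) j)
    refine ⟨u + x₀, fun j => ?_, fun y hy k hk => ?_⟩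
    · rw [err_trunc_low, map_add, map_add, hu j, zero_add, hx₀ j, map_neg, neg_add_cancel]
    · rw [show (fun j : Fin n => err E a b U V (trunc prev (u + x₀)) (m + 3) j) =
        fun j : Fin n => Lin (L := L) (n := n) E a b U V j u +
          (Lin (L := L) (n := n) E a b U V j x₀ + err E a b U V (trunc prev 0) (m + 3) j) from
        funext fun j => by rw [err_trunc_high, map_add, add_assoc]]
      exact hu' y hy k hk
  refine ⟨w, fun j m => ?_⟩
  match m with
  | 0 =>
    rw [err, Poly.coeff_zero_ev, cf_serW_zero, val_eq E, ← Poly.ev_map E.iD, hS j j.2, map_zero,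
      map_zero]
  | 1 =>
    rw [err, Poly.coeff_one_ev, cf_serW_zero, cf_serW_one, dirVal_X1, Poly.d1_add_dir, val_eq E,
      ← Poly.map_d1 _ _ E.iD U (comm_mem E h.memU), ← Poly.map_d1 _ _ E.iD V (comm_mem E h.memV)]
    have ha := h.tight.fixed a h.memA j
    have hb := h.tight.fixed b h.memB j
    change Poly.d1 P.val _ _ = 0 at ha hb
    rw [ha, hb, map_zero, zero_mul, zero_mul, add_zero, map_zero]
  | m + 2 =>
    rw [err_congr E a b U V (k := m + 1) (w' := trunc (fun i : Fin m => w i) (w m))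
      (fun i hi => by
        simp only [trunc]
        by_cases h1 : i < m
        · rw [dif_pos h1]
        · rw [dif_neg h1, if_pos (by omega), show i = m by omega]) (by omega)]
    exact (hw m).1 j

/-- **LIFT**: granted deletion, a step solving the equations. -/
theorem exists_step (hS : P.Solves L n) (h : LiftData E r a b U V)
    (hdel : ∀ w : ℕ → P₁.Dir (L.b n), (∀ (j : Fin n) m, PF E r j (err E a b U V w m j) = 0) →
      ∀ (j : Fin n) m, err E a b U V w m j = 0) :
    ∃ w : ℕ → P₁.Dir (L.b n),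
      Step P (SeriesPoint.data (XW E a b U V w) (CW w) rfl rfl).pt ∧
        (SeriesPoint.data (XW E a b U V w) (CW w) rfl rfl).pt.Solves L n := by
  obtain ⟨w, hw⟩ := exists_series E r a b U V hS h
  exact ⟨w, ⟨P₁, ⟨E⟩, ⟨(SeriesPoint.data (XW E a b U V w) (CW w) rfl rfl).laur⟩⟩,
    (SeriesPoint.solves_data _ _ rfl rfl L n).2 fun j hj m => hdel w hw ⟨j, hj⟩ m⟩

end LiftSeries

end

end Vale.Agent.P199
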