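import Vale.Agent.P199.Sep

/-!
# Finitely generated subalgebras with bounded separable degree
-/

namespace Vale.Agent.P199

open Polynomial

variable {F D : Type*} [Field F] [DivisionRing D] [Algebra F D] [Algebra.IsAlgebraic F D]

omit [Algebra.IsAlgebraic F D] in
theorem finite_over_base_of_finite_over_center {k : Type*} [Field k] [Algebra F k]
    [Algebra.IsIntegral F k] [Algebra k D] [IsScalarTower F k D] [FiniteDimensional k D]
    (S : Finset D) (hS : Algebra.adjoin F (S : Set D) = ⊤) : FiniteDimensional F D := by
  classical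
  set e := Module.finBasis k D
  set ι := Fin (Module.finrank k D)
  let c : Set k := Set.range (fun p : ι × ι × ι => e.repr (e p.1 * e p.2.1) p.2.2) ∪
    Set.range (fun p : S × ι => e.repr (p.1 : D) p.2) ∪ Set.range (fun i : ι => e.repr 1 i)
  set Z := Algebra.adjoin F c
  have hZfin : FiniteDimensional F Z := Module.Finite.iff_fg.mpr <|
    fg_adjoin_of_finite (((Set.finite_range _).union (Set.finite_range _)).union
      (Set.finite_range _)) fun y _ => Algebra.IsIntegral.isIntegral y
  have hone : ∀ i, e.repr 1 i ∈ Z := fun i => Algebra.subset_adjoin (Or.inr ⟨i, rfl⟩)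
  have hall : ∀ x : D, ∀ i, e.repr x i ∈ Z := by
    intro x
    have hx : x ∈ Algebra.adjoin F (S : Set D) := hS ▸ Algebra.mem_top
    induction hx using Algebra.adjoin_induction with
    | mem y hy => exact fun i => Algebra.subset_adjoin (Or.inl (Or.inr ⟨(⟨y, hy⟩, i), rfl⟩))
    | algebraMap r =>
      intro i
      rw [IsScalarTower.algebraMap_apply F k D, Algebra.algebraMap_eq_smul_one, map_smul]
      exact mul_mem (Subalgebra.algebraMap_mem Z r) (hone i)
    | add y z _ _ hy hz =>
      intro i
      rw [map_add]
      exact add_mem (hy i) (hz i)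
    | mul y z _ _ hy hz =>
      intro i
      rw [← e.sum_repr y, ← e.sum_repr z]
      simp only [Finset.sum_mul, Finset.mul_sum, smul_mul_assoc, mul_smul_comm, map_sum, map_smul,
        Finsupp.coe_finsetSum, Finset.sum_apply, Finsupp.coe_smul, Pi.smul_apply, smul_eq_mul]
      refine sum_mem fun a _ => sum_mem fun b _ => ?_
      exact mul_mem (hz a) (mul_mem (hy b)
        (Algebra.subset_adjoin (Or.inl (Or.inl ⟨(b, a, i), rfl⟩))))
  let φ : D →ₗ[F] (ι → Z) :=
    { toFun := fun x i => ⟨e.repr x i, hall x i⟩
      map_add' := fun x y => by funext i; ext; simp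
      map_smul' := fun r x => by
        funext i; ext
        simp only [← IsScalarTower.algebraMap_smul k r x, map_smul, Finsupp.coe_smul,
          Pi.smul_apply, RingHom.id_apply, SetLike.val_smul, smul_eq_mul]
        rw [Algebra.smul_def] }
  exact Module.Finite.of_injective φ fun x y h => e.repr.injective <| Finsupp.ext fun i =>
    congrArg Subtype.val (congrFun h i)

/-- The separable degree over a larger central field is bounded by the one over `F`. -/
theorem sepBounded_tower {k : Type*} [Field k] [Algebra F k] [Algebra k D] [IsScalarTower F k D]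
    [Algebra.IsAlgebraic k D] {d : ℕ} (hd : SepBounded F D d) : SepBounded k D d := by
  intro a ha
  obtain ⟨q, hq⟩ := ExpChar.exists F
  have : ExpChar k q := expChar_of_injective_algebraMap (algebraMap F k).injective q
  obtain ⟨m, hm⟩ := exists_pow_separable (F := F) q a
  set K := Algebra.adjoin k ({a} : Set D) with hK
  let _ : Field K := fieldSub _ fun x hx y hy => by
    have hs : (({a} : Set D)) ⊆ {a, a} := by simp
    exact adjoin_pair_comm rfl x (Algebra.adjoin_mono hs hx) y (Algebra.adjoin_mono hs hy)
  let a' : K := ⟨a, Algebra.self_mem_adjoin_singleton k a⟩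
  have hint : ∀ y : K, IsIntegral k y := fun y =>
    (isIntegral_algHom_iff K.val Subtype.val_injective).mp (Algebra.IsIntegral.isIntegral _)
  have hsa : IsSeparable k a' := by
    have h := minpoly.algHom_eq K.val Subtype.val_injective a'
    unfold IsSeparable at ha ⊢
    rw [← h]
    exact ha
  have h1 := IntermediateField.adjoin_simple_eq_adjoin_pow_expChar_pow_of_isSeparable k K hsa q m
  have h2 : (minpoly k a').natDegree = (minpoly k (a' ^ q ^ m)).natDegree := by
    rw [← IntermediateField.adjoin.finrank (hint _), ← IntermediateField.adjoin.finrank (hint _),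
      h1]
  rw [← minpoly.algHom_eq K.val Subtype.val_injective a',
    ← minpoly.algHom_eq K.val Subtype.val_injective (a' ^ q ^ m)] at h2
  change (minpoly k a).natDegree = (minpoly k (a ^ q ^ m)).natDegree at h2
  rw [h2]
  refine le_trans ?_ (hd _ hm)
  have hdvd := minpoly.dvd_map_of_isScalarTower F k (a ^ q ^ m)
  refine (natDegree_le_of_dvd hdvd ?_).trans natDegree_map_le
  exact (Polynomial.map_ne_zero_iff (algebraMap F k).injective).mpr
    (minpoly.ne_zero (Algebra.IsIntegral.isIntegral _))

/-- Kurosh's question for bounded separable degree. -/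
theorem adjoin_finite_of_sepBounded (S : Finset D) {d : ℕ}
    (hd : ∀ a ∈ Algebra.adjoin F (S : Set D), IsSeparable F a → (minpoly F a).natDegree ≤ d) :
    FiniteDimensional F (Algebra.adjoin F (S : Set D)) := by
  classical
  set E := Algebra.adjoin F (S : Set D) with hE
  let _ : DivisionRing E := divSub E
  let k := Subring.center E
  let _ : Algebra F k :=
    ((algebraMap F E).codRestrict k fun r =>
      Subring.mem_center_iff.mpr fun y => (Algebra.commutes r y).symm).toAlgebra
  have : IsScalarTower F k E := IsScalarTower.of_algebraMap_eq fun _ => rfl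
  have : Algebra.IsAlgebraic F E := ⟨fun x =>
    ((isIntegral_algHom_iff E.val Subtype.val_injective).mp
      (Algebra.IsIntegral.isIntegral _)).isAlgebraic⟩
  have : Algebra.IsAlgebraic k E := Algebra.IsAlgebraic.tower_top (K := F) k
  have : Algebra.IsIntegral F k := ⟨fun x =>
    (isIntegral_algHom_iff (IsScalarTower.toAlgHom F k E) Subtype.val_injective).mp
      (Algebra.IsIntegral.isIntegral _)⟩
  have hbd : SepBounded F E d := fun a ha => by
    have h := minpoly.algHom_eq E.val Subtype.val_injective a
    rw [← h]
    refine hd a a.2 ?_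
    unfold IsSeparable at ha ⊢
    exact h ▸ ha
  have hcen : Central k E := fun z hz =>
    ⟨⟨z, Subring.mem_center_iff.mpr fun y => (hz y).symm⟩, rfl⟩
  obtain ⟨hfin, -⟩ := finite_of_sepBounded hcen (sepBounded_tower (F := F) (k := k) hbd)
  refine finite_over_base_of_finite_over_center (k := k) (S.attach.image fun s =>
    (⟨s.1, Algebra.subset_adjoin s.2⟩ : E)) ?_
  apply Subalgebra.map_injective (f := E.val) Subtype.val_injective
  rw [AlgHom.map_adjoin, Algebra.map_top, Subalgebra.range_val]
  congr 1
  ext y
  simp only [Finset.coe_image, Set.mem_image, Finset.coe_attach, Set.mem_univ, true_and]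
  exact ⟨fun ⟨z, ⟨s, hs⟩, hz⟩ => hz ▸ hs ▸ s.2, fun hy => ⟨⟨y, Algebra.subset_adjoin hy⟩,
    ⟨⟨y, hy⟩, rfl⟩, rfl⟩⟩

end Vale.Agent.P199
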