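import Vale.Agent.P199.Core

/-!
# Bounded separable degree implies local finiteness
-/

namespace Vale.Agent.P199

open Polynomial

/-- Every separable element has degree at most `d`. -/
def SepBounded (F D : Type*) [Field F] [Ring D] [Algebra F D] (d : ℕ) : Prop :=
  ∀ a : D, IsSeparable F a → (minpoly F a).natDegree ≤ d

variable {F D : Type*} [Field F] [DivisionRing D] [Algebra F D] [Algebra.IsAlgebraic F D]

theorem exists_pow_separable (q : ℕ) [ExpChar F q] (a : D) :
    ∃ m : ℕ, IsSeparable F (a ^ q ^ m) := by
  obtain ⟨g, h1, m, h2⟩ :=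
    (minpoly.irreducible (Algebra.IsIntegral.isIntegral (R := F) a)).hasSeparableContraction q
  exact ⟨m, h1.of_dvd <| minpoly.dvd F _ <| by
    simpa only [expand_aeval, minpoly.aeval] using congr_arg (aeval a) h2⟩

omit [Algebra.IsAlgebraic F D] in
theorem eq_algebraMap_of_separable_of_pow (q : ℕ) [ExpChar F q] {x : D} (hs : IsSeparable F x)
    (m : ℕ) (h : x ^ q ^ m ∈ (algebraMap F D).range) : x ∈ (algebraMap F D).range := by
  have hdeg := (minpoly.natSepDegree_eq_one_iff_pow_mem (F := F) q).2 ⟨m, h⟩
  rw [hs.natSepDegree_eq_natDegree, minpoly.natDegree_eq_one_iff] at hdeg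
  exact hdeg

omit [Algebra.IsAlgebraic F D] in
theorem adjoin_pair_comm {a b : D} (hab : a * b = b * a) :
    ∀ x ∈ Algebra.adjoin F ({a, b} : Set D), ∀ y ∈ Algebra.adjoin F ({a, b} : Set D),
      x * y = y * x := by
  intro x hx y hy
  refine (Algebra.commute_of_mem_adjoin_of_forall_mem_commute hy fun c hc => ?_).eq
  refine (Algebra.commute_of_mem_adjoin_of_forall_mem_commute hx fun e he => ?_).symm
  rcases hc with rfl | rfl <;> rcases he with rfl | rfl
  · exact Commute.refl _
  · exact hab
  · exact hab.symm
  · exact Commute.refl _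

theorem adjoin_singleton_finite (a : D) : FiniteDimensional F (Algebra.adjoin F ({a} : Set D)) :=
  Module.Finite.iff_fg.mpr (Algebra.IsIntegral.isIntegral a).fg_adjoin_singleton

theorem finrank_adjoin_singleton (a : D) :
    Module.finrank F (Algebra.adjoin F ({a} : Set D)) = (minpoly F a).natDegree := by
  have hfin := adjoin_singleton_finite (F := F) a
  set K := Algebra.adjoin F ({a} : Set D) with hK
  letI : Field K := fieldSub _ fun x hx y hy => by
    have hs : (({a} : Set D)) ⊆ {a, a} := by simp
    exact adjoin_pair_comm rfl x (Algebra.adjoin_mono hs hx) y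
      (Algebra.adjoin_mono hs hy)
  let a' : K := ⟨a, Algebra.self_mem_adjoin_singleton F a⟩
  have htop : Algebra.adjoin F ({a'} : Set K) = ⊤ := by
    apply Subalgebra.map_injective (f := K.val) Subtype.val_injective
    rw [AlgHom.map_adjoin, Algebra.map_top, Set.image_singleton, Subalgebra.range_val]
    rfl
  have hint : IsIntegral F a' := Algebra.IsIntegral.isIntegral a'
  have hI : IntermediateField.adjoin F ({a'} : Set K) = ⊤ := by
    apply IntermediateField.toSubalgebra_injective
    rw [IntermediateField.adjoin_toSubalgebra_of_isAlgebraic, htop]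
    · rfl
    · intro y hy
      rw [Set.mem_singleton_iff.mp hy]
      exact hint.isAlgebraic
  have h1 := IntermediateField.adjoin.finrank hint
  rw [hI, IntermediateField.finrank_top'] at h1
  rw [h1, ← minpoly.algHom_eq K.val Subtype.val_injective a']
  rfl

/-- A separable element of maximal degree absorbs the separable elements commuting with it. -/
theorem mem_adjoin_of_max {d : ℕ} {a b : D} (ha : IsSeparable F a) (hb : IsSeparable F b)
    (hab : a * b = b * a) (hdeg : (minpoly F a).natDegree = d) (hd : SepBounded F D d) :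
    b ∈ Algebra.adjoin F ({a} : Set D) := by
  have hfin1 := adjoin_singleton_finite (F := F) a
  set K := Algebra.adjoin F ({a, b} : Set D) with hK
  letI : Field K := fieldSub _ (adjoin_pair_comm hab)
  let a' : K := ⟨a, Algebra.subset_adjoin (Set.mem_insert _ _)⟩
  let b' : K := ⟨b, Algebra.subset_adjoin (Set.mem_insert_of_mem _ rfl)⟩
  have htop : Algebra.adjoin F ({a', b'} : Set K) = ⊤ := by
    apply Subalgebra.map_injective (f := K.val) Subtype.val_injective
    rw [AlgHom.map_adjoin, Algebra.map_top, Set.image_insert_eq, Set.image_singleton,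
      Subalgebra.range_val]
    rfl
  have hinta : ∀ y : K, IsIntegral F y := fun y =>
    (isIntegral_algHom_iff K.val Subtype.val_injective).mp (Algebra.IsIntegral.isIntegral _)
  have hfinK : FiniteDimensional F K := by
    refine ⟨?_⟩
    rw [← Algebra.top_toSubmodule, ← htop]
    exact fg_adjoin_of_finite (Set.toFinite _) fun y _ => hinta y
  have hsa : IsSeparable F a' := by
    have h := minpoly.algHom_eq K.val Subtype.val_injective a'
    unfold IsSeparable at ha ⊢
    rw [← h]
    exact ha
  have hsb : IsSeparable F b' := by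
    have h := minpoly.algHom_eq K.val Subtype.val_injective b'
    unfold IsSeparable at hb ⊢
    rw [← h]
    exact hb
  have hI : IntermediateField.adjoin F ({a', b'} : Set K) = ⊤ := by
    apply IntermediateField.toSubalgebra_injective
    rw [IntermediateField.adjoin_toSubalgebra_of_isAlgebraic, htop]
    · rfl
    · intro y _
      exact (hinta y).isAlgebraic
  have hsep : Algebra.IsSeparable F (IntermediateField.adjoin F ({a', b'} : Set K)) :=
    (IntermediateField.isSeparable_adjoin_iff_isSeparable F K).mpr fun y hy => by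
      rcases hy with rfl | rfl <;> assumption
  rw [hI] at hsep
  have hsepK : Algebra.IsSeparable F K := AlgEquiv.Algebra.isSeparable IntermediateField.topEquiv
  obtain ⟨θ, hθ⟩ := Field.exists_primitive_element F K
  have h1 : Module.finrank F K = (minpoly F θ).natDegree := by
    rw [← IntermediateField.adjoin.finrank (hinta θ), hθ, IntermediateField.finrank_top']
  have hθs : IsSeparable F (θ : D) := by
    have h := minpoly.algHom_eq K.val Subtype.val_injective θ
    have := Algebra.IsSeparable.isSeparable F θ
    unfold IsSeparable at this ⊢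
    rw [← h] at this
    exact this
  have h2 : Module.finrank F K ≤ Module.finrank F (Algebra.adjoin F ({a} : Set D)) := by
    rw [h1, finrank_adjoin_singleton, hdeg, ← minpoly.algHom_eq K.val Subtype.val_injective θ]
    exact hd _ hθs
  have hle : Algebra.adjoin F ({a} : Set D) ≤ K := Algebra.adjoin_mono (by simp)
  have : Algebra.adjoin F ({a} : Set D) = K := by
    apply Subalgebra.toSubmodule_injective
    exact Submodule.eq_of_le_of_finrank_le (S₂ := Subalgebra.toSubmodule K) hle h2
  rw [this]
  exact Algebra.subset_adjoin (Set.mem_insert_of_mem _ rfl)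

/-- Bounded separable degree over the centre implies finite dimension. -/
theorem finite_of_sepBounded (hZ : Central F D) {d : ℕ} (hd : SepBounded F D d) :
    FiniteDimensional F D ∧ Module.finrank F D ≤ d ^ 2 := by
  classical
  obtain ⟨q, hq⟩ := ExpChar.exists F
  let P : ℕ → Prop := fun k => ∃ a : D, IsSeparable F a ∧ (minpoly F a).natDegree = k
  have hone : IsSeparable F (1 : D) := by
    simpa using isSeparable_algebraMap (F := F) (K := D) (1 : F)
  have h1 : P 1 := ⟨1, hone, by rw [minpoly.one, ← C_1, natDegree_X_sub_C]⟩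
  have hd1 : 1 ≤ d := by
    have := hd 1 hone
    rwa [minpoly.one, ← C_1, natDegree_X_sub_C] at this
  set d0 := Nat.findGreatest P d with hd0
  obtain ⟨a, ha, hadeg⟩ : P d0 := Nat.findGreatest_spec hd1 h1
  have hmax : SepBounded F D d0 := fun b hb => Nat.le_findGreatest (hd b hb) ⟨b, hb, rfl⟩
  set L := Algebra.adjoin F ({a} : Set D) with hL
  have hfinL := adjoin_singleton_finite (F := F) a
  set C := Subalgebra.centralizer F (L : Set D) with hC
  have hLC : ∀ l ∈ L, ∀ c ∈ C, l * c = c * l := fun l hl c hc =>
    (Subalgebra.mem_centralizer_iff F).mp hc l hl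
  have hLsub : L ≤ C := by
    intro l hl
    rw [hC, Subalgebra.mem_centralizer_iff]
    intro g hg
    have hs : (({a} : Set D)) ⊆ {a, a} := by simp
    exact adjoin_pair_comm rfl g (Algebra.adjoin_mono hs hg) l (Algebra.adjoin_mono hs hl)
  have hpow : ∀ c ∈ C, ∃ m : ℕ, c ^ q ^ m ∈ L := by
    intro c hc
    obtain ⟨m, hm⟩ := exists_pow_separable (F := F) q c
    exact ⟨m, mem_adjoin_of_max ha hm
      (hLC a (Algebra.self_mem_adjoin_singleton F a) _ (pow_mem hc _)) hadeg hmax⟩
  letI : DivisionRing C := divSub C
  have hcomm : ∀ x y : C, x * y = y * x := by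
    by_contra hne
    let k := Subring.center C
    have : Algebra.IsAlgebraic k C := by
      constructor
      intro x
      obtain ⟨m, hm⟩ := hpow x x.2
      have hk : x ^ q ^ m ∈ k := Subring.mem_center_iff.mpr fun y =>
        Subtype.ext (by simpa using (hLC _ hm y y.2).symm)
      refine ⟨X ^ q ^ m - Polynomial.C (⟨x ^ q ^ m, hk⟩ : k), ?_, ?_⟩
      · exact X_pow_sub_C_ne_zero (pow_pos (expChar_pos F q) m) _
      · simp only [map_sub, map_pow, aeval_X, aeval_C]
        exact sub_eq_zero.mpr rfl
    have hkne : k ≠ ⊤ := fun htop => hne fun x y =>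
      (Subring.mem_center_iff.mp (htop ▸ Subring.mem_top x : x ∈ k) y).symm
    obtain ⟨x, hxk, hxs⟩ := JacobsonNoether.exists_separable_and_not_isCentral C hkne
    obtain ⟨m, hm⟩ := hpow x x.2
    have : ExpChar C q := expChar_of_injective_algebraMap (algebraMap F C).injective q
    have : ExpChar k q := (RingHom.expChar_iff k.subtype Subtype.val_injective q).mpr inferInstance
    have hk : x ^ q ^ m ∈ k := Subring.mem_center_iff.mpr fun y =>
      Subtype.ext (by simpa using (hLC _ hm y y.2).symm)
    obtain ⟨z, hz⟩ := eq_algebraMap_of_separable_of_pow (F := k) q hxs m ⟨⟨_, hk⟩, rfl⟩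
    exact hxk (hz ▸ z.2)
  have hle : C ≤ L := fun z hz => mem_of_commute_centralizer hZ L fun c hc =>
    congrArg Subtype.val (hcomm ⟨c, hc⟩ ⟨z, hz⟩)
  obtain ⟨hfin, hle'⟩ := finite_of_centralizer_le L hle
  refine ⟨hfin, hle'.trans ?_⟩
  rw [finrank_adjoin_singleton, hadeg]
  exact Nat.pow_le_pow_left (Nat.findGreatest_le d) 2

end Vale.Agent.P199
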