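import Vale.Agent.P199.SkewLaurent

/-!
P199: the symbol division algebra `D((U))((V; U ↦ ζ U))` over a division ring `D`, for a central `ζ ≠ 0` of `D`.
-/

namespace Vale.Agent.P199

noncomputable section

variable {D : Type} [DivisionRing D]

namespace SkewLaurent

variable (σ : RingAut D) (ζ : Dˣ)

/-- The scalar `ζ ^ n` as an operator. -/
def scalar (n : ℤ) : AddMonoid.End (ℤ → D) := wShift σ ((ζ ^ n : Dˣ) : D) 0

theorem fix_zpow (hs : σ (ζ : D) = ζ) (n i : ℤ) : (σ ^ i) ((ζ ^ n : Dˣ) : D) = (ζ ^ n : Dˣ) := by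
  have h1 : σ ((ζ ^ n : Dˣ) : D) = (ζ ^ n : Dˣ) := by
    rw [Units.val_zpow_eq_zpow_val, map_zpow₀, hs]
  induction i using Int.induction_on with
  | zero => rw [zpow_zero, RingAut.one_apply]
  | succ i ih => rw [zpow_add_one, RingAut.mul_apply, h1, ih]
  | pred i ih =>
    have h2 : σ⁻¹ ((ζ ^ n : Dˣ) : D) = (ζ ^ n : Dˣ) := by
      conv_lhs => rw [← h1]
      exact σ.symm_apply_apply _
    rw [zpow_sub_one, RingAut.mul_apply, h2, ih]

variable (hc : ∀ a : D, (ζ : D) * a = a * ζ) (hs : σ (ζ : D) = ζ)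
include hc hs

theorem scalar_comm {i : ℤ} {E : AddMonoid.End (ℤ → D)} (hE : E ∈ grade σ i) (n : ℤ) :
    E * scalar σ ζ n = scalar σ ζ n * E := by
  obtain ⟨a, rfl⟩ := hE
  rw [scalar, wShift_mul, wShift_mul, fix_zpow σ ζ hs, zpow_zero, RingAut.one_apply, add_zero,
    zero_add, Units.val_zpow_eq_zpow_val]
  exact congrArg (fun b => wShift σ b i) (Commute.zpow_right₀ (hc a).symm n)

omit hc in
theorem scalar_add (i j : ℤ) : scalar σ ζ (i + j) = scalar σ ζ i * scalar σ ζ j := by
  rw [scalar, scalar, scalar, wShift_mul, fix_zpow σ ζ hs, add_zero, zpow_add, Units.val_mul]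

omit hc in
theorem scalar_mul_eq_zero {n : ℤ} {E : AddMonoid.End (ℤ → D)} : scalar σ ζ n * E = 0 ↔ E = 0 := by
  refine ⟨fun h => ?_, fun h => by rw [h, mul_zero]⟩
  have h0 : scalar σ ζ 0 = 1 := by rw [scalar, zpow_zero, Units.val_one, wShift_one]
  rw [← one_mul E, ← h0, ← neg_add_cancel n, scalar_add σ ζ hs, mul_assoc, h, mul_zero]

/-- Multiply the coefficient of `t ^ n` by `ζ ^ n`. -/
def scaleHom : SkewLaurent σ →+* SkewLaurent σ where
  toFun f :=
    ⟨{ coeff := fun n => scalar σ ζ n * f.1.coeff n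
       isPWO_support' := f.1.isPWO_support.mono fun n hn h0 => hn (by
        show scalar σ ζ n * f.1.coeff n = 0
        rw [h0, mul_zero]) },
      fun n => by
        have := grade_mul σ (i := 0) ⟨((ζ ^ n : Dˣ) : D), rfl⟩ (f.2 n)
        rwa [zero_add] at this⟩
  map_one' := Subtype.ext (HahnSeries.ext (funext fun n => by
    show scalar σ ζ n * (1 : HahnSeries ℤ (AddMonoid.End (ℤ → D))).coeff n =
      (1 : HahnSeries ℤ (AddMonoid.End (ℤ → D))).coeff n
    rw [HahnSeries.coeff_one]
    split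
    · subst_vars
      rw [scalar, zpow_zero, Units.val_one, wShift_one, mul_one]
    · rw [mul_zero]))
  map_zero' := Subtype.ext (HahnSeries.ext (funext fun n => mul_zero _))
  map_add' f g := Subtype.ext (HahnSeries.ext (funext fun n => mul_add _ _ _))
  map_mul' f g := Subtype.ext (HahnSeries.ext (funext fun n => by
    show scalar σ ζ n * (f.1 * g.1).coeff n = (({ coeff := _, isPWO_support' := _ } :
      HahnSeries ℤ (AddMonoid.End (ℤ → D))) * { coeff := _, isPWO_support' := _ }).coeff n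
    rw [HahnSeries.coeff_mul, HahnSeries.coeff_mul, Finset.mul_sum]
    refine Finset.sum_congr ?_ fun p hp => ?_
    · ext p
      simp [HahnSeries.mem_support, scalar_mul_eq_zero σ ζ hs]
    · rw [← (Finset.mem_antidiagonal.1 hp).2.2, scalar_add σ ζ hs, mul_assoc,
        ← mul_assoc (scalar σ ζ p.2), ← scalar_comm σ ζ hc hs (f.2 p.1)]
      simp only [mul_assoc]))

theorem cf_scaleHom (f : SkewLaurent σ) (n : ℤ) :
    cf (scaleHom σ ζ hc hs f) n = ((ζ ^ n : Dˣ) : D) * cf f n := by
  show evalOne (scalar σ ζ n * f.1.coeff n) = _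
  rw [coeff_eq f, scalar, wShift_mul, evalOne_wShift, zpow_zero, RingAut.one_apply]

omit hc hs in
theorem inv_central (hc : ∀ a : D, (ζ : D) * a = a * ζ) (a : D) :
    ((ζ⁻¹ : Dˣ) : D) * a = a * ((ζ⁻¹ : Dˣ) : D) :=
  (Commute.units_inv_left (hc a))

omit hc hs in
theorem inv_fixed (hs : σ (ζ : D) = ζ) : σ ((ζ⁻¹ : Dˣ) : D) = ((ζ⁻¹ : Dˣ) : D) := by
  rw [Units.val_inv_eq_inv_val, map_inv₀, hs]

/-- The automorphism `t ↦ ζ t`. -/
def scaleAut : RingAut (SkewLaurent σ) :=
  RingEquiv.ofRingHom (scaleHom σ ζ hc hs)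
    (scaleHom σ ζ⁻¹ (inv_central ζ hc) (inv_fixed σ ζ hs))
    (RingHom.ext fun f => ext_cf fun n => by
      simp only [RingHom.comp_apply, RingHom.id_apply]
      rw [cf_scaleHom, cf_scaleHom, ← mul_assoc, ← Units.val_mul, inv_zpow, mul_inv_cancel,
        Units.val_one, one_mul])
    (RingHom.ext fun f => ext_cf fun n => by
      simp only [RingHom.comp_apply, RingHom.id_apply]
      rw [cf_scaleHom, cf_scaleHom, ← mul_assoc, ← Units.val_mul, inv_zpow, inv_mul_cancel,
        Units.val_one, one_mul])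

omit hc hs in
theorem T_natPow (k : ℤ) (m : ℕ) : T σ k ^ m = T σ ((m : ℤ) * k) := by
  induction m with
  | zero => rw [pow_zero, Nat.cast_zero, zero_mul, T_zero]
  | succ m ih => rw [pow_succ, ih, ← T_add, Nat.cast_succ, add_mul, one_mul]

omit hc hs in
/-- A power of `t` whose twist is trivial is central. -/
theorem T_central {k : ℤ} (hk : ∀ a : D, (σ ^ k) a = a) (f : SkewLaurent σ) :
    T σ k * f = f * T σ k := by
  refine Subtype.ext (HahnSeries.ext (funext fun n => ?_))
  show (HahnSeries.single k (wShift σ 1 k) * f.1).coeff n = (f.1 * HahnSeries.single k (wShift σ 1 k)).coeff n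
  rw [show n = (n - k) + k from (sub_add_cancel n k).symm, HahnSeries.coeff_single_mul_add,
    HahnSeries.coeff_mul_single_add, coeff_eq f, wShift_mul, wShift_mul]
  rw [hk, map_one, one_mul, mul_one, add_comm]

omit hc hs in
/-- A central element fixed by the twist gives a central constant. -/
theorem C_central {a : D} (hc : ∀ b : D, a * b = b * a) (hs : σ a = a) (f : SkewLaurent σ) :
    C σ a * f = f * C σ a := by
  refine Subtype.ext (HahnSeries.ext (funext fun n => ?_))
  show (HahnSeries.single 0 (wShift σ a 0) * f.1).coeff n = (f.1 * HahnSeries.single 0 (wShift σ a 0)).coeff n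
  rw [show n = n + 0 from (add_zero n).symm, HahnSeries.coeff_single_mul_add,
    HahnSeries.coeff_mul_single_add, coeff_eq f, wShift_mul, wShift_mul]
  have hfix : ∀ i : ℤ, (σ ^ i) a = a := by
    intro i
    induction i using Int.induction_on with
    | zero => rw [zpow_zero, RingAut.one_apply]
    | succ i ih => rw [zpow_add_one, RingAut.mul_apply, hs, ih]
    | pred i ih =>
      have h2 : σ⁻¹ a = a := by
        conv_lhs => rw [← hs]
        exact σ.symm_apply_apply _
      rw [zpow_sub_one, RingAut.mul_apply, h2, ih]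
  rw [hfix, zpow_zero, RingAut.one_apply, hc, zero_add, add_zero]

end SkewLaurent

section SymbolAlgebra

open SkewLaurent

variable (ζ : Dˣ) (hc : ∀ a : D, (ζ : D) * a = a * ζ)

/-- `U ↦ ζ U` on `D((U))`. -/
def symTwist : RingAut (SkewLaurent (1 : RingAut D)) :=
  scaleAut 1 ζ hc (RingAut.one_apply _)

/-- The symbol division algebra. -/
abbrev Sym : Type := SkewLaurent (symTwist ζ hc)

/-- The inclusion of `D`. -/
def symC : D →+* Sym ζ hc := (SkewLaurent.C (symTwist ζ hc)).comp (SkewLaurent.C 1)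

/-- The first generator. -/
def symU : Sym ζ hc := SkewLaurent.C _ (SkewLaurent.T 1 1)

/-- The second generator. -/
def symV : Sym ζ hc := SkewLaurent.T _ 1

theorem cf_symTwist (f : SkewLaurent (1 : RingAut D)) (n : ℤ) :
    cf (symTwist ζ hc f) n = ((ζ ^ n : Dˣ) : D) * cf f n :=
  cf_scaleHom 1 ζ hc (RingAut.one_apply _) f n

theorem symC_injective : Function.Injective (symC ζ hc) :=
  (SkewLaurent.C_injective _).comp (SkewLaurent.C_injective _)

theorem symTwist_C (a : D) : symTwist ζ hc (SkewLaurent.C 1 a) = SkewLaurent.C 1 a :=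
  ext_cf fun n => by
    rw [cf_symTwist, cf_C]
    split
    · subst_vars; simp
    · simp

theorem symTwist_T (n : ℤ) :
    symTwist ζ hc (SkewLaurent.T 1 n) =
      SkewLaurent.C 1 ((ζ ^ n : Dˣ) : D) * SkewLaurent.T 1 n :=
  ext_cf fun m => by
    rw [cf_symTwist, cf_T]
    show _ = evalOne ((HahnSeries.single 0 (wShift (1 : RingAut D) ((ζ ^ n : Dˣ) : D) 0) *
      HahnSeries.single n (wShift (1 : RingAut D) 1 n)).coeff m)
    rw [HahnSeries.single_mul_single, zero_add, HahnSeries.coeff_single, wShift_mul]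
    split
    · subst_vars; simp [evalOne_wShift]
    · simp

/-- `V U = ζ U V`. -/
theorem symV_mul_symU : symV ζ hc * symU ζ hc = symC ζ hc ζ * symU ζ hc * symV ζ hc := by
  rw [symV, symU, SkewLaurent.T_mul_C, zpow_one, symTwist_T, map_mul, zpow_one]
  rfl

theorem symC_comm_symV (a : D) : symV ζ hc * symC ζ hc a = symC ζ hc a * symV ζ hc := by
  rw [symV, symC, RingHom.comp_apply, SkewLaurent.T_mul_C, zpow_one, symTwist_C]

theorem symC_comm_symU (a : D) : symU ζ hc * symC ζ hc a = symC ζ hc a * symU ζ hc := by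
  rw [symU, symC, RingHom.comp_apply, ← map_mul, ← map_mul, SkewLaurent.T_mul_C, one_zpow_apply]

/-- A central element of `D` stays central. -/
theorem symC_central {a : D} (ha : ∀ b : D, a * b = b * a) (z : Sym ζ hc) :
    symC ζ hc a * z = z * symC ζ hc a :=
  SkewLaurent.C_central _ (fun b => SkewLaurent.C_central 1 ha (RingAut.one_apply a) b)
    (symTwist_C ζ hc a) z

/-- If `ζ ^ l = 1` then `U ^ l` is central. -/
theorem symU_pow_central {l : ℕ} (hl : ζ ^ l = 1) (z : Sym ζ hc) :
    symU ζ hc ^ l * z = z * symU ζ hc ^ l := by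
  rw [symU, ← map_pow, SkewLaurent.T_natPow, mul_one]
  refine SkewLaurent.C_central _ (fun f => SkewLaurent.T_central 1 (one_zpow_apply _) f) ?_ z
  rw [symTwist_T, zpow_natCast, hl, Units.val_one, map_one, one_mul]

/-- If `ζ ^ l = 1` then `V ^ l` is central. -/
theorem symV_pow_central {l : ℕ} (hl : ζ ^ l = 1) (z : Sym ζ hc) :
    symV ζ hc ^ l * z = z * symV ζ hc ^ l := by
  rw [symV, SkewLaurent.T_natPow, mul_one]
  refine SkewLaurent.T_central _ (fun f => ext_cf fun n => ?_) z
  have h : ∀ m : ℕ, cf ((symTwist ζ hc ^ m) f) n = (((ζ ^ n) ^ m : Dˣ) : D) * cf f n := by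
    intro m
    induction m with
    | zero => simp [RingAut.one_apply]
    | succ m ih =>
      rw [pow_succ', RingAut.mul_apply, cf_symTwist, ih, ← mul_assoc, ← Units.val_mul, pow_succ']
  rw [zpow_natCast, h l, ← zpow_natCast (ζ ^ n) l, ← zpow_mul, mul_comm, zpow_mul, zpow_natCast,
    hl, one_zpow, Units.val_one, one_mul]

end SymbolAlgebra

end

end Vale.Agent.P199
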