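import Vale.Agent.P199.Symbol
import Vale.Agent.P199.Averaging

/-!
P199: coefficientwise computations in the symbol division algebra `Sym ζ hc`: products with the generators, central
elements, coordinates along a basis of `D`.
-/

namespace Vale.Agent.P199

open Finset

noncomputable section

variable {D : Type} [DivisionRing D]

namespace SkewLaurent

variable {σ : RingAut D}

theorem cf_zero (n : ℤ) : cf (0 : SkewLaurent σ) n = 0 := rfl

theorem cf_finsetSum {ι : Type*} (s : Finset ι) (f : ι → SkewLaurent σ) (n : ℤ) :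
    cf (∑ i ∈ s, f i) n = ∑ i ∈ s, cf (f i) n := by
  classical
  induction s using Finset.induction_on with
  | empty => rw [sum_empty, sum_empty, cf_zero]
  | insert a s ha ih => rw [sum_insert ha, sum_insert ha, cf_add, ih]

theorem cf_C_mul (a : D) (f : SkewLaurent σ) (n : ℤ) : cf (C σ a * f) n = a * cf f n := by
  show evalOne ((HahnSeries.single 0 (wShift σ a 0) * f.1).coeff n) = _
  rw [show n = n + 0 from (add_zero n).symm, HahnSeries.coeff_single_mul_add, coeff_eq, wShift_mul,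
    evalOne_wShift, add_zero, zpow_zero, RingAut.one_apply]

theorem cf_mul_C (f : SkewLaurent σ) (a : D) (n : ℤ) : cf (f * C σ a) n = cf f n * (σ ^ n) a := by
  show evalOne ((f.1 * HahnSeries.single 0 (wShift σ a 0)).coeff n) = _
  rw [show n = n + 0 from (add_zero n).symm, HahnSeries.coeff_mul_single_add, coeff_eq, wShift_mul,
    evalOne_wShift, add_zero]

theorem cf_mul_T (f : SkewLaurent σ) (k n : ℤ) : cf (f * T σ k) n = cf f (n - k) := by
  show evalOne ((f.1 * HahnSeries.single k (wShift σ 1 k)).coeff n) = _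
  rw [show n = (n - k) + k from (sub_add_cancel n k).symm, HahnSeries.coeff_mul_single_add,
    coeff_eq, wShift_mul, evalOne_wShift, map_one, mul_one, add_sub_cancel_right]

theorem cf_T_mul (f : SkewLaurent σ) (k n : ℤ) :
    cf (T σ k * f) n = (σ ^ k) (cf f (n - k)) := by
  show evalOne ((HahnSeries.single k (wShift σ 1 k) * f.1).coeff n) = _
  rw [show n = (n - k) + k from (sub_add_cancel n k).symm, HahnSeries.coeff_single_mul_add,
    coeff_eq, wShift_mul, evalOne_wShift, one_mul, add_sub_cancel_right]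

theorem zpow_fix {a : D} (h : σ a = a) (n : ℤ) : (σ ^ n) a = a := by
  induction n using Int.induction_on with
  | zero => rw [zpow_zero, RingAut.one_apply]
  | succ i ih => rw [zpow_add_one, RingAut.mul_apply, h, ih]
  | pred i ih =>
    have h2 : σ⁻¹ a = a := by
      conv_lhs => rw [← h]
      exact σ.symm_apply_apply _
    rw [zpow_sub_one, RingAut.mul_apply, h2, ih]

/-- A series is central if its coefficients are central and fixed, at places of trivial twist. -/
theorem central_of_cf {f : SkewLaurent σ}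
    (h : ∀ n, cf f n ≠ 0 →
      (∀ a, cf f n * a = a * cf f n) ∧ σ (cf f n) = cf f n ∧ ∀ a, (σ ^ n) a = a)
    (g : SkewLaurent σ) : f * g = g * f := by
  refine ext_cf fun n => ?_
  rw [cf_mul, cf_mul]
  refine Finset.sum_bij' (fun p _ => (p.2, p.1)) (fun p _ => (p.2, p.1)) ?_ ?_
    (fun _ _ => rfl) (fun _ _ => rfl) ?_
  · intro p hp
    obtain ⟨h1, h2, h3⟩ := Finset.mem_antidiagonal.1 hp
    exact Finset.mem_antidiagonal.2 ⟨h2, h1, by omega⟩
  · intro p hp
    obtain ⟨h1, h2, h3⟩ := Finset.mem_antidiagonal.1 hp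
    exact Finset.mem_antidiagonal.2 ⟨h2, h1, by omega⟩
  · intro p _
    rcases eq_or_ne (cf f p.1) 0 with h0 | h0
    · rw [h0, zero_mul, map_zero, mul_zero]
    · obtain ⟨h1, h2, h3⟩ := h p.1 h0
      rw [h3, zpow_fix h2, h1]

variable (σ) in
/-- Apply an additive map in each coefficient. -/
def mapCf (φ : ℤ → D →+ D) : SkewLaurent σ →+ SkewLaurent σ where
  toFun f :=
    ⟨{ coeff := fun n => wShift σ (φ n (cf f n)) n
       isPWO_support' := f.1.isPWO_support.mono fun n hn h0 => hn (by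
        show wShift σ (φ n (cf f n)) n = 0
        rw [show cf f n = 0 from (congrArg evalOne h0).trans (map_zero _), map_zero, wShift_zero]) },
      fun n => ⟨φ n (cf f n), rfl⟩⟩
  map_zero' := ext_cf fun n => by
    show evalOne (wShift σ (φ n (cf (0 : SkewLaurent σ) n)) n) = _
    rw [evalOne_wShift, cf_zero, map_zero]
  map_add' f g := ext_cf fun n => by
    rw [cf_add]
    show evalOne (wShift σ (φ n (cf (f + g) n)) n) =
      evalOne (wShift σ (φ n (cf f n)) n) + evalOne (wShift σ (φ n (cf g n)) n)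
    rw [evalOne_wShift, evalOne_wShift, evalOne_wShift, cf_add, map_add]

theorem cf_mapCf (φ : ℤ → D →+ D) (f : SkewLaurent σ) (n : ℤ) :
    cf (mapCf σ φ f) n = φ n (cf f n) :=
  evalOne_wShift σ _ _

end SkewLaurent

open SkewLaurent

variable (ζ : Dˣ) (hc : ∀ a : D, (ζ : D) * a = a * ζ)

/-- The coefficient of `U ^ m V ^ n`, written on the left. -/
def cf2 (z : Sym ζ hc) (n m : ℤ) : D := cf (cf z n) m

theorem ext_cf2 {f g : Sym ζ hc} (h : ∀ n m, cf2 ζ hc f n m = cf2 ζ hc g n m) : f = g :=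
  ext_cf fun n => ext_cf fun m => h n m

theorem cf_symTwist_zpow (n : ℤ) (f : SkewLaurent (1 : RingAut D)) (m : ℤ) :
    cf ((symTwist ζ hc ^ n) f) m = ((ζ ^ (n * m) : Dˣ) : D) * cf f m := by
  induction n using Int.induction_on generalizing f with
  | zero => simp [RingAut.one_apply]
  | succ i ih =>
    rw [zpow_add_one, RingAut.mul_apply, ih, cf_symTwist, ← mul_assoc, ← Units.val_mul,
      ← zpow_add, add_mul, one_mul]
  | pred i ih =>
    have h : symTwist ζ hc ((symTwist ζ hc)⁻¹ f) = f := (symTwist ζ hc).apply_symm_apply f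
    have h2 := congrArg (fun g => cf g m) h
    simp only [cf_symTwist] at h2
    rw [zpow_sub_one, RingAut.mul_apply, ih, ← h2, ← mul_assoc, ← Units.val_mul, ← zpow_add,
      sub_mul, one_mul, sub_add_cancel]

theorem cf2_symC_mul (a : D) (z : Sym ζ hc) (n m : ℤ) :
    cf2 ζ hc (symC ζ hc a * z) n m = a * cf2 ζ hc z n m := by
  rw [cf2, symC, RingHom.comp_apply, cf_C_mul, cf_C_mul]
  rfl

theorem cf2_mul_symC (z : Sym ζ hc) (a : D) (n m : ℤ) :
    cf2 ζ hc (z * symC ζ hc a) n m = cf2 ζ hc z n m * a := by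
  rw [cf2, symC, RingHom.comp_apply, cf_mul_C, zpow_fix (symTwist_C ζ hc a), cf_mul_C,
    one_zpow_apply]
  rfl

theorem cf2_symV_mul (z : Sym ζ hc) (n m : ℤ) :
    cf2 ζ hc (symV ζ hc * z) n m = ((ζ ^ m : Dˣ) : D) * cf2 ζ hc z (n - 1) m := by
  rw [cf2, symV, cf_T_mul, cf_symTwist_zpow, one_mul]
  rfl

theorem cf2_mul_symV (z : Sym ζ hc) (n m : ℤ) :
    cf2 ζ hc (z * symV ζ hc) n m = cf2 ζ hc z (n - 1) m := by
  rw [cf2, symV, cf_mul_T]
  rfl

theorem cf2_symU_mul (z : Sym ζ hc) (n m : ℤ) :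
    cf2 ζ hc (symU ζ hc * z) n m = cf2 ζ hc z n (m - 1) := by
  rw [cf2, symU, cf_C_mul, cf_T_mul, one_zpow_apply]
  rfl

theorem cf2_mul_symU (z : Sym ζ hc) (n m : ℤ) :
    cf2 ζ hc (z * symU ζ hc) n m = cf2 ζ hc z n (m - 1) * ((ζ ^ n : Dˣ) : D) := by
  rw [cf2, symU, cf_mul_C, zpow_fix_T, ← mul_assoc, cf_mul_T, cf_mul_C, one_zpow_apply]
  rfl
where
  zpow_fix_T {n : ℤ} : (symTwist ζ hc ^ n) (T 1 1) = C 1 ((ζ ^ n : Dˣ) : D) * T 1 1 := ext_cf fun k => by
    rw [cf_symTwist_zpow, cf_C_mul, cf_T]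
    split
    · subst_vars; simp
    · rw [mul_zero, mul_zero]

variable {l : ℕ} (hζ : orderOf ζ = l)
include hζ

/-- A series with central coefficients at multiples of `l` is central. -/
theorem sym_central_of {z : Sym ζ hc}
    (h : ∀ n m, cf2 ζ hc z n m ≠ 0 →
      (l : ℤ) ∣ n ∧ (l : ℤ) ∣ m ∧ ∀ a, cf2 ζ hc z n m * a = a * cf2 ζ hc z n m)
    (g : Sym ζ hc) : z * g = g * z := by
  refine central_of_cf (fun n hn => ?_) g
  have hm : ∃ m, cf2 ζ hc z n m ≠ 0 := by
    by_contra h0
    push Not at h0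
    exact hn (ext_cf fun m => h0 m)
  obtain ⟨m₀, hm₀⟩ := hm
  refine ⟨fun f => central_of_cf (fun m hm => ⟨(h n m hm).2.2, RingAut.one_apply _,
    one_zpow_apply m⟩) f, ext_cf fun m => ?_, fun f => ext_cf fun m => ?_⟩
  · rw [cf_symTwist]
    rcases eq_or_ne (cf (cf z n) m) 0 with h0 | h0
    · rw [h0, mul_zero]
    · rw [orderOf_dvd_iff_zpow_eq_one.1 (hζ ▸ (h n m h0).2.1), Units.val_one, one_mul]
  · rw [cf_symTwist_zpow, orderOf_dvd_iff_zpow_eq_one.1 (hζ ▸ dvd_mul_of_dvd_left (h n m₀ hm₀).1 m),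
      Units.val_one, one_mul]

/-- What commutes with `U` and `V` is supported on multiples of `l`. -/
theorem dvd_of_commute {z : Sym ζ hc} (hU : Commute (symU ζ hc) z) (hV : Commute (symV ζ hc) z)
    {n m : ℤ} (h : cf2 ζ hc z n m ≠ 0) : (l : ℤ) ∣ n ∧ (l : ℤ) ∣ m := by
  constructor
  · have h1 := congrArg (fun w => cf2 ζ hc w n (m + 1)) hU.eq
    simp only [cf2_symU_mul, cf2_mul_symU, add_sub_cancel_right] at h1
    rw [← hζ, orderOf_dvd_iff_zpow_eq_one, ← Units.val_inj, Units.val_one]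
    exact mul_left_cancel₀ h (h1.symm.trans (mul_one _).symm)
  · have h1 := congrArg (fun w => cf2 ζ hc w (n + 1) m) hV.eq
    simp only [cf2_symV_mul, cf2_mul_symV, add_sub_cancel_right] at h1
    rw [← hζ, orderOf_dvd_iff_zpow_eq_one, ← Units.val_inj, Units.val_one]
    exact mul_right_cancel₀ h (h1.trans (one_mul _).symm)

/-- What commutes with `D`, `U` and `V` is central. -/
theorem sym_mem_center {z : Sym ζ hc} (hD : ∀ a, Commute (symC ζ hc a) z)
    (hU : Commute (symU ζ hc) z) (hV : Commute (symV ζ hc) z) :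
    z ∈ Subring.center (Sym ζ hc) := by
  refine Subring.mem_center_iff.2 fun g => (sym_central_of ζ hc hζ (fun n m h => ?_) g).symm
  refine ⟨(dvd_of_commute ζ hc hζ hU hV h).1, (dvd_of_commute ζ hc hζ hU hV h).2, fun a => ?_⟩
  have h1 := congrArg (fun w => cf2 ζ hc w n m) (hD a).eq
  simp only [cf2_symC_mul, cf2_mul_symC] at h1
  exact h1.symm

variable {K : Type} [Field K] [Algebra K D] {ι : Type} [Fintype ι]

omit hζ

/-- The coordinates along a basis of `D`. -/
def symCoord (b : Module.Basis ι K D) (i : ι) : Sym ζ hc →+ Sym ζ hc :=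
  mapCf _ fun _ => mapCf _ fun _ =>
    ((algebraMap K D).toAddMonoidHom).comp ((b.coord i).toAddMonoidHom)

omit [Fintype ι] in
theorem cf2_symCoord (b : Module.Basis ι K D) (i : ι) (z : Sym ζ hc) (n m : ℤ) :
    cf2 ζ hc (symCoord ζ hc b i z) n m = algebraMap K D (b.coord i (cf2 ζ hc z n m)) := by
  rw [cf2, symCoord, cf_mapCf, cf_mapCf]
  rfl

theorem sum_symC_symCoord (b : Module.Basis ι K D) (z : Sym ζ hc) :
    ∑ i, symC ζ hc (b i) * symCoord ζ hc b i z = z := by
  refine ext_cf2 ζ hc fun n m => ?_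
  rw [cf2, cf_finsetSum, cf_finsetSum]
  show ∑ i, cf2 ζ hc _ n m = _
  simp only [cf2_symC_mul, cf2_symCoord, ← Algebra.commutes, ← Algebra.smul_def,
    Module.Basis.coord_apply]
  exact b.sum_repr _

include hζ

omit [Fintype ι] in
theorem symCoord_mem_center (b : Module.Basis ι K D) (i : ι) {z : Sym ζ hc}
    (hU : Commute (symU ζ hc) z) (hV : Commute (symV ζ hc) z) :
    symCoord ζ hc b i z ∈ Subring.center (Sym ζ hc) := by
  refine Subring.mem_center_iff.2 fun g => (sym_central_of ζ hc hζ (fun n m h => ?_) g).symm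
  rw [cf2_symCoord] at h ⊢
  refine ⟨(dvd_of_commute ζ hc hζ hU hV (n := n) (m := m) fun h0 => ?_).1,
    (dvd_of_commute ζ hc hζ hU hV (n := n) (m := m) fun h0 => ?_).2,
    Algebra.commutes _⟩ <;> exact h (by rw [h0, map_zero, map_zero])

/-- `U` as a unit. -/
def symUu : (Sym ζ hc)ˣ :=
  Units.mk0 (symU ζ hc) fun h => one_ne_zero (α := D) <| by
    simpa [cf_T, cf_C, cf_zero, symU, cf2] using
      congrArg (fun z => cf2 ζ hc z 0 1) h

/-- `V` as a unit. -/
def symVu : (Sym ζ hc)ˣ :=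
  Units.mk0 (symV ζ hc) ((SkewLaurent.isUnit_T (σ := symTwist ζ hc) 1).ne_zero)

omit hζ

theorem symC_commute (a : D) :
    Commute (symU ζ hc) (symC ζ hc a) ∧ Commute (symV ζ hc) (symC ζ hc a) :=
  ⟨symC_comm_symU ζ hc a, symC_comm_symV ζ hc a⟩

/-- The monomial `a * (U ^ i * V ^ j)`. -/
def symMonomial {ι : Type*} (b : ι → D) (p : ι × Fin l × Fin l) : Sym ζ hc :=
  symC ζ hc (b p.1) * (symU ζ hc ^ (p.2.1 : ℕ) * symV ζ hc ^ (p.2.2 : ℕ))

/-- Every division ring is central over its centre. -/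
theorem isCentral_center (A : Type) [DivisionRing A] : Algebra.IsCentral (Subring.center A) A :=
  ⟨fun z hz => Algebra.mem_bot.2
    ⟨⟨z, Subring.mem_center_iff.2 (Subalgebra.mem_center_iff.1 hz)⟩, rfl⟩⟩

end

end Vale.Agent.P199
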