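import Mathlib

/-!
P199: ultraproducts of rings, of division rings and of fields.
-/

namespace Vale.Agent.P199

open Filter

/-- Eventual equality along an ultrafilter, as a ring congruence on a product. -/
def uCon (U : Ultrafilter ℕ) (R : ℕ → Type) [∀ n, Ring (R n)] : RingCon (∀ n, R n) where
  r f g := ∀ᶠ n in (U : Filter ℕ), f n = g n
  iseqv :=
    { refl := fun _ => Eventually.of_forall fun _ => rfl
      symm := fun h => h.mono fun _ e => e.symm
      trans := fun h h' => (h.and h').mono fun _ e => e.1.trans e.2 }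
  add' h h' := (h.and h').mono fun n e => by simp [e.1, e.2]
  mul' h h' := (h.and h').mono fun n e => by simp [e.1, e.2]

/-- The ultraproduct. -/
abbrev UProd (U : Ultrafilter ℕ) (R : ℕ → Type) [∀ n, Ring (R n)] : Type := (uCon U R).Quotient

/-- The quotient map. -/
def uMk (U : Ultrafilter ℕ) (R : ℕ → Type) [∀ n, Ring (R n)] : (∀ n, R n) →+* UProd U R :=
  (uCon U R).mk'

section Ring

variable {U : Ultrafilter ℕ} {R : ℕ → Type} [∀ n, Ring (R n)]

theorem uMk_surjective : Function.Surjective (uMk U R) := fun a => Quotient.exists_rep a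

theorem uMk_eq_iff {f g : ∀ n, R n} :
    uMk U R f = uMk U R g ↔ ∀ᶠ n in (U : Filter ℕ), f n = g n :=
  RingCon.eq _

theorem uMk_eq_zero {f : ∀ n, R n} : uMk U R f = 0 ↔ ∀ᶠ n in (U : Filter ℕ), f n = 0 := by
  rw [← map_zero (uMk U R), uMk_eq_iff]
  rfl

theorem uMk_ne_zero {f : ∀ n, R n} : uMk U R f ≠ 0 ↔ ∀ᶠ n in (U : Filter ℕ), f n ≠ 0 := by
  rw [Ne, uMk_eq_zero]
  exact Ultrafilter.eventually_not.symm

end Ring

section DivisionRing

variable {U : Ultrafilter ℕ} {R : ℕ → Type} [∀ n, DivisionRing (R n)]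

theorem uProd_isUnit_or_eq_zero (a : UProd U R) : IsUnit a ∨ a = 0 := by
  obtain ⟨f, rfl⟩ := uMk_surjective a
  by_cases h : ∀ᶠ n in (U : Filter ℕ), f n = 0
  · exact Or.inr (uMk_eq_zero.2 h)
  · refine Or.inl ⟨⟨uMk U R f, uMk U R fun n => (f n)⁻¹, ?_, ?_⟩, rfl⟩
    · rw [← map_mul, ← map_one (uMk U R), uMk_eq_iff]
      exact (Ultrafilter.eventually_not.2 h).mono fun n hn => mul_inv_cancel₀ hn
    · rw [← map_mul, ← map_one (uMk U R), uMk_eq_iff]
      exact (Ultrafilter.eventually_not.2 h).mono fun n hn => inv_mul_cancel₀ hn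

instance : Nontrivial (UProd U R) := by
  refine nontrivial_of_ne (uMk U R 1) 0 fun h => ?_
  obtain ⟨n, hn⟩ := (uMk_eq_zero.1 h).exists
  exact one_ne_zero hn

noncomputable instance uDivisionRing : DivisionRing (UProd U R) :=
  DivisionRing.ofIsUnitOrEqZero uProd_isUnit_or_eq_zero

end DivisionRing

section Field

variable {U : Ultrafilter ℕ} {K : ℕ → Type} [∀ n, Field (K n)]

theorem uProd_mul_comm (a b : UProd U K) : a * b = b * a := by
  obtain ⟨f, rfl⟩ := uMk_surjective a
  obtain ⟨g, rfl⟩ := uMk_surjective b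
  rw [← map_mul, ← map_mul, mul_comm]

noncomputable instance (priority := 2000) uField : Field (UProd U K) :=
  { (uDivisionRing : DivisionRing (UProd U K)) with mul_comm := uProd_mul_comm }

end Field

section Algebra

variable (U : Ultrafilter ℕ) (K D : ℕ → Type) [∀ n, Field (K n)] [∀ n, DivisionRing (D n)]
  [∀ n, Algebra (K n) (D n)]

/-- The coordinatewise algebra map. -/
def piAlgMap : (∀ n, K n) →+* ∀ n, D n where
  toFun c n := algebraMap (K n) (D n) (c n)
  map_one' := funext fun n => map_one _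
  map_mul' a b := funext fun n => map_mul _ _ _
  map_zero' := funext fun n => map_zero _
  map_add' a b := funext fun n => map_add _ _ _

theorem uAlg_respects {c c' : ∀ n, K n} (h : uCon U K c c') :
    uMk U D (piAlgMap K D c) = uMk U D (piAlgMap K D c') :=
  uMk_eq_iff.2 (Eventually.mono h fun n e => congrArg (algebraMap (K n) (D n)) e)

/-- The structure map of the ultraproduct algebra. -/
def uAlgMap : UProd U K →+* UProd U D where
  toFun := Quotient.lift (fun c => uMk U D (piAlgMap K D c)) fun _ _ h => uAlg_respects U K D h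
  map_one' := by
    show uMk U D (piAlgMap K D 1) = 1
    rw [map_one, map_one]
  map_mul' a b := by
    obtain ⟨a, rfl⟩ := uMk_surjective a
    obtain ⟨b, rfl⟩ := uMk_surjective b
    show uMk U D (piAlgMap K D (a * b)) = uMk U D (piAlgMap K D a) * uMk U D (piAlgMap K D b)
    rw [map_mul, map_mul]
  map_zero' := by
    show uMk U D (piAlgMap K D 0) = 0
    rw [map_zero, map_zero]
  map_add' a b := by
    obtain ⟨a, rfl⟩ := uMk_surjective a
    obtain ⟨b, rfl⟩ := uMk_surjective b
    show uMk U D (piAlgMap K D (a + b)) = uMk U D (piAlgMap K D a) + uMk U D (piAlgMap K D b)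
    rw [map_add, map_add]

theorem uAlgMap_mk (c : ∀ n, K n) :
    uAlgMap U K D (uMk U K c) = uMk U D fun n => algebraMap (K n) (D n) (c n) := rfl

noncomputable instance uAlgebra : Algebra (UProd U K) (UProd U D) :=
  (uAlgMap U K D).toAlgebra' fun a x => by
    obtain ⟨c, rfl⟩ := uMk_surjective a
    obtain ⟨f, rfl⟩ := uMk_surjective x
    rw [uAlgMap_mk, ← map_mul, ← map_mul]
    exact congrArg _ (funext fun n => Algebra.commutes (c n) (f n))

theorem uMk_smul (c : ∀ n, K n) (f : ∀ n, D n) :
    uMk U K c • uMk U D f = uMk U D fun n => c n • f n := by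
  show uAlgMap U K D (uMk U K c) * uMk U D f = _
  rw [uAlgMap_mk, ← map_mul]
  exact congrArg _ (funext fun n => (Algebra.smul_def (c n) (f n)).symm)

theorem uMk_sum_smul {ι : Type*} [Fintype ι] (c : ι → ∀ n, K n) (f : ι → ∀ n, D n) :
    ∑ i, uMk U K (c i) • uMk U D (f i) = uMk U D fun n => ∑ i, c i n • f i n := by
  simp only [uMk_smul]
  rw [← map_sum]
  exact congrArg _ (funext fun n => by simp [Finset.sum_apply])

end Algebra

end Vale.Agent.P199
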